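import Vale.Agent.P304.Bdl.B2

set_option linter.all false

/-!
# P304: one scale with a steep kernel

The kernel exponent is the Huber function up to `7/2` and has slope `slp` beyond.  This file is the
analogue of the one-scale part of `Bdl.B1` for this kernel.
-/

section

section

open Finset

namespace Vale.Agent.P304.Stp

open Vale.Agent.P304.Dyn

/-- the slope of the exponent of the kernel beyond `7/2` -/
class StP where
  sl : ℝ
  le : 2 ≤ sl

/-- the slope -/
noncomputable def slp [StP] : ℝ := StP.sl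

theorem two_le_slp [StP] : 2 ≤ slp := StP.le

theorem one_le_slp [StP] : 1 ≤ slp := one_le_two.trans two_le_slp

theorem slp_pos [StP] : 0 < slp := lt_of_lt_of_le two_pos two_le_slp

variable [StP]

/-- exponent: Huber function, steep beyond `7/2` -/
noncomputable def phi (t : ℝ) : ℝ := Dyn.phi t + (slp - 1) * max 0 (t - 7 / 2)

variable {X : Type} [Fintype X]

/-- the kernel -/
noncomputable def kern (D : X → X → ℝ) (u c : X) : ℝ := Real.exp (-(phi (D u c)))

/-- smoothed token mass -/
noncomputable def SS (D : X → X → ℝ) (ν : X → ℝ) (u : X) : ℝ := e0 + ∑ c, kern D u c * ν c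

/-- column load -/
noncomputable def col (D : X → X → ℝ) (p ν : X → ℝ) (c : X) : ℝ :=
  ∑ u, p u * kern D u c / SS D ν u

/-- the functional `F(p, ν) = ν(X) - ∫ p log S` -/
noncomputable def FF (D : X → X → ℝ) (p ν : X → ℝ) : ℝ :=
  ∑ c, ν c - ∑ u, p u * Real.log (SS D ν u)

/-- responsibilities -/
noncomputable def QQ (D : X → X → ℝ) (ν : X → ℝ) (u c : X) : ℝ := kern D u c * ν c / SS D ν u

/-- two-user overlap -/
noncomputable def TT (D : X → X → ℝ) (ν : X → ℝ) (u u' : X) : ℝ :=
  ∑ c, ν c * kern D u c * kern D u' c / (SS D ν u * SS D ν u')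

/-- the growth quantity `g` -/
noncomputable def gg (D : X → X → ℝ) (p ν : X → ℝ) (u : X) : ℝ :=
  ∑ u', p u' * min 1 (D u u') * TT D ν u u'

/-- the growth quantity times the slope -/
noncomputable def gs (D : X → X → ℝ) (p ν : X → ℝ) (u : X) : ℝ := slp * gg D p ν u

/-- `(p, ν)` is balanced (near-stationarity of `F(p, ·)`) -/
structure Bal (D : X → X → ℝ) (p ν : X → ℝ) : Prop where
  hp : ∀ u, 0 ≤ p u
  hν : ∀ c, 0 ≤ ν c
  hi : ∀ c, col D p ν c ≤ 8 / 5
  lo : ∀ c, 0 < ν c → 2 / 5 ≤ col D p ν c

/-- the dragging factor: when mass moves `u → v`, the fraction of the responsibility of the token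
at `c` that is dragged to `v` -/
noncomputable def ff (D : X → X → ℝ) (u v c : X) : ℝ :=
  if 1 / 32 < slp * D u v then 0 else if 3 < D u c then 0 else
    if D u c ≤ 64 * D u v then 1 else 64 * D u v / D u c

/-- label kernel with truncation `τ` -/
noncomputable def MM (τ : ℝ) (D : X → X → ℝ) (u c : X) : ℝ :=
  min 1 (max 0 (Real.exp 3 * kern D u c - τ))

/-- first order change of `F` when mass moves `u → v` and tokens are dragged -/
noncomputable def drift (D : X → X → ℝ) (p ν : X → ℝ) (u v : X) : ℝ :=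
  Real.log (SS D ν u) - Real.log (SS D ν v) +
    ∑ c, QQ D ν u c * ff D u v c * ∑ u', p u' * (kern D u' c - kern D u' v) / SS D ν u'

/-- the gain of the drags: part of the first order change coming from users that see the new
location better -/
noncomputable def GP (D : X → X → ℝ) (p ν : X → ℝ) (u v : X) : ℝ :=
  ∑ c, QQ D ν u c * ff D u v c * ∑ u', p u' * max 0 (kern D u' v - kern D u' c) / SS D ν u'

end Vale.Agent.P304.Stp
end
end

section

section

/-! K1: elementary facts on the exponent and the kernel. -/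

open Finset

namespace Vale.Agent.P304.Stp

open Vale.Agent.P304.Dyn

variable [StP]

theorem phi_eq_of_le {t : ℝ} (ht : t ≤ 7 / 2) : phi t = Dyn.phi t := by
  unfold phi
  rw [max_eq_left (by linarith only [ht]), mul_zero, add_zero]

theorem phi_ext {s t : ℝ} (hst : s ≤ t) :
    0 ≤ (slp - 1) * (max 0 (t - 7 / 2) - max 0 (s - 7 / 2)) := by
  have h1 := one_le_slp
  refine mul_nonneg (by linarith only [h1]) (sub_nonneg.2 (max_le_max le_rfl ?_))
  linarith only [hst]

theorem Dphi_le {s t : ℝ} (hst : s ≤ t) : Dyn.phi t - Dyn.phi s ≤ phi t - phi s := by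
  have h := phi_ext hst
  unfold phi
  linarith only [h]

theorem phi_nonneg {t : ℝ} (ht : 0 ≤ t) : 0 ≤ phi t := by
  have h1 := Dyn.phi_nonneg ht
  have h2 := one_le_slp
  have h3 : 0 ≤ (slp - 1) * max 0 (t - 7 / 2) :=
    mul_nonneg (by linarith only [h2]) (le_max_left _ _)
  unfold phi
  linarith only [h1, h3]

/-- increments of `phi` up to `7/2` -/
theorem phi_incr_near {s t : ℝ} (hs : 0 ≤ s) (hst : s ≤ t) (ht : t ≤ 7 / 2) :
    phi t - phi s ≤ (t - s) * min 1 t := by
  rw [phi_eq_of_le ht, phi_eq_of_le (hst.trans ht)]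
  exact Dyn.phi_incr hs hst

/-- increments of `phi` -/
theorem phi_incr {s t : ℝ} (hs : 0 ≤ s) (hst : s ≤ t) :
    phi t - phi s ≤ (t - s) * (slp * min 1 t) := by
  have h1 := Dyn.phi_incr hs hst
  have h2 := one_le_slp
  have h3 : (slp - 1) * (max 0 (t - 7 / 2) - max 0 (s - 7 / 2)) ≤
      (slp - 1) * ((t - s) * min 1 t) := by
    refine mul_le_mul_of_nonneg_left ?_ (by linarith only [h2])
    by_cases ht : t ≤ 7 / 2
    · rw [max_eq_left (by linarith only [ht]), max_eq_left (by linarith only [ht, hst]), sub_zero]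
      exact mul_nonneg (by linarith only [hst]) (le_min zero_le_one (hs.trans hst))
    · have ht' := not_le.1 ht
      rw [min_eq_left (by linarith only [ht']), mul_one, max_eq_right (by linarith only [ht'])]
      have h4 := le_max_right 0 (s - 7 / 2)
      linarith only [h4]
  unfold phi
  linarith only [h1, h3]

theorem phi_mono {s t : ℝ} (hs : 0 ≤ s) (hst : s ≤ t) : phi s ≤ phi t := by
  have h1 := Dyn.phi_mono hs hst
  have h2 := Dphi_le hst
  linarith only [h1, h2]

theorem phi_ge {t : ℝ} : t - 1 / 2 ≤ phi t := by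
  have h1 := Dyn.phi_ge (t := t)
  have h2 := one_le_slp
  have h3 : 0 ≤ (slp - 1) * max 0 (t - 7 / 2) :=
    mul_nonneg (by linarith only [h2]) (le_max_left _ _)
  unfold phi
  linarith only [h1, h3]

/-- the steep part -/
theorem phi_ge_steep {t : ℝ} : t - 1 / 2 + (slp - 1) * (t - 7 / 2) ≤ phi t := by
  have h1 := Dyn.phi_ge (t := t)
  have h2 := one_le_slp
  have h3 : (slp - 1) * (t - 7 / 2) ≤ (slp - 1) * max 0 (t - 7 / 2) :=
    mul_le_mul_of_nonneg_left (le_max_right _ _) (by linarith only [h2])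
  unfold phi
  linarith only [h1, h3]

theorem phi_gap {t : ℝ} (ht : 0 ≤ t) :
    21 / 100 * min (t ^ 2) t ≤ phi (3 * t / 4) - phi (3 * t / 8) :=
  (Dyn.phi_gap ht).trans (Dphi_le (by linarith only [ht]))

theorem phi_quarter {t : ℝ} (h0 : 0 ≤ t) (h1 : t ≤ 1 / 4) : phi t ≤ 1 / 32 := by
  rw [phi_eq_of_le (by linarith only [h1])]
  unfold Dyn.phi
  rw [if_pos (by linarith only [h1])]
  nlinarith only [h0, h1]

variable {X : Type} [Fintype X] {D : X → X → ℝ} {p ν : X → ℝ}

theorem kern_pos (u c : X) : 0 < kern D u c := Real.exp_pos _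

theorem kern_le_one (hD : PM D) (u c : X) : kern D u c ≤ 1 := by
  unfold kern
  rw [Real.exp_le_one_iff]
  linarith [phi_nonneg (hD.nonneg u c)]

theorem kern_self (hD : PM D) (u : X) : kern D u u = 1 := by
  unfold kern
  rw [hD.self u, phi_eq_of_le (by norm_num)]
  unfold Dyn.phi
  norm_num

theorem kern_symm (hD : PM D) (u c : X) : kern D u c = kern D c u := by
  unfold kern
  rw [hD.symm u c]

/-- `phi ≥ t - 1/2` -/
theorem kern_le_exp (u c : X) : kern D u c ≤ Real.exp (1 / 2 - D u c) := by
  unfold kern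
  apply Real.exp_le_exp.mpr
  linarith [phi_ge (t := D u c)]

/-- log-Lipschitz bound -/
theorem kern_le_exp_mul (hD : PM D) (u v c : X) :
    kern D u c ≤ Real.exp (slp * D u v) * kern D v c := by
  unfold kern
  rw [← Real.exp_add]
  apply Real.exp_le_exp.mpr
  have huv := hD.nonneg u v
  have huc := hD.nonneg u c
  have hvc := hD.nonneg v c
  have hs := slp_pos
  by_cases h : D u c ≤ D v c
  · have h1 := phi_incr huc h
    have h2 : (D v c - D u c) * (slp * min 1 (D v c)) ≤ (D v c - D u c) * (slp * 1) :=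
      mul_le_mul_of_nonneg_left (mul_le_mul_of_nonneg_left (min_le_left _ _) hs.le)
        (by linarith only [h])
    have h3 := hD.tri v u c
    rw [hD.symm v u] at h3
    have h4 : (D v c - D u c) * (slp * 1) ≤ slp * D u v := by
      have := mul_le_mul_of_nonneg_left (show D v c - D u c ≤ D u v by linarith only [h3]) hs.le
      linarith only [this]
    linarith only [h1, h2, h4]
  · have h' : D v c ≤ D u c := (not_le.mp h).le
    have h1 := phi_mono hvc h'
    have h2 : 0 ≤ slp * D u v := mul_nonneg hs.le huv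
    linarith

/-- log-Lipschitz bound with respect to the second variable, with the factor `min 1 (max ..)` -/
theorem kern_sub_le (hD : PM D) (u c v : X) :
    kern D u c - kern D u v ≤
      kern D u c * (D c v * (slp * min 1 (max (D u c) (D u v)))) := by
  have huv := hD.nonneg u v
  have huc := hD.nonneg u c
  have hcv := hD.nonneg c v
  have hs := slp_pos
  have hk := kern_pos (D := D) u c
  by_cases h : D u v ≤ D u c
  · have h1 : kern D u c ≤ kern D u v := by
      unfold kern
      apply Real.exp_le_exp.mpr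
      linarith only [phi_mono huv h]
    have h2 : 0 ≤ min 1 (max (D u c) (D u v)) :=
      le_min zero_le_one (huc.trans (le_max_left _ _))
    have h3 : 0 ≤ kern D u c * (D c v * (slp * min 1 (max (D u c) (D u v)))) :=
      mul_nonneg hk.le (mul_nonneg hcv (mul_nonneg hs.le h2))
    linarith only [h1, h3]
  · have h' : D u c ≤ D u v := (not_le.mp h).le
    rw [max_eq_right h']
    have h1 : kern D u v = kern D u c * Real.exp (-(phi (D u v) - phi (D u c))) := by
      unfold kern
      rw [← Real.exp_add]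
      congr 1
      ring
    have h2 := phi_incr huc h'
    have h3 := Real.add_one_le_exp (-(phi (D u v) - phi (D u c)))
    have h4 := hD.tri u c v
    have h5 : 0 ≤ slp * min 1 (D u v) := mul_nonneg hs.le (le_min zero_le_one huv)
    have h6 : (D u v - D u c) * (slp * min 1 (D u v)) ≤ D c v * (slp * min 1 (D u v)) :=
      mul_le_mul_of_nonneg_right (by linarith only [h4]) h5
    have h7 : 1 - Real.exp (-(phi (D u v) - phi (D u c))) ≤ D c v * (slp * min 1 (D u v)) := by
      linarith only [h2, h3, h6]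
    have h8 := mul_le_mul_of_nonneg_left h7 hk.le
    rw [h1]
    linarith only [h8]

end Vale.Agent.P304.Stp
end
end


section

section

/-! K1b: elementary facts on `S`, `Q`, `T`, `g`. -/

open Finset

namespace Vale.Agent.P304.Stp

open Vale.Agent.P304.Dyn

variable [StP]

variable {X : Type} [Fintype X] {D : X → X → ℝ} {p ν : X → ℝ}

theorem SS_ge (hν : ∀ c, 0 ≤ ν c) (u : X) : e0 ≤ SS D ν u := by
  have h : 0 ≤ ∑ c, kern D u c * ν c :=
    sum_nonneg fun c _ => mul_nonneg (kern_pos u c).le (hν c)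
  unfold SS
  linarith

theorem SS_pos (hν : ∀ c, 0 ≤ ν c) (u : X) : 0 < SS D ν u :=
  lt_of_lt_of_le (by (clear * -; norm_num [e0])) (SS_ge hν u)

theorem SS_le (hD : PM D) (hν : ∀ c, 0 ≤ ν c) (u : X) : SS D ν u ≤ e0 + ∑ c, ν c := by
  have h : ∑ c, kern D u c * ν c ≤ ∑ c, ν c := sum_le_sum fun c _ => by
    have := mul_le_mul_of_nonneg_right (kern_le_one hD u c) (hν c)
    rwa [one_mul] at this
  unfold SS
  linarith

theorem QQ_nonneg (hν : ∀ c, 0 ≤ ν c) (u c : X) : 0 ≤ QQ D ν u c :=
  div_nonneg (mul_nonneg (kern_pos u c).le (hν c)) (SS_pos hν u).le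

theorem sum_QQ_le_one (hν : ∀ c, 0 ≤ ν c) (u : X) : ∑ c, QQ D ν u c ≤ 1 := by
  unfold QQ
  rw [← sum_div, div_le_one (SS_pos hν u)]
  unfold SS
  have : 0 < e0 := by norm_num [e0]
  linarith

theorem TT_nonneg (hν : ∀ c, 0 ≤ ν c) (u u' : X) : 0 ≤ TT D ν u u' :=
  sum_nonneg fun c _ => div_nonneg (mul_nonneg (mul_nonneg (hν c) (kern_pos u c).le)
    (kern_pos u' c).le) (mul_pos (SS_pos hν u) (SS_pos hν u')).le

theorem TT_eq_sum_QQ (u u' : X) : TT D ν u u' = ∑ c, QQ D ν u c * (kern D u' c / SS D ν u') := by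
  unfold TT QQ
  refine sum_congr rfl fun c _ => ?_
  rw [div_mul_div_comm]
  ring

theorem TT_le (hD : PM D) (hν : ∀ c, 0 ≤ ν c) (u u' : X) : TT D ν u u' ≤ 1 / SS D ν u := by
  have hS := SS_pos (D := D) hν u
  have hS' := SS_pos (D := D) hν u'
  unfold TT
  rw [← sum_div, div_le_div_iff₀ (mul_pos hS hS') hS, one_mul]
  have h1 : ∑ c, ν c * kern D u c * kern D u' c ≤ SS D ν u' := by
    have h2 : ∑ c, ν c * kern D u c * kern D u' c ≤ ∑ c, kern D u' c * ν c := by
      refine sum_le_sum fun c _ => ?_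
      have h3 := mul_le_mul_of_nonneg_left (kern_le_one hD u c)
        (mul_nonneg (kern_pos (D := D) u' c).le (hν c))
      linarith
    have he : 0 < e0 := by norm_num [e0]
    unfold SS
    linarith only [h2, he]
  nlinarith only [hS, h1]

theorem TT_le_exp (hD : PM D) (hν : ∀ c, 0 ≤ ν c) (u u' : X) :
    TT D ν u u' ≤ Real.exp (1 - D u u') * (∑ c, ν c) / (e0 * SS D ν u) := by
  have hS := SS_pos (D := D) hν u
  have hS' := SS_ge (D := D) hν u'
  have he : 0 < e0 := by (clear * -; norm_num [e0])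
  have h1 : ∑ c, ν c * kern D u c * kern D u' c ≤ Real.exp (1 - D u u') * ∑ c, ν c := by
    rw [mul_sum]
    refine sum_le_sum fun c _ => ?_
    have h2 : kern D u c * kern D u' c ≤ Real.exp (1 - D u u') := by
      calc kern D u c * kern D u' c ≤ Real.exp (1 / 2 - D u c) * Real.exp (1 / 2 - D u' c) :=
            mul_le_mul (kern_le_exp u c) (kern_le_exp u' c) (kern_pos _ _).le (Real.exp_pos _).le
        _ = Real.exp (1 - (D u c + D u' c)) := by rw [← Real.exp_add]; congr 1; ring
        _ ≤ Real.exp (1 - D u u') := by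
            apply Real.exp_le_exp.2
            have := hD.tri u c u'
            rw [hD.symm c u'] at this
            linarith only [this]
    have h3 := mul_le_mul_of_nonneg_left h2 (hν c)
    linarith only [h3]
  have h0 : 0 ≤ Real.exp (1 - D u u') * ∑ c, ν c :=
    mul_nonneg (Real.exp_pos _).le (sum_nonneg fun c _ => hν c)
  unfold TT
  rw [← sum_div]
  refine div_le_div₀ h0 h1 (mul_pos he hS) ?_
  rw [mul_comm e0]
  exact mul_le_mul_of_nonneg_left hS' hS.le

/-- the load of a point -/
theorem self_le (hD : PM D) (h : Bal D p ν) (u : X) : p u ≤ 8 / 5 * SS D ν u := by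
  have hS := SS_pos (D := D) h.hν u
  have h1 : p u * kern D u u / SS D ν u ≤ col D p ν u := by
    unfold col
    exact single_le_sum (f := fun u' => p u' * kern D u' u / SS D ν u')
      (fun u' _ => div_nonneg (mul_nonneg (h.hp u') (kern_pos u' u).le) (SS_pos h.hν u').le)
      (mem_univ u)
  rw [kern_self hD, mul_one] at h1
  have h2 := h1.trans (h.hi u)
  rwa [div_le_iff₀ hS] at h2

theorem sum_nu_le (h : Bal D p ν) : ∑ c, ν c ≤ 5 / 2 * ∑ u, p u := by
  have h1 : ∀ c, ν c ≤ 5 / 2 * (ν c * col D p ν c) := by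
    intro c
    rcases (h.hν c).eq_or_lt with h0 | h0
    · rw [← h0]; simp
    · have := mul_le_mul_of_nonneg_left (h.lo c h0) h0.le
      linarith
  have h2 : ∑ c, ν c * col D p ν c = ∑ u, p u * ∑ c, QQ D ν u c := by
    unfold col QQ
    simp only [mul_sum]
    rw [sum_comm]
    refine sum_congr rfl fun u _ => sum_congr rfl fun c _ => ?_
    ring
  calc ∑ c, ν c ≤ ∑ c, 5 / 2 * (ν c * col D p ν c) := sum_le_sum fun c _ => h1 c
    _ = 5 / 2 * ∑ u, p u * ∑ c, QQ D ν u c := by rw [← mul_sum, h2]
    _ ≤ 5 / 2 * ∑ u, p u := by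
        refine mul_le_mul_of_nonneg_left (sum_le_sum fun u _ => ?_) (by norm_num)
        have := mul_le_mul_of_nonneg_left (sum_QQ_le_one (D := D) h.hν u) (h.hp u)
        rwa [mul_one] at this

/-- `g ≤ 8/5` (section 1d) -/
theorem gg_le (hD : PM D) (h : Bal D p ν) (u : X) : gg D p ν u ≤ 8 / 5 := by
  have h1 : gg D p ν u ≤ ∑ u', p u' * TT D ν u u' := by
    unfold gg
    refine sum_le_sum fun u' _ => ?_
    refine mul_le_mul_of_nonneg_right ?_ (TT_nonneg h.hν u u')
    have := mul_le_mul_of_nonneg_left (min_le_left 1 (D u u')) (h.hp u')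
    rwa [mul_one] at this
  have h2 : ∑ u', p u' * TT D ν u u' = ∑ c, QQ D ν u c * col D p ν c := by
    simp only [TT_eq_sum_QQ, mul_sum, col]
    rw [sum_comm]
    refine sum_congr rfl fun c _ => sum_congr rfl fun u' _ => ?_
    ring
  rw [h2] at h1
  refine h1.trans ?_
  calc ∑ c, QQ D ν u c * col D p ν c ≤ ∑ c, QQ D ν u c * (8 / 5) :=
        sum_le_sum fun c _ => mul_le_mul_of_nonneg_left (h.hi c) (QQ_nonneg h.hν u c)
    _ = (∑ c, QQ D ν u c) * (8 / 5) := by rw [sum_mul]
    _ ≤ 1 * (8 / 5) := mul_le_mul_of_nonneg_right (sum_QQ_le_one h.hν u) (by norm_num)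
    _ = 8 / 5 := one_mul _

theorem gg_nonneg (hD : PM D) (h : Bal D p ν) (u : X) : 0 ≤ gg D p ν u :=
  sum_nonneg fun u' _ => mul_nonneg (mul_nonneg (h.hp u')
    (le_min zero_le_one (hD.nonneg u u'))) (TT_nonneg h.hν u u')

/-- users at distance `≥ 1/4` (used many times) -/
theorem sum_out_TT_le [DecidableEq X] (hD : PM D) (h : Bal D p ν) (u : X) :
    ∑ u' ∈ univ.filter (fun u' => 1 / 4 ≤ D u u'), p u' * TT D ν u u' ≤ 4 * gg D p ν u := by
  unfold gg
  rw [mul_sum]
  refine le_trans (sum_le_sum fun u' hu' => ?_) (sum_le_sum_of_subset_of_nonneg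
    (filter_subset (fun u' => 1 / 4 ≤ D u u') univ) fun u' _ _ => mul_nonneg (by norm_num)
      (mul_nonneg (mul_nonneg (h.hp u') (le_min zero_le_one (hD.nonneg u u')))
        (TT_nonneg h.hν u u')))
  have hd : 1 / 4 ≤ D u u' := (mem_filter.1 hu').2
  have hm : 1 / 4 ≤ min 1 (D u u') := le_min (by norm_num) hd
  have h1 := mul_le_mul_of_nonneg_left hm (mul_nonneg (h.hp u') (TT_nonneg (D := D) h.hν u u'))
  nlinarith only [h1]

end Vale.Agent.P304.Stp
end
end

section

section

/-! K2: far tokens are supported by outer users (section 1e). -/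

open Finset

section

section

/-! K2: far tokens are supported by outer users (section 1e). -/

open Finset

namespace Vale.Agent.P304.Stp

open Vale.Agent.P304.Dyn

variable [StP]

variable {X : Type} [Fintype X] [DecidableEq X] {D : X → X → ℝ} {p ν : X → ℝ}

/-- column load of a far token coming from outer users -/
theorem col_out_far (hD : PM D) (h : Bal D p ν) (u c : X) (hc : 0 < ν c) (hf : 3 < D u c) :
    1 / 5 ≤ ∑ u' ∈ univ.filter (fun u' => 1 / 4 < D u u'), p u' * kern D u' c / SS D ν u' := by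
  have h1 : 2 / 5 ≤ col D p ν c := h.lo c hc
  have hsplit := Finset.sum_filter_add_sum_filter_not univ (fun u' => 1 / 4 < D u u')
    (fun u' => p u' * kern D u' c / SS D ν u')
  have hcol : col D p ν c = ∑ u', p u' * kern D u' c / SS D ν u' := rfl
  have hin : ∑ u' ∈ univ.filter (fun u' => ¬ 1 / 4 < D u u'), p u' * kern D u' c / SS D ν u'
      ≤ 1 / 5 := by
    have e1 : ∀ u' ∈ univ.filter (fun u' => ¬ 1 / 4 < D u u'),
        p u' * kern D u' c / SS D ν u' ≤
          (Real.exp (1 / 32) * Real.exp (1 / 2 - 11 / 4)) *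
            (p u' * kern D u' u / SS D ν u') := by
      intro u' hu'
      rw [Finset.mem_filter] at hu'
      have hd : D u u' ≤ 1 / 4 := not_lt.mp hu'.2
      have hd0 : 0 ≤ D u' u := hD.nonneg u' u
      have hd' : D u' u ≤ 1 / 4 := by rw [hD.symm]; exact hd
      have hfar : 11 / 4 ≤ D u' c := by
        have := hD.tri u u' c
        linarith only [hf, hu', this]
      have hk : kern D u' c ≤ Real.exp (1 / 2 - 11 / 4) :=
        (kern_le_exp u' c).trans (Real.exp_le_exp.mpr (by linarith only [hfar]))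
      have hphi : phi (D u' u) ≤ 1 / 32 := phi_quarter hd0 hd'
      have hk2 : 1 ≤ Real.exp (1 / 32) * kern D u' u := by
        unfold kern
        rw [← Real.exp_add]
        apply Real.one_le_exp
        linarith only [hphi]
      have hS := SS_pos (D := D) h.hν u'
      have hp := h.hp u'
      rw [mul_div_assoc', div_le_div_iff_of_pos_right hS]
      have hE : 0 < Real.exp (1 / 2 - 11 / 4) := Real.exp_pos _
      calc p u' * kern D u' c ≤ p u' * Real.exp (1 / 2 - 11 / 4) :=
            mul_le_mul_of_nonneg_left hk hp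
        _ = (p u' * Real.exp (1 / 2 - 11 / 4)) * 1 := (mul_one _).symm
        _ ≤ (p u' * Real.exp (1 / 2 - 11 / 4)) * (Real.exp (1 / 32) * kern D u' u) :=
            mul_le_mul_of_nonneg_left hk2 (mul_nonneg hp hE.le)
        _ = Real.exp (1 / 32) * Real.exp (1 / 2 - 11 / 4) * (p u' * kern D u' u) := by ring
    refine (Finset.sum_le_sum e1).trans ?_
    rw [← Finset.mul_sum]
    have e2 : ∑ u' ∈ univ.filter (fun u' => ¬ 1 / 4 < D u u'), p u' * kern D u' u / SS D ν u'
        ≤ 8 / 5 := by
      refine le_trans ?_ (h.hi u)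
      apply Finset.sum_le_sum_of_subset_of_nonneg (Finset.filter_subset _ _)
      intro i _ _
      exact div_nonneg (mul_nonneg (h.hp i) (kern_pos _ _).le) (SS_pos h.hν i).le
    exact (mul_le_mul_of_nonneg_left e2 (by positivity)).trans K2_num
  rw [hcol] at h1
  linarith

/-- section 1e -/
theorem far_le (hD : PM D) (h : Bal D p ν) (u : X) :
    ∑ c ∈ univ.filter (fun c => 3 < D u c), QQ D ν u c ≤ 20 * gg D p ν u := by
  have e1 : ∀ c ∈ univ.filter (fun c => 3 < D u c), QQ D ν u c ≤
      5 * ∑ u' ∈ univ.filter (fun u' => 1 / 4 < D u u'),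
        p u' * (QQ D ν u c * (kern D u' c / SS D ν u')) := by
    intro c hc
    rw [Finset.mem_filter] at hc
    have hQ := QQ_nonneg (D := D) h.hν u c
    have e2 : ∑ u' ∈ univ.filter (fun u' => 1 / 4 < D u u'),
        p u' * (QQ D ν u c * (kern D u' c / SS D ν u')) =
        QQ D ν u c * ∑ u' ∈ univ.filter (fun u' => 1 / 4 < D u u'),
          p u' * kern D u' c / SS D ν u' := by
      rw [Finset.mul_sum]
      refine Finset.sum_congr rfl fun u' _ => ?_
      ring
    rw [e2]
    rcases (h.hν c).eq_or_lt with h0 | h0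
    · have : QQ D ν u c = 0 := by
        unfold QQ
        rw [← h0]
        simp
      rw [this]
      simp only [one_div, zero_mul, mul_zero, Std.le_refl]
    · have := col_out_far hD h u c h0 hc.2
      nlinarith only [hQ, this]
  refine (Finset.sum_le_sum e1).trans ?_
  rw [← Finset.mul_sum]
  have e3 : ∑ c ∈ univ.filter (fun c => 3 < D u c),
      ∑ u' ∈ univ.filter (fun u' => 1 / 4 < D u u'),
        p u' * (QQ D ν u c * (kern D u' c / SS D ν u')) ≤
      ∑ u' ∈ univ.filter (fun u' => 1 / 4 ≤ D u u'), p u' * TT D ν u u' := by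
    rw [Finset.sum_comm]
    have e4 : ∀ u', ∑ c ∈ univ.filter (fun c => 3 < D u c),
        p u' * (QQ D ν u c * (kern D u' c / SS D ν u')) ≤ p u' * TT D ν u u' := by
      intro u'
      rw [TT_eq_sum_QQ, ← Finset.mul_sum]
      apply mul_le_mul_of_nonneg_left _ (h.hp u')
      apply Finset.sum_le_sum_of_subset_of_nonneg (Finset.filter_subset _ _)
      intro i _ _
      exact mul_nonneg (QQ_nonneg h.hν u i)
        (div_nonneg (kern_pos _ _).le (SS_pos h.hν u').le)
    refine (Finset.sum_le_sum fun u' _ => e4 u').trans ?_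
    apply Finset.sum_le_sum_of_subset_of_nonneg
    · intro u' hu'
      rw [Finset.mem_filter] at hu' ⊢
      exact ⟨hu'.1, hu'.2.le⟩
    · intro i _ _
      exact mul_nonneg (h.hp i) (TT_nonneg h.hν u i)
  have e5 := sum_out_TT_le hD h u
  linarith

end Vale.Agent.P304.Stp
end
end
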