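import Vale.Agent.P304.Stp.S1

set_option linter.all false

section

section

/-! K3: the drag lemma (section 2). -/

open Finset

namespace Vale.Agent.P304.Stp

open Vale.Agent.P304.Dyn

variable [StP]

variable {X : Type} [Fintype X] [DecidableEq X] {D : X → X → ℝ} {p ν : X → ℝ}

theorem ff_nonneg (hD : PM D) (u v c : X) : 0 ≤ ff D u v c := by
  have h1 := hD.nonneg u v
  have h2 := hD.nonneg u c
  unfold ff
  split_ifs
  · exact le_rfl
  · exact le_rfl
  · exact zero_le_one
  · (clear * - h1 h2; positivity)

theorem ff_le_one (hD : PM D) (u v c : X) : ff D u v c ≤ 1 := by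
  have h1 := hD.nonneg u v
  have h2 := hD.nonneg u c
  unfold ff
  split_ifs with h3 h4 h5
  · exact zero_le_one
  · exact zero_le_one
  · exact le_rfl
  · push Not at h5
    exact div_le_one_of_le₀ h5.le h2

/-- displacement bound: the expected displacement is at most `65 δ` -/
theorem ff_mul_le (hD : PM D) (u v c : X) : ff D u v c * (D u c + D u v) ≤ 65 * D u v := by
  have h1 := hD.nonneg u v
  have h2 := hD.nonneg u c
  unfold ff
  split_ifs with h3 h4 h5
  · rw [zero_mul]; positivity
  · rw [zero_mul]; (clear * - h1; positivity)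
  · (clear * - h5; linarith)
  · push Not at h5
    have hs : 0 < D u c := lt_of_le_of_lt (by (clear * - h1; positivity)) h5
    rw [div_mul_eq_mul_div, div_le_iff₀ hs]
    have h6 := mul_le_mul_of_nonneg_left h5.le h1
    linarith only [h6]

/-- the increment of a single token (without dragging) -/
theorem log_sub_log_le (hD : PM D) (hν : ∀ c, 0 ≤ ν c) (u v : X) (huv : D u v ≤ 1 / 32) :
    Real.log (SS D ν u) - Real.log (SS D ν v) ≤
      ∑ c, QQ D ν u c * (D u v * (if D u c ≤ 3 then min 1 (D u c + D u v) else slp)) := by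
  have hu := SS_pos (D := D) hν u
  have hv := SS_pos (D := D) hν v
  set a : X → ℝ := fun c => phi (D u c) - phi (D v c) with ha
  have hk : ∀ c, kern D u c * Real.exp (a c) = kern D v c := by
    intro c
    unfold kern
    rw [← Real.exp_add]
    congr 1
    simp only [ha]
    ring
  have h1 : e0 / SS D ν u + ∑ c, QQ D ν u c = 1 := by
    unfold QQ
    rw [← Finset.sum_div, ← add_div]
    exact div_self hu.ne'
  have h2 := exp_sum_le (fun c => QQ D ν u c) a (e0 / SS D ν u) h1
    (fun c => QQ_nonneg hν u c) (div_nonneg e0_pos.le hu.le)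
  have h3 : e0 / SS D ν u + ∑ c, QQ D ν u c * Real.exp (a c) = SS D ν v / SS D ν u := by
    have h4 : ∀ c, QQ D ν u c * Real.exp (a c) = kern D v c * ν c / SS D ν u := by
      intro c
      unfold QQ
      rw [← hk c]
      ring
    simp only [h4]
    rw [← Finset.sum_div, ← add_div]
    rfl
  rw [h3] at h2
  have h5 : ∑ c, QQ D ν u c * a c ≤ Real.log (SS D ν v / SS D ν u) := by
    rw [Real.le_log_iff_exp_le (div_pos hv hu)]
    exact h2
  rw [Real.log_div hv.ne' hu.ne'] at h5
  have h6 : Real.log (SS D ν u) - Real.log (SS D ν v) ≤ ∑ c, QQ D ν u c * (-a c) := by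
    have : ∑ c, QQ D ν u c * (-a c) = -∑ c, QQ D ν u c * a c := by
      rw [← Finset.sum_neg_distrib]
      exact Finset.sum_congr rfl fun c _ => by ring
    rw [this]
    linarith only [h5]
  refine h6.trans (Finset.sum_le_sum fun c _ => mul_le_mul_of_nonneg_left ?_ (QQ_nonneg hν u c))
  have hδ := hD.nonneg u v
  have hs := hD.nonneg u c
  have hvc := hD.nonneg v c
  have htri : D v c ≤ D u c + D u v := by
    have := hD.tri v u c
    rw [hD.symm v u] at this
    linarith only [this]
  have hneg : -a c = phi (D v c) - phi (D u c) := by simp only [ha]; ring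
  rw [hneg]
  have hs1 := slp_pos
  by_cases h3c : D u c ≤ 3
  · rw [if_pos h3c]
    have hR : 0 ≤ D u v * min 1 (D u c + D u v) :=
      mul_nonneg hδ (le_min zero_le_one (by linarith only [hδ, hs]))
    rcases le_total (D v c) (D u c) with h | h
    · have := phi_mono hvc h
      linarith only [hR, this]
    · refine (phi_incr_near hs h (by linarith only [htri, huv, h3c])).trans ?_
      apply mul_le_mul (by linarith only [htri]) (min_le_min le_rfl htri)
        (le_min zero_le_one hvc) hδ
  · rw [if_neg h3c]
    have hR : 0 ≤ D u v * slp := mul_nonneg hδ hs1.le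
    rcases le_total (D v c) (D u c) with h | h
    · have := phi_mono hvc h
      linarith only [hR, this]
    · refine (phi_incr hs h).trans ?_
      have e1 : slp * min 1 (D v c) ≤ slp * 1 :=
        mul_le_mul_of_nonneg_left (min_le_left _ _) hs1.le
      rw [mul_one] at e1
      exact mul_le_mul (by linarith only [htri]) e1
        (mul_nonneg hs1.le (le_min zero_le_one hvc)) hδ

/-- for every single token at distance at most `3` the gain from the inner users together with the
outer users compensates the increment (sections 2, cases `s ≤ 64 δ` and `s > 64 δ`). -/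
theorem token_drift_le (hD : PM D) (h : Bal D p ν) (u v c : X) (huv : slp * D u v ≤ 1 / 32)
    (hc : 0 < ν c) (h3 : D u c ≤ 3) :
    D u v * min 1 (D u c + D u v) +
        ff D u v c * ∑ u', p u' * (kern D u' c - kern D u' v
          + 1 / 2 * max 0 (kern D u' v - kern D u' c)) / SS D ν u'
      ≤ 500 * slp * D u v * ∑ u', p u' * min 1 (D u u') * (kern D u' c / SS D ν u')
        + 8000 * slp * D u v ^ 2 := by
  have hδ := hD.nonneg u v
  have hs := hD.nonneg u c
  have hsl := one_le_slp
  have hsl0 := slp_pos
  -- truncated differences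
  have htr : ∀ {x b : ℝ}, x ≤ b → 0 ≤ b → x + 1 / 2 * max 0 (-x) ≤ b := by
    intro x b hxb hb
    rcases le_total 0 x with h0 | h0
    · rw [max_eq_left (by linarith only [h0])]
      linarith only [hxb]
    · rw [max_eq_right (by linarith only [h0])]
      linarith only [h0, hb]
  have hkd : ∀ u' : X, kern D u' v - kern D u' c = -(kern D u' c - kern D u' v) :=
    fun u' => by ring
  set δ := D u v with hδd
  set s := D u c with hsd
  have hS : ∀ u', 0 < SS D ν u' := fun u' => SS_pos h.hν u'
  have hq : ∀ u', 0 ≤ p u' * kern D u' c / SS D ν u' := fun u' =>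
    div_nonneg (mul_nonneg (h.hp u') (kern_pos u' c).le) (hS u').le
  have hm : ∀ u', 0 ≤ min 1 (D u u') := fun u' => le_min zero_le_one (hD.nonneg u u')
  set G := ∑ u', p u' * min 1 (D u u') * (kern D u' c / SS D ν u') with hG
  have hGe : G = ∑ u', p u' * kern D u' c / SS D ν u' * min 1 (D u u') :=
    Finset.sum_congr rfl fun u' _ => by ring
  have hG0 : 0 ≤ G := by
    rw [hGe]
    exact Finset.sum_nonneg fun u' _ => mul_nonneg (hq u') (hm u')
  have hcol : ∑ u', p u' * kern D u' c / SS D ν u' ≤ 8 / 5 := h.hi c
  have hcol2 : 2 / 5 ≤ ∑ u', p u' * kern D u' c / SS D ν u' := h.lo c hc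
  have hcv : D c v ≤ s + δ := by
    have := hD.tri c u v
    rw [hD.symm c u] at this
    exact this
  have h1c : ∀ u', D u' c ≤ D u u' + s := fun u' => by
    have := hD.tri u' u c
    rw [hD.symm u' u] at this
    exact this
  have h1v : ∀ u', D u' v ≤ D u u' + δ := fun u' => by
    have := hD.tri u' u v
    rw [hD.symm u' u] at this
    exact this
  have hff : ff D u v c = if s ≤ 64 * δ then 1 else 64 * δ / s := by
    unfold ff
    rw [if_neg (not_lt.2 huv), if_neg (not_lt.2 h3)]
  have hsd1 : δ ≤ slp * δ := le_mul_of_one_le_left hδ hsl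
  rcases le_or_gt s (64 * δ) with hcase | hcase
  · rw [hff, if_pos hcase, one_mul]
    have hterm : ∀ u', p u' * (kern D u' c - kern D u' v
          + 1 / 2 * max 0 (kern D u' v - kern D u' c)) / SS D ν u' ≤
        65 * slp * δ * (p u' * kern D u' c / SS D ν u' * min 1 (D u u'))
          + 4160 * slp * δ ^ 2 * (p u' * kern D u' c / SS D ν u') := by
      intro u'
      have e1 := kern_sub_le hD u' c v
      have e2 : min 1 (max (D u' c) (D u' v)) ≤ min 1 (D u u') + 64 * δ := by
        refine (min_le_min le_rfl (max_le ?_ ?_)).trans (min_add_le (a := D u u') (b := 64 * δ)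
          (by (clear * - hδ; positivity)))
        · exact (h1c u').trans (by linarith only [hcase])
        · exact (h1v u').trans (by linarith only [hδ])
      have e3 : D c v * (slp * min 1 (max (D u' c) (D u' v))) ≤
          (65 * δ) * (slp * (min 1 (D u u') + 64 * δ)) :=
        mul_le_mul (by linarith only [hcv, hcase]) (mul_le_mul_of_nonneg_left e2 hsl0.le)
          (mul_nonneg hsl0.le (le_min zero_le_one ((hD.nonneg u' c).trans (le_max_left _ _))))
          (by (clear * - hδ; positivity))
      have e40 : 0 ≤ kern D u' c * ((65 * δ) * (slp * (min 1 (D u u') + 64 * δ))) :=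
        mul_nonneg (kern_pos u' c).le (mul_nonneg (by (clear * - hδ; positivity))
          (mul_nonneg hsl0.le (add_nonneg (hm u') (by (clear * - hδ; positivity)))))
      have e4 : kern D u' c - kern D u' v + 1 / 2 * max 0 (kern D u' v - kern D u' c) ≤
          kern D u' c * ((65 * δ) * (slp * (min 1 (D u u') + 64 * δ))) := by
        rw [hkd u']
        exact htr (e1.trans (mul_le_mul_of_nonneg_left e3 (kern_pos u' c).le)) e40
      have e5 : p u' * (kern D u' c - kern D u' v
            + 1 / 2 * max 0 (kern D u' v - kern D u' c)) / SS D ν u' ≤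
          p u' * (kern D u' c * ((65 * δ) * (slp * (min 1 (D u u') + 64 * δ)))) / SS D ν u' :=
        div_le_div_of_nonneg_right (mul_le_mul_of_nonneg_left e4 (h.hp u')) (hS u').le
      refine e5.trans (le_of_eq ?_)
      ring
    have hsum : ∑ u', p u' * (kern D u' c - kern D u' v
          + 1 / 2 * max 0 (kern D u' v - kern D u' c)) / SS D ν u' ≤
        65 * slp * δ * G + 4160 * slp * δ ^ 2 * ∑ u', p u' * kern D u' c / SS D ν u' := by
      refine (Finset.sum_le_sum fun u' _ => hterm u').trans (le_of_eq ?_)
      rw [Finset.sum_add_distrib, ← Finset.mul_sum, ← Finset.mul_sum, hGe]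
    have e6 : 4160 * slp * δ ^ 2 * ∑ u', p u' * kern D u' c / SS D ν u' ≤
        4160 * slp * δ ^ 2 * (8 / 5) :=
      mul_le_mul_of_nonneg_left hcol (by (clear * - hsl0; positivity))
    have e7 : δ * min 1 (s + δ) ≤ δ * (65 * δ) :=
      mul_le_mul_of_nonneg_left ((min_le_right _ _).trans (by linarith only [hcase])) hδ
    have e8 : 0 ≤ slp * δ * G := mul_nonneg (mul_nonneg hsl0.le hδ) hG0
    have e9 : δ ^ 2 ≤ slp * δ ^ 2 := le_mul_of_one_le_left (sq_nonneg δ) hsl
    have e90 : 0 ≤ δ ^ 2 := sq_nonneg δ
    have e10 : 65 * slp * δ * G = 65 * (slp * δ * G) := by ring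
    have e11 : 500 * slp * δ * G = 500 * (slp * δ * G) := by ring
    have e12 : δ * (65 * δ) = 65 * δ ^ 2 := by ring
    have e13 : 4160 * slp * δ ^ 2 * (8 / 5) = 6656 * (slp * δ ^ 2) := by ring
    have e14 : 8000 * slp * δ ^ 2 = 8000 * (slp * δ ^ 2) := by ring
    rw [e10] at hsum
    rw [e11, e14]
    rw [e12] at e7
    rw [e13] at e6
    linarith only [hsum, e6, e7, e8, e9, e90]
  · rw [hff, if_neg (not_le.2 hcase)]
    have hs0 : 0 < s := lt_of_le_of_lt (by (clear * - hδ; positivity)) hcase
    set f := 64 * δ / s with hf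
    have hf0 : 0 ≤ f := by (clear * - hδ hs0; positivity)
    have hfs : f * s = 64 * δ := by
      rw [hf]
      (clear * - hs0; field_simp)
    have hδs : δ ≤ s / 64 := by linarith only [hcase]
    classical
    set q : X → ℝ := fun u' => p u' * kern D u' c / SS D ν u' with hqd
    set cin := ∑ u' ∈ univ.filter (fun u' => D u u' < s / 4), q u' with hcin
    set cout := ∑ u' ∈ univ.filter (fun u' => ¬ D u u' < s / 4), q u' with hcout
    have hsplit : cin + cout = ∑ u', q u' :=
      Finset.sum_filter_add_sum_filter_not univ (fun u' => D u u' < s / 4) q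
    set Gout := ∑ u' ∈ univ.filter (fun u' => ¬ D u u' < s / 4), q u' * min 1 (D u u') with hGout
    have hGG : Gout ≤ G := by
      rw [hGe]
      exact Finset.sum_le_sum_of_subset_of_nonneg (Finset.filter_subset _ _)
        fun u' _ _ => mul_nonneg (hq u') (hm u')
    have hGout0 : 0 ≤ Gout := Finset.sum_nonneg fun u' _ => mul_nonneg (hq u') (hm u')
    have hcin0 : 0 ≤ cin := Finset.sum_nonneg fun u' _ => hq u'
    -- inner users
    have hin : ∀ u', D u u' < s / 4 → f * (p u' * (kern D u' c - kern D u' v
          + 1 / 2 * max 0 (kern D u' v - kern D u' c)) / SS D ν u') ≤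
        -(672 / 100 * δ * min 1 s) * q u' := by
      intro u' hu'
      have hc1 : 3 * s / 4 ≤ D u' c := by
        have := hD.tri u u' c
        linarith only [hu', this]
      have hv1 : D u' v ≤ 3 * s / 8 := by
        have := h1v u'
        linarith only [hs, hcase, hu', this]
      have k1 : kern D u' c ≤ Real.exp (-(phi (3 * s / 4))) := by
        unfold kern
        apply Real.exp_le_exp.2
        have := phi_mono (by (clear * - hs0; positivity) : (0:ℝ) ≤ 3 * s / 4) hc1
        linarith only [this]
      have k2 : Real.exp (-(phi (3 * s / 8))) ≤ kern D u' v := by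
        unfold kern
        apply Real.exp_le_exp.2
        have := phi_mono (hD.nonneg u' v) hv1
        linarith only [this]
      have k3 : kern D u' c * (1 + 21 / 100 * min (s ^ 2) s) ≤ kern D u' v := by
        refine le_trans ?_ k2
        have g1 := phi_gap hs0.le
        have g2 : 1 + 21 / 100 * min (s ^ 2) s ≤ Real.exp (phi (3 * s / 4) - phi (3 * s / 8)) := by
          have := Real.add_one_le_exp (phi (3 * s / 4) - phi (3 * s / 8))
          linarith only [g1, this]
        have g3 : 0 ≤ 1 + 21 / 100 * min (s ^ 2) s := by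
          have : 0 ≤ min (s ^ 2) s := le_min (sq_nonneg _) hs0.le
          linarith only [this]
        calc kern D u' c * (1 + 21 / 100 * min (s ^ 2) s)
            ≤ Real.exp (-(phi (3 * s / 4))) * Real.exp (phi (3 * s / 4) - phi (3 * s / 8)) :=
              mul_le_mul k1 g2 g3 (Real.exp_pos _).le
          _ = Real.exp (-(phi (3 * s / 8))) := by
              rw [← Real.exp_add]
              congr 1
              ring
      have k4 : f * (kern D u' c - kern D u' v
            + 1 / 2 * max 0 (kern D u' v - kern D u' c)) ≤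
          -(672 / 100 * δ * min 1 s) * kern D u' c := by
        have g40 : kern D u' c - kern D u' v ≤ -(21 / 100 * min (s ^ 2) s) * kern D u' c := by
          linarith only [k3]
        have g41 : 0 ≤ (21 / 100 * min (s ^ 2) s) * kern D u' c :=
          mul_nonneg (mul_nonneg (by norm_num) (le_min (sq_nonneg _) hs0.le)) (kern_pos u' c).le
        have g4 : kern D u' c - kern D u' v + 1 / 2 * max 0 (kern D u' v - kern D u' c) ≤
            -(21 / 200 * min (s ^ 2) s) * kern D u' c := by
          rw [max_eq_right (by linarith only [g40, g41])]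
          linarith only [g40]
        have g5 : min (s ^ 2) s = s * min 1 s := by
          rcases le_total 1 s with h5 | h5
          · rw [min_eq_right (by nlinarith only [h5]), min_eq_left h5, mul_one]
          · rw [min_eq_left (by nlinarith only [h5, hs0]), min_eq_right h5, sq]
        calc f * (kern D u' c - kern D u' v + 1 / 2 * max 0 (kern D u' v - kern D u' c))
            ≤ f * (-(21 / 200 * min (s ^ 2) s) * kern D u' c) :=
              mul_le_mul_of_nonneg_left g4 hf0
          _ = -(21 / 200 * (f * s) * min 1 s) * kern D u' c := by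
              rw [g5]
              ring
          _ = _ := by
              rw [hfs]
              ring
      have k5 : 0 ≤ p u' / SS D ν u' := div_nonneg (h.hp u') (hS u').le
      calc f * (p u' * (kern D u' c - kern D u' v
            + 1 / 2 * max 0 (kern D u' v - kern D u' c)) / SS D ν u')
          = (f * (kern D u' c - kern D u' v + 1 / 2 * max 0 (kern D u' v - kern D u' c)))
              * (p u' / SS D ν u') := by ring
        _ ≤ (-(672 / 100 * δ * min 1 s) * kern D u' c) * (p u' / SS D ν u') :=
            mul_le_mul_of_nonneg_right k4 k5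
        _ = _ := by
            simp only [hqd]
            ring
    -- outer users
    have hout : ∀ u', ¬ D u u' < s / 4 → f * (p u' * (kern D u' c - kern D u' v
          + 1 / 2 * max 0 (kern D u' v - kern D u' c)) / SS D ν u') ≤
        325 * slp * δ * (q u' * min 1 (D u u')) := by
      intro u' hu'
      have hu2 : s ≤ 4 * D u u' := by
        have := not_lt.1 hu'
        linarith only [hu']
      have e1 := kern_sub_le hD u' c v
      have e2 : min 1 (max (D u' c) (D u' v)) ≤ 5 * min 1 (D u u') := by
        refine (min_le_min le_rfl (max_le ?_ ?_)).trans (min_mul_le (a := D u u') (b := 5)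
          (by norm_num))
        · exact (h1c u').trans (by linarith only [hu'])
        · exact (h1v u').trans (by linarith only [hs, hcase, hu'])
      have e3 : D c v * (slp * min 1 (max (D u' c) (D u' v))) ≤
          (65 / 64 * s) * (slp * (5 * min 1 (D u u'))) :=
        mul_le_mul (by linarith only [hcv, hcase]) (mul_le_mul_of_nonneg_left e2 hsl0.le)
          (mul_nonneg hsl0.le (le_min zero_le_one ((hD.nonneg u' c).trans (le_max_left _ _))))
          (by (clear * - hs0; positivity))
      have e30 : 0 ≤ kern D u' c * ((65 / 64 * s) * (slp * (5 * min 1 (D u u')))) :=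
        mul_nonneg (kern_pos u' c).le (mul_nonneg (by (clear * - hs0; positivity))
          (mul_nonneg hsl0.le (mul_nonneg (by norm_num) (hm u'))))
      have e4 : f * (kern D u' c - kern D u' v + 1 / 2 * max 0 (kern D u' v - kern D u' c)) ≤
          325 * slp * δ * min 1 (D u u') * kern D u' c := by
        have e31 : kern D u' c - kern D u' v + 1 / 2 * max 0 (kern D u' v - kern D u' c) ≤
            kern D u' c * ((65 / 64 * s) * (slp * (5 * min 1 (D u u')))) := by
          rw [hkd u']
          exact htr (e1.trans (mul_le_mul_of_nonneg_left e3 (kern_pos u' c).le)) e30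
        calc f * (kern D u' c - kern D u' v + 1 / 2 * max 0 (kern D u' v - kern D u' c))
            ≤ f * (kern D u' c * ((65 / 64 * s) * (slp * (5 * min 1 (D u u'))))) :=
              mul_le_mul_of_nonneg_left e31 hf0
          _ = 325 / 64 * (f * s) * slp * min 1 (D u u') * kern D u' c := by ring
          _ = _ := by
              rw [hfs]
              ring
      have k5 : 0 ≤ p u' / SS D ν u' := div_nonneg (h.hp u') (hS u').le
      calc f * (p u' * (kern D u' c - kern D u' v
            + 1 / 2 * max 0 (kern D u' v - kern D u' c)) / SS D ν u')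
          = (f * (kern D u' c - kern D u' v + 1 / 2 * max 0 (kern D u' v - kern D u' c)))
              * (p u' / SS D ν u') := by ring
        _ ≤ (325 * slp * δ * min 1 (D u u') * kern D u' c) * (p u' / SS D ν u') :=
            mul_le_mul_of_nonneg_right e4 k5
        _ = _ := by
            simp only [hqd]
            ring
    have hsum : f * ∑ u', p u' * (kern D u' c - kern D u' v
          + 1 / 2 * max 0 (kern D u' v - kern D u' c)) / SS D ν u' ≤
        -(672 / 100 * δ * min 1 s) * cin + 325 * slp * δ * Gout := by
      rw [Finset.mul_sum, ← Finset.sum_filter_add_sum_filter_not univ (fun u' => D u u' < s / 4),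
        hcin, hGout, Finset.mul_sum, Finset.mul_sum]
      exact add_le_add
        (Finset.sum_le_sum fun u' hu' => hin u' (Finset.mem_filter.1 hu').2)
        (Finset.sum_le_sum fun u' hu' => hout u' (Finset.mem_filter.1 hu').2)
    have hms : 0 ≤ min 1 s := le_min zero_le_one hs0.le
    have hδm : 0 ≤ δ * min 1 s := mul_nonneg hδ hms
    have hinc : δ * min 1 (s + δ) ≤ 65 / 64 * (δ * min 1 s) := by
      have g1 : min 1 (s + δ) ≤ 65 / 64 * min 1 s :=
        (min_le_min le_rfl (by linarith only [hcase] : s + δ ≤ 65 / 64 * s)).trans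
          (min_mul_le (by norm_num))
      calc δ * min 1 (s + δ) ≤ δ * (65 / 64 * min 1 s) := mul_le_mul_of_nonneg_left g1 hδ
        _ = _ := by ring
    have hδG : 0 ≤ slp * (δ * G) := mul_nonneg hsl0.le (mul_nonneg hδ hG0)
    have hδGo : slp * (δ * Gout) ≤ slp * (δ * G) :=
      mul_le_mul_of_nonneg_left (mul_le_mul_of_nonneg_left hGG hδ) hsl0.le
    have hδGo1 : δ * Gout ≤ slp * (δ * Gout) :=
      le_mul_of_one_le_left (mul_nonneg hδ hGout0) hsl
    have hsq : 0 ≤ slp * δ ^ 2 := mul_nonneg hsl0.le (sq_nonneg δ)
    have hsum' : f * ∑ u', p u' * (kern D u' c - kern D u' v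
          + 1 / 2 * max 0 (kern D u' v - kern D u' c)) / SS D ν u' ≤
        -(672 / 100) * (cin * (δ * min 1 s)) + 325 * (slp * (δ * Gout)) := by
      refine hsum.trans (le_of_eq ?_)
      ring
    have rG : 500 * slp * δ * G = 500 * (slp * (δ * G)) := by ring
    have rS : 8000 * slp * δ ^ 2 = 8000 * (slp * δ ^ 2) := by ring
    rw [rG, rS]
    rcases le_or_gt (1 / 5) cin with h5 | h5
    · have g1 : 1 / 5 * (δ * min 1 s) ≤ cin * (δ * min 1 s) := mul_le_mul_of_nonneg_right h5 hδm
      linarith only [hsum', g1, hinc, hδGo, hδG, hsq, hδm]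
    · have h6 : 1 / 5 ≤ cout := by linarith only [hcol2, hsplit, h5]
      have g2 : δ * min 1 (s + δ) ≤ 5 * cout * (δ * min 1 (s + δ)) := by
        have g3 : 0 ≤ δ * min 1 (s + δ) :=
          mul_nonneg hδ (le_min zero_le_one (by linarith only [hδ, hs]))
        exact le_mul_of_one_le_left g3 (by linarith only [hcol2, hsplit, h5])
      have g4 : cout * min 1 (s + δ) ≤ 65 / 16 * Gout := by
        rw [hcout, hGout, Finset.sum_mul, Finset.mul_sum]
        refine Finset.sum_le_sum fun u' hu' => ?_
        have hu2 : s ≤ 4 * D u u' := by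
          have := not_lt.1 (Finset.mem_filter.1 hu').2
          linarith only [this]
        have g5 : min 1 (s + δ) ≤ 65 / 16 * min 1 (D u u') :=
          (min_le_min le_rfl (by (clear * - hcase hu2; linarith) : s + δ ≤ 65 / 16 * D u u')).trans
            (min_mul_le (by norm_num))
        calc q u' * min 1 (s + δ) ≤ q u' * (65 / 16 * min 1 (D u u')) :=
              mul_le_mul_of_nonneg_left g5 (hq u')
          _ = _ := by ring
      have g6 : δ * (cout * min 1 (s + δ)) ≤ δ * (65 / 16 * Gout) :=
        mul_le_mul_of_nonneg_left g4 hδ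
      have g7 : 0 ≤ cin * (δ * min 1 s) := mul_nonneg hcin0 hδm
      have r1 : 5 * cout * (δ * min 1 (s + δ)) = 5 * (δ * (cout * min 1 (s + δ))) := by ring
      have r2 : δ * (65 / 16 * Gout) = 65 / 16 * (δ * Gout) := by ring
      rw [r1] at g2
      rw [r2] at g6
      linarith only [hsum', g2, g6, g7, hδGo, hδGo1, hδG, hsq]

/-- DRAG LEMMA, first order form -/
theorem drift_le (hD : PM D) (h : Bal D p ν) (u v : X) (huv : slp * D u v ≤ 1 / 32) :
    drift D p ν u v + 1 / 2 * GP D p ν u v ≤
      600 * D u v * gs D p ν u + 8000 * slp * D u v ^ 2 := by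
  classical
  have hδ := hD.nonneg u v
  have hsl := one_le_slp
  have hsl0 := slp_pos
  have huv' : D u v ≤ 1 / 32 := (le_mul_of_one_le_left hδ hsl).trans huv
  have h1 := log_sub_log_le hD h.hν u v huv'
  have hgg := gg_nonneg hD h u
  set G : X → ℝ := fun c => ∑ u', p u' * min 1 (D u u') * (kern D u' c / SS D ν u') with hG
  have hG0 : ∀ c, 0 ≤ G c := fun c => Finset.sum_nonneg fun u' _ =>
    mul_nonneg (mul_nonneg (h.hp u') (le_min zero_le_one (hD.nonneg u u')))
      (div_nonneg (kern_pos u' c).le (SS_pos h.hν u').le)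
  have h2 : drift D p ν u v + 1 / 2 * GP D p ν u v ≤
      ∑ c, QQ D ν u c * (D u v * (if D u c ≤ 3 then min 1 (D u c + D u v) else slp) +
      ff D u v c * ∑ u', p u' * (kern D u' c - kern D u' v
          + 1 / 2 * max 0 (kern D u' v - kern D u' c)) / SS D ν u') := by
    have e0' : ∑ c, QQ D ν u c * ff D u v c * ∑ u', p u' * (kern D u' c - kern D u' v) / SS D ν u'
        + 1 / 2 * GP D p ν u v = ∑ c, QQ D ν u c * (ff D u v c *
          ∑ u', p u' * (kern D u' c - kern D u' v
          + 1 / 2 * max 0 (kern D u' v - kern D u' c)) / SS D ν u') := by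
      unfold GP
      rw [Finset.mul_sum, ← Finset.sum_add_distrib]
      refine Finset.sum_congr rfl fun c _ => ?_
      have e1 : ∑ u', p u' * (kern D u' c - kern D u' v
          + 1 / 2 * max 0 (kern D u' v - kern D u' c)) / SS D ν u' =
          ∑ u', p u' * (kern D u' c - kern D u' v) / SS D ν u' +
          1 / 2 * ∑ u', p u' * max 0 (kern D u' v - kern D u' c) / SS D ν u' := by
        rw [Finset.mul_sum, ← Finset.sum_add_distrib]
        refine Finset.sum_congr rfl fun u' _ => ?_
        ring
      rw [e1]
      ring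
    unfold drift
    rw [add_assoc, e0']
    simp only [mul_add, Finset.sum_add_distrib]
    exact add_le_add h1 le_rfl
  have h3 : ∀ c, QQ D ν u c * (D u v * (if D u c ≤ 3 then min 1 (D u c + D u v) else slp) +
      ff D u v c * ∑ u', p u' * (kern D u' c - kern D u' v
          + 1 / 2 * max 0 (kern D u' v - kern D u' c)) / SS D ν u') ≤
      500 * slp * D u v * (QQ D ν u c * G c) + 8000 * slp * D u v ^ 2 * QQ D ν u c +
        slp * D u v * (if 3 < D u c then QQ D ν u c else 0) := by
    intro c
    have hQ := QQ_nonneg (D := D) h.hν u c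
    have hδ2 : 0 ≤ D u v ^ 2 := sq_nonneg _
    rcases (h.hν c).eq_or_lt with h0 | h0
    · have hQ0 : QQ D ν u c = 0 := by
        unfold QQ
        rw [← h0]
        simp
      rw [hQ0]
      simp only [zero_mul, mul_zero, add_zero, ite_self, Std.le_refl]
    · by_cases hfar : 3 < D u c
      · have hf : ff D u v c = 0 := by
          unfold ff
          rw [if_pos hfar, ite_self]
        rw [hf, zero_mul, add_zero, if_pos hfar, if_neg (not_le.2 hfar)]
        have e3 : 0 ≤ 500 * slp * D u v * (QQ D ν u c * G c) := by
          have := hG0 c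
          (clear * - hδ hQ this hsl0; positivity)
        have e4 : 0 ≤ 8000 * slp * D u v ^ 2 * QQ D ν u c := by (clear * - hQ hsl0; positivity)
        linarith only [e3, e4]
      · rw [if_neg hfar, mul_zero, add_zero, if_pos (not_lt.1 hfar)]
        have e1 := token_drift_le hD h u v c huv h0 (not_lt.1 hfar)
        refine (mul_le_mul_of_nonneg_left e1 hQ).trans (le_of_eq ?_)
        simp only [hG]
        ring
  have h4 : ∑ c, QQ D ν u c * G c = gg D p ν u := by
    have e1 : gg D p ν u = ∑ u', ∑ c, p u' * min 1 (D u u') *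
        (QQ D ν u c * (kern D u' c / SS D ν u')) := by
      unfold gg
      refine Finset.sum_congr rfl fun u' _ => ?_
      rw [TT_eq_sum_QQ, Finset.mul_sum]
    rw [e1, Finset.sum_comm]
    refine Finset.sum_congr rfl fun c _ => ?_
    rw [hG, Finset.mul_sum]
    refine Finset.sum_congr rfl fun u' _ => ?_
    ring
  have h5 : ∑ c, (if 3 < D u c then QQ D ν u c else 0) ≤ 20 * gg D p ν u := by
    rw [← Finset.sum_filter]
    exact far_le hD h u
  have h6 := sum_QQ_le_one (D := D) h.hν u
  calc drift D p ν u v + 1 / 2 * GP D p ν u v ≤ _ := h2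
    _ ≤ ∑ c, (500 * slp * D u v * (QQ D ν u c * G c) + 8000 * slp * D u v ^ 2 * QQ D ν u c +
        slp * D u v * (if 3 < D u c then QQ D ν u c else 0)) := Finset.sum_le_sum fun c _ => h3 c
    _ = 500 * slp * D u v * gg D p ν u + 8000 * slp * D u v ^ 2 * ∑ c, QQ D ν u c +
        slp * D u v * ∑ c, (if 3 < D u c then QQ D ν u c else 0) := by
        rw [Finset.sum_add_distrib, Finset.sum_add_distrib, ← Finset.mul_sum, ← Finset.mul_sum,
          ← Finset.mul_sum, h4]
    _ ≤ _ := by
        have e1 : 8000 * slp * D u v ^ 2 * ∑ c, QQ D ν u c ≤ 8000 * slp * D u v ^ 2 * 1 :=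
          mul_le_mul_of_nonneg_left h6 (by (clear * - hsl0; positivity))
        have e2 := mul_le_mul_of_nonneg_left h5 (mul_nonneg hsl0.le hδ)
        have e3 : 0 ≤ slp * (D u v * gg D p ν u) := mul_nonneg hsl0.le (mul_nonneg hδ hgg)
        have e5 : 600 * D u v * gs D p ν u = 600 * (slp * (D u v * gg D p ν u)) := by
          unfold gs
          ring
        rw [e5]
        linarith only [e1, e2, e3]

/-- without drags the gain vanishes -/
theorem GP_eq_zero (u v : X) (huv : 1 / 32 < slp * D u v) : GP D p ν u v = 0 := by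
  unfold GP
  refine Finset.sum_eq_zero fun c _ => ?_
  have : ff D u v c = 0 := by
    unfold ff
    rw [if_pos huv]
  rw [this, mul_zero, zero_mul]

theorem GP_nonneg (hD : PM D) (h : Bal D p ν) (u v : X) : 0 ≤ GP D p ν u v :=
  Finset.sum_nonneg fun c _ => mul_nonneg (mul_nonneg (QQ_nonneg h.hν u c) (ff_nonneg hD u v c))
    (Finset.sum_nonneg fun u' _ => div_nonneg (mul_nonneg (h.hp u') (le_max_left _ _))
      (SS_pos h.hν u').le)

/-- large moves: no dragging, trivial bound -/
theorem drift_le_of_large (hD : PM D) (h : Bal D p ν) {k : ℝ} (hk : 1 ≤ k) (hpk : ∑ x, p x ≤ k)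
    (u v : X) (huv : 1 / 32 < slp * D u v) :
    drift D p ν u v ≤ Real.log (60 * k) := by
  have hf : ∀ c, ff D u v c = 0 := fun c => by
    unfold ff
    rw [if_pos huv]
  unfold drift
  simp only [hf, mul_zero, zero_mul, sum_const_zero, add_zero]
  have hu := SS_pos (D := D) h.hν u
  have hv := SS_pos (D := D) h.hν v
  have h1 := SS_le hD h.hν u
  have h2 := sum_nu_le h
  have h3 := SS_ge (D := D) h.hν v
  rw [← Real.log_div hu.ne' hv.ne']
  apply Real.log_le_log (div_pos hu hv)
  rw [div_le_iff₀ hv]
  unfold e0 at h1 h3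
  have h4 := mul_le_mul_of_nonneg_left h3 (by linarith only [hk] : 0 ≤ 60 * k)
  linarith only [h1, h2, h4, hpk, hk]

end Vale.Agent.P304.Stp
end
end

section

section

/-! K4: label kernel: flat top, own cut, relabelling caused by drags (section 3). -/

open Finset

namespace Vale.Agent.P304.Stp

open Vale.Agent.P304.Dyn

variable [StP]

variable {X : Type} [Fintype X] [DecidableEq X] {D : X → X → ℝ} {p ν : X → ℝ} {τ : ℝ}

theorem MM_nonneg (u c : X) : 0 ≤ MM τ D u c :=
  le_min zero_le_one (le_max_left _ _)

theorem MM_le_one (u c : X) : MM τ D u c ≤ 1 := min_le_left _ _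

/-- flat top -/
theorem MM_eq_one (hD : PM D) (h0 : 0 ≤ τ) (h1 : τ ≤ 1 / 10) (u c : X) (h : D u c ≤ 33 / 10) :
    MM τ D u c = 1 := by
  refine min_eq_left ?_
  refine le_trans ?_ (le_max_right _ _)
  have h2 : phi (D u c) ≤ 14 / 5 := by
    refine (phi_mono (hD.nonneg u c) h).trans ?_
    rw [phi_eq_of_le (by norm_num)]
    unfold Dyn.phi
    norm_num
  have h3 : Real.exp 3 * kern D u c = Real.exp (3 - phi (D u c)) := by
    rw [kern, ← Real.exp_add, ← sub_eq_add_neg]
  rw [h3]
  have h4 : 3 - phi (D u c) + 1 ≤ Real.exp (3 - phi (D u c)) := Real.add_one_le_exp _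
  linarith only [h1, h2, h4]

/-- bounded support: `M > 0` implies `D ≤ 9/2` -/
theorem MM_supp (h0 : 0 < τ) (hsl : Real.log (1 / τ) ≤ slp) (u c : X) (h : 0 < MM τ D u c) :
    D u c ≤ 9 / 2 := by
  have h1 : 0 < max 0 (Real.exp 3 * kern D u c - τ) := lt_of_lt_of_le h (min_le_right _ _)
  have h2 : τ < Real.exp 3 * kern D u c := by
    by_contra hc
    rw [max_eq_left (by linarith [not_lt.1 hc])] at h1
    exact lt_irrefl _ h1
  by_contra hc
  have hc' : 9 / 2 < D u c := not_le.1 hc
  have h3 : 3 + slp ≤ phi (D u c) := by
    have e1 := phi_ge_steep (t := D u c)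
    have e2 := one_le_slp
    have e3 : (slp - 1) * 1 ≤ (slp - 1) * (D u c - 7 / 2) :=
      mul_le_mul_of_nonneg_left (by linarith only [hc']) (by linarith only [e2])
    linarith only [e1, e3, hc']
  have h4 : Real.exp 3 * kern D u c ≤ τ := by
    unfold kern
    rw [← Real.exp_add]
    calc Real.exp (3 + -(phi (D u c))) ≤ Real.exp (Real.log τ) := by
          apply Real.exp_le_exp.2
          rw [one_div, Real.log_inv] at hsl
          linarith only [hsl, h3]
      _ = τ := Real.exp_log h0
  linarith only [h2, h4]

theorem MM_le (h0 : 0 ≤ τ) (u c : X) : MM τ D u c ≤ Real.exp 3 * kern D u c := by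
  refine (min_le_right _ _).trans (max_le ?_ (by linarith only [h0]))
  exact mul_nonneg (Real.exp_pos _).le (kern_pos u c).le

theorem le_MM (hD : PM D) (h0 : 0 ≤ τ) (u c : X) : kern D u c - τ ≤ MM τ D u c := by
  have h1 := kern_le_one hD u c
  have h2 := (kern_pos (D := D) u c).le
  refine le_min (by linarith only [h0, h1]) (le_max_of_le_right ?_)
  have h3 : (1 : ℝ) ≤ Real.exp 3 := Real.one_le_exp (by norm_num)
  have h4 : 1 * kern D u c ≤ Real.exp 3 * kern D u c := mul_le_mul_of_nonneg_right h3 h2
  linarith only [h4]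

theorem abs_MM_sub_le (u u' c c' : X) :
    |MM τ D u c - MM τ D u' c'| ≤ Real.exp 3 * |kern D u c - kern D u' c'| := by
  unfold MM
  have h1 : |min 1 (max 0 (Real.exp 3 * kern D u c - τ)) -
      min 1 (max 0 (Real.exp 3 * kern D u' c' - τ))| ≤
      |max 0 (Real.exp 3 * kern D u c - τ) - max 0 (Real.exp 3 * kern D u' c' - τ)| := by
    rw [min_comm 1, min_comm 1]
    exact abs_inf_sub_inf_le_abs _ _ _
  have h2 : |max 0 (Real.exp 3 * kern D u c - τ) - max 0 (Real.exp 3 * kern D u' c' - τ)| ≤
      |(Real.exp 3 * kern D u c - τ) - (Real.exp 3 * kern D u' c' - τ)| := by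
    rw [max_comm 0, max_comm 0]
    exact abs_sup_sub_sup_le_abs _ _ _
  refine h1.trans (h2.trans ?_)
  have h3 : (Real.exp 3 * kern D u c - τ) - (Real.exp 3 * kern D u' c' - τ) =
      Real.exp 3 * (kern D u c - kern D u' c') := by ring
  rw [h3, abs_mul, abs_of_pos (Real.exp_pos 3)]

/-- own cut: only far tokens matter -/
theorem cut_le (hD : PM D) (h : Bal D p ν) (h0 : 0 ≤ τ) (h1 : τ ≤ 1 / 10) (u v : X)
    (huv : slp * D u v ≤ 1 / 32) :
    ∑ c, ν c * |MM τ D u c - MM τ D v c| / SS D ν u ≤ 500 * D u v * gs D p ν u := by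
  have hδ0 := hD.nonneg u v
  have hsl := one_le_slp
  have hsl0 := slp_pos
  have huv' : D u v ≤ 1 / 32 := (le_mul_of_one_le_left hδ0 hsl).trans huv
  have hS := SS_pos (D := D) h.hν u
  have hg := gg_nonneg hD h u
  have hE : (500 : ℝ) * D u v * gs D p ν u = 500 * (slp * D u v) * gg D p ν u := by
    unfold gs
    ring
  rw [hE]
  have hδ : 0 ≤ slp * D u v := mul_nonneg hsl0.le hδ0
  have hexp : Real.exp (slp * D u v) - 1 ≤ slp * D u v * (33 / 32) := by
    refine (k4_exp_sub_one_le hδ (by linarith only [huv])).trans ?_
    exact mul_le_mul_of_nonneg_left (by linarith only [huv]) hδ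
  have hterm : ∀ c, ν c * |MM τ D u c - MM τ D v c| / SS D ν u ≤
      if 3 < D u c then (201 / 10 * (33 / 32) * (slp * D u v)) * QQ D ν u c else 0 := by
    intro c
    by_cases hc : 3 < D u c
    · rw [if_pos hc]
      have hk := (kern_pos (D := D) u c).le
      have hk1 : kern D v c ≤ Real.exp (slp * D u v) * kern D u c := by
        have := kern_le_exp_mul hD v u c
        rwa [hD.symm v u] at this
      have hk2 : kern D u c ≤ Real.exp (slp * D u v) * kern D v c := kern_le_exp_mul hD u v c
      have hv := (kern_pos (D := D) v c).le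
      have he1 : 1 ≤ Real.exp (slp * D u v) := Real.one_le_exp hδ
      have h2 : |kern D u c - kern D v c| ≤ (Real.exp (slp * D u v) - 1) * kern D u c := by
        rw [abs_le]
        constructor
        · have h5 : (Real.exp (slp * D u v) - 1) * kern D u c =
            Real.exp (slp * D u v) * kern D u c - kern D u c := by ring
          linarith only [hk1]
        · by_cases hle : kern D v c ≤ kern D u c
          · have h6 : kern D u c - kern D v c ≤ (Real.exp (slp * D u v) - 1) * kern D v c := by
              have h5 : (Real.exp (slp * D u v) - 1) * kern D v c =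
                Real.exp (slp * D u v) * kern D v c - kern D v c := by ring
              linarith only [hk2]
            exact h6.trans (mul_le_mul_of_nonneg_left hle (by linarith only [he1]))
          · have h6 : kern D u c - kern D v c ≤ 0 := by linarith only [hle]
            exact h6.trans (mul_nonneg (by linarith only [he1]) hk)
      have h3 : |MM τ D u c - MM τ D v c| ≤ 201 / 10 * (33 / 32) * (slp * D u v) * kern D u c := by
        refine (abs_MM_sub_le u v c c).trans ?_
        calc Real.exp 3 * |kern D u c - kern D v c|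
            ≤ 201 / 10 * ((slp * D u v * (33 / 32)) * kern D u c) := by
              refine mul_le_mul k4_exp3 (h2.trans ?_) (abs_nonneg _) (by norm_num)
              exact mul_le_mul_of_nonneg_right hexp hk
          _ = 201 / 10 * (33 / 32) * (slp * D u v) * kern D u c := by ring
      have h4 : ν c * |MM τ D u c - MM τ D v c| / SS D ν u ≤
          ν c * (201 / 10 * (33 / 32) * (slp * D u v) * kern D u c) / SS D ν u :=
        div_le_div_of_nonneg_right (mul_le_mul_of_nonneg_left h3 (h.hν c)) hS.le
      refine h4.trans (le_of_eq ?_)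
      rw [QQ]; ring
    · rw [if_neg hc]
      have hc' := not_lt.1 hc
      have h2 : MM τ D u c = 1 := MM_eq_one hD h0 h1 u c (by linarith only [hc])
      have h3 : MM τ D v c = 1 := by
        refine MM_eq_one hD h0 h1 v c ?_
        have := hD.tri v u c
        rw [hD.symm v u] at this
        linarith only [huv', hc, this]
      rw [h2, h3]
      simp
  calc ∑ c, ν c * |MM τ D u c - MM τ D v c| / SS D ν u
      ≤ ∑ c, (if 3 < D u c then (201 / 10 * (33 / 32) * (slp * D u v)) * QQ D ν u c else 0) :=
        Finset.sum_le_sum fun c _ => hterm c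
    _ = (201 / 10 * (33 / 32) * (slp * D u v)) * ∑ c ∈ univ.filter (fun c => 3 < D u c), QQ D ν u c := by
        rw [← Finset.sum_filter, Finset.mul_sum]
    _ ≤ (201 / 10 * (33 / 32) * (slp * D u v)) * (20 * gg D p ν u) :=
        mul_le_mul_of_nonneg_left (far_le hD h u) (by (clear * - hδ; positivity))
    _ ≤ 500 * (slp * D u v) * gg D p ν u := by
        have : 0 ≤ slp * D u v * gg D p ν u := mul_nonneg hδ hg
        nlinarith only [this]

/-- relabelling caused by the drags `c → v`: the part of the users that see `v` worse than `c` is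
controlled by the growth, the other part by the gain -/
theorem relabel_drag_le (hD : PM D) (h : Bal D p ν) (h0 : 0 ≤ τ) (h1 : τ ≤ 1 / 10) (u v : X) :
    ∑ c, QQ D ν u c * ff D u v c *
        ∑ u', p u' * |MM τ D u' c - MM τ D u' v| / SS D ν u'
      ≤ 200000 * D u v * gs D p ν u + 21 * GP D p ν u v := by
  have hδ := hD.nonneg u v
  have hg := gg_nonneg hD h u
  have hsl := one_le_slp
  have hsl0 := slp_pos
  set K : ℝ := 201 / 10 with hK
  have hKpos : 0 ≤ K := by rw [hK]; (clear * -; norm_num)
  have hterm : ∀ c, QQ D ν u c * ff D u v c *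
        ∑ u', p u' * |MM τ D u' c - MM τ D u' v| / SS D ν u' ≤
      QQ D ν u c * ((K * (65 * (slp * D u v))) *
        ∑ u' ∈ univ.filter (fun u' => 1 / 4 ≤ D u u'), p u' * (kern D u' c / SS D ν u')) +
      K * (QQ D ν u c * ff D u v c *
        ∑ u', p u' * max 0 (kern D u' v - kern D u' c) / SS D ν u') := by
    intro c
    have hQ := QQ_nonneg (D := D) h.hν u c
    have hf0 := ff_nonneg hD u v c
    have hsum0 : 0 ≤ ∑ u' ∈ univ.filter (fun u' => 1 / 4 ≤ D u u'),
        p u' * (kern D u' c / SS D ν u') :=
      Finset.sum_nonneg fun u' _ => mul_nonneg (h.hp u')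
        (div_nonneg (kern_pos u' c).le (SS_pos h.hν u').le)
    have hm0 : ∀ u', 0 ≤ p u' * max 0 (kern D u' v - kern D u' c) / SS D ν u' := fun u' =>
      div_nonneg (mul_nonneg (h.hp u') (le_max_left _ _)) (SS_pos h.hν u').le
    have hmax0 : 0 ≤ ∑ u', p u' * max 0 (kern D u' v - kern D u' c) / SS D ν u' :=
      Finset.sum_nonneg fun u' _ => hm0 u'
    have e0' : QQ D ν u c * ff D u v c *
        ∑ u', p u' * |MM τ D u' c - MM τ D u' v| / SS D ν u' =
        QQ D ν u c * (ff D u v c *
        ∑ u', p u' * |MM τ D u' c - MM τ D u' v| / SS D ν u') := by ring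
    have e1' : K * (QQ D ν u c * ff D u v c *
        ∑ u', p u' * max 0 (kern D u' v - kern D u' c) / SS D ν u') =
        QQ D ν u c * (K * (ff D u v c *
        ∑ u', p u' * max 0 (kern D u' v - kern D u' c) / SS D ν u')) := by ring
    rw [e0', e1', ← mul_add]
    refine mul_le_mul_of_nonneg_left ?_ hQ
    by_cases hf : ff D u v c = 0
    · rw [hf, zero_mul, zero_mul, mul_zero, add_zero]
      (clear * - hδ hsum0 hsl0 hKpos; positivity)
    have hf1 : slp * D u v ≤ 1 / 32 := by
      by_contra hcon
      exact hf (by unfold ff; rw [if_pos (not_le.1 hcon)])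
    have hf1' : D u v ≤ 1 / 32 := (le_mul_of_one_le_left hδ hsl).trans hf1
    have hf2 : D u c ≤ 3 := by
      by_contra hcon
      refine hf ?_
      unfold ff
      rw [if_neg (not_lt.2 hf1), if_pos (not_le.1 hcon)]
    have hcv : D c v ≤ D u c + D u v := by
      have := hD.tri c u v
      rwa [hD.symm c u] at this
    have hcv0 := hD.nonneg c v
    have hinner : ∑ u', p u' * |MM τ D u' c - MM τ D u' v| / SS D ν u' ≤
        (K * (slp * (D u c + D u v))) *
          ∑ u' ∈ univ.filter (fun u' => 1 / 4 ≤ D u u'), p u' * (kern D u' c / SS D ν u') +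
        K * ∑ u', p u' * max 0 (kern D u' v - kern D u' c) / SS D ν u' := by
      rw [Finset.mul_sum, Finset.sum_filter, Finset.mul_sum, ← Finset.sum_add_distrib]
      refine Finset.sum_le_sum fun u' _ => ?_
      have hS := SS_pos (D := D) h.hν u'
      have hk := (kern_pos (D := D) u' c).le
      by_cases hu : 1 / 4 ≤ D u u'
      · rw [if_pos hu]
        have ha : kern D u' c - kern D u' v ≤ kern D u' c * (slp * (D u c + D u v)) := by
          refine (kern_sub_le hD u' c v).trans (mul_le_mul_of_nonneg_left ?_ hk)
          have e1 : slp * min 1 (max (D u' c) (D u' v)) ≤ slp * 1 :=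
            mul_le_mul_of_nonneg_left (min_le_left _ _) hsl0.le
          rw [mul_one] at e1
          calc D c v * (slp * min 1 (max (D u' c) (D u' v))) ≤ D c v * slp :=
                mul_le_mul_of_nonneg_left e1 hcv0
            _ ≤ (D u c + D u v) * slp := mul_le_mul_of_nonneg_right hcv hsl0.le
            _ = slp * (D u c + D u v) := mul_comm _ _
        have hd : |kern D u' c - kern D u' v| ≤
            kern D u' c * (slp * (D u c + D u v)) + max 0 (kern D u' v - kern D u' c) := by
          have e2 := le_max_left 0 (kern D u' v - kern D u' c)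
          have e3 := le_max_right 0 (kern D u' v - kern D u' c)
          have e4 : 0 ≤ kern D u' c * (slp * (D u c + D u v)) :=
            mul_nonneg hk (mul_nonneg hsl0.le (by linarith only [hcv0, hcv]))
          rw [abs_le]
          constructor <;> linarith only [ha, e2, e3, e4]
        have he : |MM τ D u' c - MM τ D u' v| ≤
            K * (kern D u' c * (slp * (D u c + D u v)) + max 0 (kern D u' v - kern D u' c)) :=
          (abs_MM_sub_le u' u' c v).trans (mul_le_mul k4_exp3 hd (abs_nonneg _) hKpos)
        calc p u' * |MM τ D u' c - MM τ D u' v| / SS D ν u'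
            ≤ p u' * (K * (kern D u' c * (slp * (D u c + D u v)) +
                max 0 (kern D u' v - kern D u' c))) / SS D ν u' :=
              div_le_div_of_nonneg_right (mul_le_mul_of_nonneg_left he (h.hp u')) hS.le
          _ = K * (slp * (D u c + D u v)) * (p u' * (kern D u' c / SS D ν u')) +
              K * (p u' * max 0 (kern D u' v - kern D u' c) / SS D ν u') := by ring
      · rw [if_neg hu]
        have hu' := not_le.1 hu
        have h2 : MM τ D u' c = 1 := by
          refine MM_eq_one hD h0 h1 u' c ?_
          have := hD.tri u' u c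
          rw [hD.symm u' u] at this
          (clear * - hf2 hu this; linarith)
        have h3 : MM τ D u' v = 1 := by
          refine MM_eq_one hD h0 h1 u' v ?_
          have := hD.tri u' u v
          rw [hD.symm u' u] at this
          linarith only [hf1', hu, this]
        rw [h2, h3]
        have e5 := mul_nonneg hKpos (hm0 u')
        simpa using e5
    have hfm := ff_mul_le hD u v c
    calc ff D u v c * ∑ u', p u' * |MM τ D u' c - MM τ D u' v| / SS D ν u'
        ≤ ff D u v c * ((K * (slp * (D u c + D u v))) *
          ∑ u' ∈ univ.filter (fun u' => 1 / 4 ≤ D u u'), p u' * (kern D u' c / SS D ν u') +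
          K * ∑ u', p u' * max 0 (kern D u' v - kern D u' c) / SS D ν u') :=
          mul_le_mul_of_nonneg_left hinner hf0
      _ = (K * (slp * (ff D u v c * (D u c + D u v)))) *
          ∑ u' ∈ univ.filter (fun u' => 1 / 4 ≤ D u u'), p u' * (kern D u' c / SS D ν u') +
          K * (ff D u v c *
            ∑ u', p u' * max 0 (kern D u' v - kern D u' c) / SS D ν u') := by
          ring
      _ ≤ (K * (65 * (slp * D u v))) *
          ∑ u' ∈ univ.filter (fun u' => 1 / 4 ≤ D u u'), p u' * (kern D u' c / SS D ν u') +
          K * (ff D u v c *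
            ∑ u', p u' * max 0 (kern D u' v - kern D u' c) / SS D ν u') := by
          refine add_le_add (mul_le_mul_of_nonneg_right ?_ hsum0) le_rfl
          refine mul_le_mul_of_nonneg_left ?_ hKpos
          have := mul_le_mul_of_nonneg_left hfm hsl0.le
          linarith only [this]
  have hGP := GP_nonneg hD h u v
  calc ∑ c, QQ D ν u c * ff D u v c *
        ∑ u', p u' * |MM τ D u' c - MM τ D u' v| / SS D ν u'
      ≤ ∑ c, (QQ D ν u c * ((K * (65 * (slp * D u v))) *
        ∑ u' ∈ univ.filter (fun u' => 1 / 4 ≤ D u u'), p u' * (kern D u' c / SS D ν u')) +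
        K * (QQ D ν u c * ff D u v c *
        ∑ u', p u' * max 0 (kern D u' v - kern D u' c) / SS D ν u')) :=
        Finset.sum_le_sum fun c _ => hterm c
    _ = (K * (65 * (slp * D u v))) *
        ∑ u' ∈ univ.filter (fun u' => 1 / 4 ≤ D u u'), p u' * TT D ν u u' + K * GP D p ν u v := by
        rw [Finset.sum_add_distrib]
        congr 1
        · simp_rw [TT_eq_sum_QQ, Finset.mul_sum]
          rw [Finset.sum_comm]
          refine Finset.sum_congr rfl fun u' _ => Finset.sum_congr rfl fun c _ => ?_
          ring
        · rw [← Finset.mul_sum]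
          rfl
    _ ≤ (K * (65 * (slp * D u v))) * (4 * gg D p ν u) + K * GP D p ν u v :=
        add_le_add (mul_le_mul_of_nonneg_left (sum_out_TT_le hD h u)
          (by (clear * - hKpos hδ hsl0; positivity))) le_rfl
    _ ≤ 200000 * D u v * gs D p ν u + 21 * GP D p ν u v := by
        have e1 : 0 ≤ slp * D u v * gg D p ν u := mul_nonneg (mul_nonneg hsl0.le hδ) hg
        have e2 : 200000 * D u v * gs D p ν u = 200000 * (slp * D u v * gg D p ν u) := by
          unfold gs
          ring
        rw [e2, hK]
        linarith only [e1, hGP]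

end Vale.Agent.P304.Stp
end
end
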