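import Vale.Agent.P304.Stp.S2

set_option linter.all false

section

section

/-! labels -/

open Finset

namespace Vale.Agent.P304.Stp

open Vale.Agent.P304.Dyn

variable [StP]

variable {X J : Type} [Fintype X] [Fintype J] [DecidableEq X] [DecidableEq J]

/-- radius of the labels (in units of the scale) -/
noncomputable def RR (_k : ℝ) : ℝ := 11

/-- number of slots of token `j` seen from `u` -/
noncomputable def slots (k : ℝ) (Q : ℕ) (D : X → X → ℝ) (x : Conf X J) (u : X) (j : J) : ℕ :=
  if (x j).2 = true then ⌊(Q : ℝ) * MM (tau k) D u (x j).1⌋₊ else 0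

/-- the set of slots seen from `u` at level `l` -/
noncomputable def AA {n B : ℕ} (k : ℝ) (Q Ne : ℕ) (D : X → X → ℝ) (l : Fin n) (x : Conf X J)
    (u : X) : Finset (GG n J B) :=
  open Classical in univ.filter fun g => g.1 = l ∧
    match g.2.1 with
    | some j => (g.2.2 : ℕ) < slots k Q D x u j
    | none => (g.2.2 : ℕ) < Ne - ∑ j, slots k Q D x u j

/-- the label of `u` at level `l` -/
noncomputable def lab {n B : ℕ} (k : ℝ) (Q Ne : ℕ) (D : X → X → ℝ) (π : Dyn.Ord (GG n J B))
    (l : Fin n) (x : Conf X J) (u : X) : Option J :=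
  (mh π (AA k Q Ne D l x u)).bind fun g => g.2.1
end Vale.Agent.P304.Stp
end
end

section

section

/-! L1: sizes of the slot sets, and the label bounds (section 3). -/

open Finset

namespace Vale.Agent.P304.Stp

open Vale.Agent.P304.Dyn

variable [StP]

variable {X J : Type} [Fintype X] [Fintype J] [DecidableEq X] [DecidableEq J]
  {D : X → X → ℝ} {p : X → ℝ} {η k : ℝ}

/-! ### slots sets given by a level function -/

omit [Fintype J] [DecidableEq J] in
theorem l1_card_fin {B m m' : ℕ} (h : m ≤ B) :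
    (univ.filter fun b : Fin B => (b : ℕ) < m ∧ ¬ (b : ℕ) < m').card = m - m' := by
  have h1 : (univ.filter fun b : Fin B => (b : ℕ) < m ∧ ¬ (b : ℕ) < m').map Fin.valEmbedding
      = Finset.Ico m' m := by
    ext i
    simp only [mem_map, mem_filter, mem_univ, true_and, Fin.valEmbedding_apply, mem_Ico]
    constructor
    · rintro ⟨b, ⟨h1, h2⟩, rfl⟩
      omega
    · rintro ⟨h1, h2⟩
      exact ⟨⟨i, by omega⟩, ⟨h2, by simpa only [not_lt] using h1⟩, rfl⟩
  rw [← card_map Fin.valEmbedding, h1, Nat.card_Ico]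

theorem mem_SL {n B : ℕ} {l : Fin n} {a : Option J → ℕ} {g : GG n J B} :
    g ∈ SL l a ↔ g.1 = l ∧ (g.2.2 : ℕ) < a g.2.1 := by
  classical
  simp only [SL, mem_filter, mem_univ, true_and]

theorem card_SL_sdiff {n B : ℕ} (l : Fin n) (a a' : Option J → ℕ) (h : ∀ o, a o ≤ B) :
    ((SL l a : Finset (GG n J B)) \ SL l a').card = ∑ o, (a o - a' o) := by
  classical
  rw [card_eq_sum_card_fiberwise (f := fun g : GG n J B => g.2.1) (t := univ)
    (fun _ _ => mem_coe.2 (mem_univ _))]
  refine sum_congr rfl fun o _ => ?_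
  rw [← l1_card_fin (m' := a' o) (h o)]
  symm
  refine card_bij (fun b _ => (l, o, b)) ?_ ?_ ?_
  · intro b hb
    simp only [mem_filter, mem_univ, true_and] at hb
    simp only [mem_filter, mem_sdiff, mem_SL, true_and]
    exact ⟨⟨hb.1, hb.2⟩, trivial⟩
  · intro b _ b' _ hbb
    simpa using hbb
  · rintro ⟨l', o', b⟩ hg
    simp only [mem_filter, mem_sdiff, mem_SL] at hg
    obtain ⟨⟨⟨h1, h2⟩, h3⟩, h4⟩ := hg
    subst h1
    subst h4
    refine ⟨b, ?_, rfl⟩
    simp only [mem_filter, mem_univ, true_and]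
    exact ⟨h2, fun h5 => h3 ⟨rfl, h5⟩⟩

theorem card_SL {n B : ℕ} (l : Fin n) (a : Option J → ℕ) (h : ∀ o, a o ≤ B) :
    (SL l a : Finset (GG n J B)).card = ∑ o, a o := by
  have h1 := card_SL_sdiff (n := n) (B := B) l a (fun _ => 0) h
  have h2 : (SL l (fun _ => 0) : Finset (GG n J B)) = ∅ := by
    refine eq_empty_of_forall_notMem fun g hg => ?_
    rw [mem_SL] at hg
    exact absurd hg.2 (Nat.not_lt_zero _)
  rw [h2, sdiff_empty] at h1
  simpa only [Fintype.sum_option, tsub_zero] using h1

/-- level function of the slot set `AA` -/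
noncomputable def lvl (k : ℝ) (Q Ne : ℕ) (D : X → X → ℝ) (x : Conf X J) (u : X) :
    Option J → ℕ
  | some j => slots k Q D x u j
  | none => Ne - ∑ j, slots k Q D x u j

omit [DecidableEq J] [Fintype X] [DecidableEq X] in
theorem AA_eq {n B : ℕ} (k : ℝ) (Q Ne : ℕ) (D : X → X → ℝ) (l : Fin n) (x : Conf X J) (u : X) :
    (AA (B := B) k Q Ne D l x u) = SL l (lvl k Q Ne D x u) := by
  classical
  ext ⟨l', o, b⟩
  rw [mem_SL]
  unfold AA
  simp only [mem_filter, mem_univ, true_and]
  cases o <;> rfl

theorem nuC_nonneg (hη : 0 ≤ η) (x : Conf X J) (c : X) : 0 ≤ nuC η x c :=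
  mul_nonneg hη (Nat.cast_nonneg _)

/-- sums against the token measure -/
theorem sum_nuC_mul (x : Conf X J) (f : X → ℝ) :
    ∑ c, nuC η x c * f c = η * ∑ j ∈ univ.filter (fun j => (x j).2 = true), f (x j).1 := by
  rw [← sum_fiberwise (s := univ.filter fun j => (x j).2 = true) (g := fun j => (x j).1), mul_sum]
  refine sum_congr rfl fun c _ => ?_
  have h1 : ∑ j ∈ (univ.filter fun j => (x j).2 = true).filter (fun j => (x j).1 = c), f (x j).1 =
      ((univ.filter fun j => x j = (c, true)).card : ℝ) * f c := by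
    rw [filter_filter]
    rw [← nsmul_eq_mul, ← sum_const]
    refine sum_congr ?_ ?_
    · ext j
      simp only [mem_filter, mem_univ, true_and, Prod.ext_iff]
      exact and_comm
    · intro j hj
      simp only [mem_filter, mem_univ, true_and] at hj
      rw [hj]
  rw [h1]
  unfold nuC
  ring

theorem sum_nuC (x : Conf X J) :
    ∑ c, nuC η x c = η * ((univ.filter fun j => (x j).2 = true).card : ℝ) := by
  have h := sum_nuC_mul (η := η) x (fun _ => 1)
  simpa only [mul_one, sum_const, nsmul_eq_mul] using h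

theorem slots_le (P : LPar η k J) (x : Conf X J) (u : X) (j : J) :
    (slots k P.Q D x u j : ℝ) ≤ P.Q * (Real.exp 3 * kern D u (x j).1) := by
  have hk : 0 < k := lt_of_lt_of_le one_pos P.hk
  have h0 : (0 : ℝ) ≤ tau k := by
    unfold tau e0
    positivity
  have hr : 0 ≤ (P.Q : ℝ) * (Real.exp 3 * kern D u (x j).1) :=
    mul_nonneg (Nat.cast_nonneg _) (mul_nonneg (Real.exp_pos _).le (kern_pos _ _).le)
  unfold slots
  split_ifs with h
  · refine (Nat.floor_le (mul_nonneg (Nat.cast_nonneg _) (MM_nonneg _ _))).trans ?_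
    exact mul_le_mul_of_nonneg_left (MM_le h0 _ _) (Nat.cast_nonneg _)
  · simpa only [CharP.cast_eq_zero, ge_iff_le] using hr

theorem slots_le_Q (P : LPar η k J) (x : Conf X J) (u : X) (j : J) :
    slots k P.Q D x u j ≤ P.Q := by
  unfold slots
  split_ifs with h
  · refine Nat.floor_le_of_le ?_
    have := mul_le_mul_of_nonneg_left (MM_le_one (τ := tau k) (D := D) u (x j).1)
      (Nat.cast_nonneg (α := ℝ) P.Q)
    simpa only [ge_iff_le, mul_one] using this
  · exact Nat.zero_le _

theorem slots_dead (P : LPar η k J) (x : Conf X J) (u : X) (j : J) (h : (x j).2 = false) :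
    slots k P.Q D x u j = 0 := by
  unfold slots
  rw [h]
  simp

theorem lvl_le (P : LPar η k J) (x : Conf X J) (u : X) (o : Option J) :
    lvl k P.Q P.Ne D x u o ≤ P.B := by
  cases o with
  | none => exact (Nat.sub_le _ _).trans P.hB2
  | some j => exact (slots_le_Q P x u j).trans P.hB1

/-- cardinality of the slot set -/
theorem card_AA {n : ℕ} (P : LPar η k J) (l : Fin n) (x : Conf X J) (u : X) :
    ((AA (B := P.B) k P.Q P.Ne D l x u).card) = max P.Ne (∑ j, slots k P.Q D x u j) := by
  rw [AA_eq, card_SL _ _ (lvl_le P x u), Fintype.sum_option]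
  show P.Ne - ∑ j, slots k P.Q D x u j + ∑ j, slots k P.Q D x u j = _
  (clear * -; omega)

/-- lower bound for the number of token slots -/
theorem l1_sum_slots (hD : PM D) (P : LPar η k J) (x : Conf X J)
    (hx : ∑ c, nuC η x c ≤ 5 / 2 * k) (u : X) :
    (SS D (nuC η x) u - 21 / 20 * e0) * P.Q ≤ η * ((∑ j, slots k P.Q D x u j : ℕ) : ℝ) := by
  have hk : 0 < k := lt_of_lt_of_le one_pos P.hk
  have h0 : (0 : ℝ) ≤ tau k := by
    unfold tau e0
    positivity
  have hQ : (0 : ℝ) ≤ (P.Q : ℝ) := Nat.cast_nonneg _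
  have htau : tau k * (5 / 2 * k) = e0 / 40 := by
    unfold tau
    field_simp
    ring
  -- per token
  have h1 : ∀ j ∈ univ.filter (fun j => (x j).2 = true),
      (P.Q : ℝ) * (kern D u (x j).1 - tau k) - 1 ≤ slots k P.Q D x u j := by
    intro j hj
    simp only [mem_filter, mem_univ, true_and] at hj
    unfold slots
    rw [if_pos hj]
    have h2 := Nat.lt_floor_add_one ((P.Q : ℝ) * MM (tau k) D u (x j).1)
    have h3 := mul_le_mul_of_nonneg_left (le_MM hD h0 u (x j).1) hQ
    linarith only [h2, h3]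
  have h2 : ∑ j ∈ univ.filter (fun j => (x j).2 = true),
      ((P.Q : ℝ) * (kern D u (x j).1 - tau k) - 1) ≤ ((∑ j, slots k P.Q D x u j : ℕ) : ℝ) := by
    refine (sum_le_sum h1).trans ?_
    push_cast
    exact sum_le_sum_of_subset_of_nonneg (filter_subset _ _) fun j _ _ => Nat.cast_nonneg _
  have h3 : ∑ j ∈ univ.filter (fun j => (x j).2 = true),
      ((P.Q : ℝ) * (kern D u (x j).1 - tau k) - 1) =
      (P.Q : ℝ) * ∑ j ∈ univ.filter (fun j => (x j).2 = true), kern D u (x j).1
        - (P.Q : ℝ) * tau k * ((univ.filter fun j => (x j).2 = true).card : ℝ)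
        - ((univ.filter fun j => (x j).2 = true).card : ℝ) := by
    rw [sum_sub_distrib, ← mul_sum, sum_sub_distrib, sum_const, sum_const]
    simp only [nsmul_eq_mul]
    ring
  have h4 := sum_nuC_mul (η := η) x (fun c => kern D u c)
  have h5 := sum_nuC (η := η) x
  have h6 : SS D (nuC η x) u = e0 + ∑ c, nuC η x c * kern D u c := by
    unfold SS
    congr 1
    exact sum_congr rfl fun c _ => mul_comm _ _
  have hcard : ((univ.filter fun j => (x j).2 = true).card : ℝ) ≤ Fintype.card J := by
    exact_mod_cast card_le_univ _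
  have hη := P.hη
  have h7 : η * ((univ.filter fun j => (x j).2 = true).card : ℝ) ≤ e0 / 40 * P.Q :=
    (mul_le_mul_of_nonneg_left hcard hη.le).trans P.hJ
  have h8 := mul_le_mul_of_nonneg_left h2 hη.le
  rw [h3] at h8
  have h9 : tau k * ∑ c, nuC η x c ≤ e0 / 40 := by
    rw [← htau]
    exact mul_le_mul_of_nonneg_left hx h0
  have h10 : (P.Q : ℝ) * (tau k * ∑ c, nuC η x c) ≤ (P.Q : ℝ) * (e0 / 40) :=
    mul_le_mul_of_nonneg_left h9 hQ
  rw [h6, h4]
  rw [h5] at h10
  refine le_trans ?_ h8
  have e1 : η * ((P.Q : ℝ) * ∑ j ∈ univ.filter (fun j => (x j).2 = true), kern D u (x j).1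
        - (P.Q : ℝ) * tau k * ((univ.filter fun j => (x j).2 = true).card : ℝ)
        - ((univ.filter fun j => (x j).2 = true).card : ℝ)) =
      (P.Q : ℝ) * (η * ∑ j ∈ univ.filter (fun j => (x j).2 = true), kern D u (x j).1)
        - (P.Q : ℝ) * (tau k * (η * ((univ.filter fun j => (x j).2 = true).card : ℝ)))
        - η * ((univ.filter fun j => (x j).2 = true).card : ℝ) := by ring
  rw [e1]
  linarith

theorem l1_card_pos {n : ℕ} (P : LPar η k J) (l : Fin n) (x : Conf X J) (u : X) :
    0 < (AA (B := P.B) k P.Q P.Ne D l x u).card := by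
  rw [card_AA]
  have h1 := P.hNe
  have hη := P.hη
  have hQ : (1 : ℝ) ≤ P.Q := by exact_mod_cast P.hQ
  have h2 : 0 < P.Ne := by
    rcases Nat.eq_zero_or_pos P.Ne with h | h
    · exfalso
      rw [h] at h1
      have : (0 : ℝ) < e0 * P.Q := by
        unfold e0
        positivity
      simp only [CharP.cast_eq_zero, mul_zero] at h1
      linarith only [this, h1]
    · exact h
  exact lt_of_lt_of_le h2 (le_max_left _ _)

/-- the slot set is large: `S(u) ≤ 3 (η / Q) |A_u|` -/
theorem SS_le_card {n : ℕ} (hD : PM D) (P : LPar η k J) (l : Fin n) (x : Conf X J)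
    (hx : ∑ c, nuC η x c ≤ 5 / 2 * k) (u : X) :
    SS D (nuC η x) u * P.Q ≤ 3 * η * (AA (B := P.B) k P.Q P.Ne D l x u).card := by
  have h1 := l1_sum_slots hD P x hx u
  have h2 := P.hNe
  have hη := P.hη
  have h3 : (P.Ne : ℝ) ≤ (AA (B := P.B) k P.Q P.Ne D l x u).card := by
    rw [card_AA]
    exact_mod_cast le_max_left _ _
  have h4 : ((∑ j, slots k P.Q D x u j : ℕ) : ℝ) ≤
      (AA (B := P.B) k P.Q P.Ne D l x u).card := by
    rw [card_AA]
    exact_mod_cast le_max_right _ _
  have h5 := mul_le_mul_of_nonneg_left h3 hη.le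
  have h6 := mul_le_mul_of_nonneg_left h4 hη.le
  have hQ : (0 : ℝ) ≤ (P.Q : ℝ) := Nat.cast_nonneg _
  have h7 : 0 ≤ e0 * P.Q := mul_nonneg (by unfold e0; norm_num) hQ
  linarith only [h1, h2, h5, h6, h7]

/-- symmetric difference of slot sets at the same level -/
theorem card_sdiff_AA_le {n : ℕ} (P : LPar η k J) (l : Fin n) (x x' : Conf X J) (u u' : X) :
    (((AA (B := P.B) k P.Q P.Ne D l x u) \ (AA (B := P.B) k P.Q P.Ne D l x' u')).card
      + ((AA (B := P.B) k P.Q P.Ne D l x' u') \ (AA (B := P.B) k P.Q P.Ne D l x u)).card : ℝ)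
      ≤ 2 * ∑ j, |(slots k P.Q D x u j : ℝ) - slots k P.Q D x' u' j| := by
  have hab : ∀ a b : ℕ, ((a - b : ℕ) : ℝ) + ((b - a : ℕ) : ℝ) = |(a : ℝ) - b| := by
    intro a b
    rcases le_total a b with h | h
    · rw [Nat.sub_eq_zero_of_le h, Nat.cast_sub h, abs_of_nonpos (sub_nonpos.2 (by exact_mod_cast h))]
      push_cast
      ring
    · rw [Nat.sub_eq_zero_of_le h, Nat.cast_sub h, abs_of_nonneg (sub_nonneg.2 (by exact_mod_cast h))]
      push_cast
      ring
  rw [AA_eq, AA_eq, card_SL_sdiff _ _ _ (lvl_le P x u), card_SL_sdiff _ _ _ (lvl_le P x' u')]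
  push_cast
  rw [← sum_add_distrib]
  have h1 : ∀ o, ((lvl k P.Q P.Ne D x u o - lvl k P.Q P.Ne D x' u' o : ℕ) : ℝ)
      + ((lvl k P.Q P.Ne D x' u' o - lvl k P.Q P.Ne D x u o : ℕ) : ℝ) =
      |(lvl k P.Q P.Ne D x u o : ℝ) - lvl k P.Q P.Ne D x' u' o| := fun o => hab _ _
  simp_rw [h1]
  rw [Fintype.sum_option]
  have h2 : |(lvl k P.Q P.Ne D x u none : ℝ) - lvl k P.Q P.Ne D x' u' none| ≤
      ∑ j, |(slots k P.Q D x u j : ℝ) - slots k P.Q D x' u' j| := by
    have h3 : |(lvl k P.Q P.Ne D x u none : ℝ) - lvl k P.Q P.Ne D x' u' none| ≤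
        |((∑ j, slots k P.Q D x u j : ℕ) : ℝ) - ((∑ j, slots k P.Q D x' u' j : ℕ) : ℝ)| := by
      show |((P.Ne - ∑ j, slots k P.Q D x u j : ℕ) : ℝ) -
        ((P.Ne - ∑ j, slots k P.Q D x' u' j : ℕ) : ℝ)| ≤ _
      generalize ∑ j, slots k P.Q D x u j = a
      generalize ∑ j, slots k P.Q D x' u' j = b
      have e1 : ((P.Ne - a : ℕ) : ℤ) = max 0 ((P.Ne : ℤ) - a) := by omega
      have e2 : ((P.Ne - b : ℕ) : ℤ) = max 0 ((P.Ne : ℤ) - b) := by (clear * -; omega)
      have e3 : |((P.Ne - a : ℕ) : ℤ) - ((P.Ne - b : ℕ) : ℤ)| ≤ |(a : ℤ) - b| := by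
        rw [e1, e2]
        rw [abs_le]
        rcases abs_cases ((a : ℤ) - b) with h | h <;> omega
      exact_mod_cast e3
    refine h3.trans ?_
    push_cast
    rw [← sum_sub_distrib]
    exact abs_sum_le_sum_abs _ _
  have h4 : ∑ j, |(lvl k P.Q P.Ne D x u (some j) : ℝ) - lvl k P.Q P.Ne D x' u' (some j)| =
      ∑ j, |(slots k P.Q D x u j : ℝ) - slots k P.Q D x' u' j| := rfl
  rw [h4]
  linarith only [h2]

/-- probability that two labels differ -/
theorem lab_ne_le {n : ℕ} (P : LPar η k J) (l : Fin n) (x x' : Conf X J) (u u' : X) :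
    EE (fun π : Dyn.Ord (GG n J P.B) =>
        if lab k P.Q P.Ne D π l x u = lab k P.Q P.Ne D π l x' u' then (0 : ℝ) else 1)
      ≤ 2 * (∑ j, |(slots k P.Q D x u j : ℝ) - slots k P.Q D x' u' j|) /
        (AA (B := P.B) k P.Q P.Ne D l x u).card := by
  classical
  set A := AA (B := P.B) k P.Q P.Ne D l x u with hA
  set A' := AA (B := P.B) k P.Q P.Ne D l x' u' with hA'
  have hc : 0 < A.card := l1_card_pos P l x u
  have hne : (A ∪ A').Nonempty := (card_pos.1 hc).mono subset_union_left
  have h1 : EE (fun π : Dyn.Ord (GG n J P.B) =>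
        if lab k P.Q P.Ne D π l x u = lab k P.Q P.Ne D π l x' u' then (0 : ℝ) else 1) ≤
      EE (fun π : Dyn.Ord (GG n J P.B) => open Classical in if mh π A = mh π A' then (0 : ℝ) else 1) := by
    refine EE_mono fun π => ?_
    by_cases h : mh π A = mh π A'
    · have h2 : lab k P.Q P.Ne D π l x u = lab k P.Q P.Ne D π l x' u' := by
        unfold lab
        rw [← hA, ← hA', h]
      rw [if_pos h2, if_pos h]
    · rw [if_neg h]
      split_ifs <;> norm_num
  refine h1.trans ((EE_mh_ne hne).trans ?_)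
  have hc' : (0 : ℝ) < A.card := by exact_mod_cast hc
  have h2 : (A.card : ℝ) ≤ (A ∪ A').card := by
    exact_mod_cast card_le_card subset_union_left
  exact div_le_div₀ (mul_nonneg (by norm_num) (sum_nonneg fun j _ => abs_nonneg _))
    (card_sdiff_AA_le P l x x' u u') hc' h2

/-- probability of a given label -/
theorem lab_eq_le {n : ℕ} (hD : PM D) (P : LPar η k J) (l : Fin n) (x : Conf X J)
    (hx : ∑ c, nuC η x c ≤ 5 / 2 * k) (u : X) (j : J) :
    EE (fun π : Dyn.Ord (GG n J P.B) =>
        if lab k P.Q P.Ne D π l x u = some j then (1 : ℝ) else 0)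
      ≤ 63 * η * (if (x j).2 = true then kern D u (x j).1 / SS D (nuC η x) u else 0) := by
  classical
  set A := AA (B := P.B) k P.Q P.Ne D l x u with hA
  have hη := P.hη
  have hc : 0 < A.card := l1_card_pos P l x u
  have hS : 0 < SS D (nuC η x) u := SS_pos (fun c => nuC_nonneg hη.le x c) u
  set b : Option J → ℕ := fun o => if o = some j then slots k P.Q D x u j else 0 with hb
  set Bj : Finset (GG n J P.B) := SL l b with hBj
  have hsub : Bj ⊆ A := by
    intro g hg
    rw [hBj, mem_SL] at hg
    rw [hA, AA_eq, mem_SL]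
    refine ⟨hg.1, ?_⟩
    have h2 := hg.2
    by_cases h : g.2.1 = some j
    · rw [hb] at h2
      simp only [h, if_true] at h2
      rw [h]
      exact h2
    · rw [hb] at h2
      simp only [h, if_false] at h2
      exact absurd h2 (Nat.not_lt_zero _)
  have hcard : Bj.card = slots k P.Q D x u j := by
    rw [hBj, card_SL]
    · rw [hb]
      simp only [sum_ite_eq', mem_univ, ↓reduceIte]
    · intro o
      rw [hb]
      dsimp only
      split_ifs
      · exact (slots_le_Q P x u j).trans P.hB1
      · exact Nat.zero_le _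
  have h1 : EE (fun π : Dyn.Ord (GG n J P.B) =>
        if lab k P.Q P.Ne D π l x u = some j then (1 : ℝ) else 0) ≤
      EE (fun π : Dyn.Ord (GG n J P.B) => open Classical in
        if ∃ g ∈ Bj, mh π A = some g then (1 : ℝ) else 0) := by
    refine EE_mono fun π => ?_
    by_cases h : lab k P.Q P.Ne D π l x u = some j
    · have h2 : ∃ g ∈ Bj, mh π A = some g := by
        unfold lab at h
        rw [← hA] at h
        obtain ⟨g, hg, hg2⟩ := Option.bind_eq_some_iff.1 h
        refine ⟨g, ?_, hg⟩
        have hgA := mh_mem hg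
        rw [hA, AA_eq, mem_SL] at hgA
        rw [hBj, mem_SL]
        refine ⟨hgA.1, ?_⟩
        have h3 := hgA.2
        rw [hg2] at h3 ⊢
        rw [hb]
        simp only [if_true]
        exact h3
      rw [if_pos h, if_pos h2]
    · rw [if_neg h]
      split_ifs <;> norm_num
  refine h1.trans ?_
  rw [EE_mh_mem (card_pos.1 hc) hsub, hcard]
  have hc' : (0 : ℝ) < A.card := by exact_mod_cast hc
  split_ifs with hj
  · rw [div_le_iff₀ hc']
    have h2 := slots_le (D := D) P x u j
    have h3 := SS_le_card hD P l x hx u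
    rw [← hA] at h3
    have hkern := (kern_pos (D := D) u (x j).1)
    have hQ : (0 : ℝ) ≤ (P.Q : ℝ) := Nat.cast_nonneg _
    have he : Real.exp 3 ≤ 201 / 10 := k4_exp3
    have h4 : (P.Q : ℝ) * (Real.exp 3 * kern D u (x j).1) ≤
        21 * kern D u (x j).1 / SS D (nuC η x) u * (SS D (nuC η x) u * P.Q) := by
      have e1 : 21 * kern D u (x j).1 / SS D (nuC η x) u * (SS D (nuC η x) u * P.Q) =
          (P.Q : ℝ) * (21 * kern D u (x j).1) := by
        (clear * - hS hkern; field_simp)
      rw [e1]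
      refine mul_le_mul_of_nonneg_left ?_ hQ
      exact mul_le_mul_of_nonneg_right (by linarith only [he]) hkern.le
    have h5 : 21 * kern D u (x j).1 / SS D (nuC η x) u * (SS D (nuC η x) u * P.Q) ≤
        21 * kern D u (x j).1 / SS D (nuC η x) u * (3 * η * A.card) :=
      mul_le_mul_of_nonneg_left h3 (by (clear * - hkern hS; positivity))
    refine h2.trans (h4.trans (h5.trans (le_of_eq ?_)))
    ring
  · rw [slots_dead P x u j (by simpa using hj)]
    simp

/-- a label is an alive token within distance `RR k` -/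
theorem lab_dist {n : ℕ} (P : LPar η k J) (hsl : Real.log (1 / tau k) ≤ slp) (π : Dyn.Ord (GG n J P.B)) (l : Fin n)
    (x : Conf X J) (u : X) (j : J) (h : lab k P.Q P.Ne D π l x u = some j) :
    (x j).2 = true ∧ D u (x j).1 ≤ RR k := by
  have hk : 0 < k := lt_of_lt_of_le one_pos P.hk
  have h0 : (0 : ℝ) < tau k := by
    unfold tau e0
    (clear * - hk; positivity)
  unfold lab at h
  obtain ⟨g, hg, hg2⟩ := Option.bind_eq_some_iff.1 h
  have hgA := mh_mem hg
  rw [AA_eq, mem_SL] at hgA
  have h3 := hgA.2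
  rw [hg2] at h3
  have h4 : 0 < slots k P.Q D x u j := lt_of_le_of_lt (Nat.zero_le _) h3
  unfold slots at h4
  split_ifs at h4 with hj
  · refine ⟨hj, ?_⟩
    have h5 := Nat.floor_pos.1 h4
    refine (MM_supp h0 hsl u _ ?_).trans (by unfold RR; norm_num)
    by_contra hc
    have h6 : MM (tau k) D u (x j).1 = 0 := le_antisymm (not_lt.1 hc) (MM_nonneg _ _)
    rw [h6, mul_zero] at h5
    norm_num at h5
  · exact absurd h4 (lt_irrefl _)

/-- heavy points are never null -/
theorem lab_ne_none {n : ℕ} (hD : PM D) (P : LPar η k J) (π : Dyn.Ord (GG n J P.B)) (l : Fin n)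
    (x : Conf X J) (h : Bal D p (nuC η x)) (hpk : ∑ u, p u ≤ k) (u : X) (hu : 1 ≤ p u) :
    lab k P.Q P.Ne D π l x u ≠ none := by
  have hη := P.hη
  have hx : ∑ c, nuC η x c ≤ 5 / 2 * k := (sum_nu_le h).trans (by linarith only [hpk])
  have h1 := l1_sum_slots hD P x hx u
  have h2 := self_le hD h u
  have hS : 5 / 11 ≤ SS D (nuC η x) u := by linarith only [hu, h2]
  have hQ : (1 : ℝ) ≤ P.Q := by exact_mod_cast P.hQ
  have hη1 : η ≤ e0 ^ 2 / 100 := by
    refine le_trans ?_ P.hη1
    exact le_mul_of_one_le_right hη.le P.hk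
  have h4 : (5 / 11 - 21 / 20 * e0) * P.Q ≤ η * ((∑ j, slots k P.Q D x u j : ℕ) : ℝ) :=
    le_trans (mul_le_mul_of_nonneg_right (by linarith only [hS]) (by linarith only [hQ])) h1
  have h5 : η * P.Ne ≤ η * ((∑ j, slots k P.Q D x u j : ℕ) : ℝ) := by
    refine P.hNe'.trans (le_trans ?_ h4)
    unfold e0 at hη1 ⊢
    nlinarith only [hQ, hη1]
  have h6 : P.Ne ≤ ∑ j, slots k P.Q D x u j := by
    have := le_of_mul_le_mul_left h5 hη
    exact_mod_cast this
  obtain ⟨g, hgA, hg⟩ := exists_mh (π := π) (card_pos.1 (l1_card_pos (D := D) P l x u))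
  unfold lab
  rw [hg]
  rw [AA_eq, mem_SL] at hgA
  intro hn
  have hn' : g.2.1 = none := hn
  have h7 := hgA.2
  rw [hn'] at h7
  have h8 : (g.2.2 : ℕ) < P.Ne - ∑ j, slots k P.Q D x u j := h7
  omega

end Vale.Agent.P304.Stp
end
end

section

section

/-! K5: the change of `F` under a small transport plan with dragging (second order expansion). -/

open Finset

namespace Vale.Agent.P304.Stp

open Vale.Agent.P304.Dyn

variable [StP]

variable {X : Type} [Fintype X] [DecidableEq X] {D : X → X → ℝ} {p ν : X → ℝ}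

/-- mass of the tokens at `c` that is dragged to `v` -/
noncomputable def dragm (D : X → X → ℝ) (ν : X → ℝ) (a : X → X → ℝ) (c v : X) : ℝ :=
  ∑ u, a u v * (QQ D ν u c * ff D u v c)

/-- token measure after the drags -/
noncomputable def dragged (D : X → X → ℝ) (ν : X → ℝ) (a : X → X → ℝ) (x : X) : ℝ :=
  ν x + ∑ c, dragm D ν a c x - ∑ v, dragm D ν a x v

theorem k5_e0_pos : (0 : ℝ) < e0 := by
  unfold e0
  norm_num

theorem dragm_nonneg (hD : PM D) (hν : ∀ c, 0 ≤ ν c) {a : X → X → ℝ} (ha : ∀ u v, 0 ≤ a u v)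
    (c v : X) : 0 ≤ dragm D ν a c v :=
  sum_nonneg fun u _ => mul_nonneg (ha u v) (mul_nonneg (QQ_nonneg hν u c) (ff_nonneg hD u v c))

omit [DecidableEq X] in
theorem k5_QQ_le (hD : PM D) (hν : ∀ c, 0 ≤ ν c) (u c : X) : QQ D ν u c ≤ ν c / e0 := by
  unfold QQ
  have h1 := SS_ge (D := D) hν u
  have h2 := kern_le_one hD u c
  have h3 : kern D u c * ν c ≤ ν c := mul_le_of_le_one_left (hν c) h2
  exact div_le_div₀ (hν c) h3 k5_e0_pos h1

/-- at most the fraction `(∑ a) / e0` of every token is dragged -/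
theorem sum_dragm_le (hD : PM D) (hν : ∀ c, 0 ≤ ν c) {a : X → X → ℝ} (ha : ∀ u v, 0 ≤ a u v)
    (c : X) : ∑ v, dragm D ν a c v ≤ (∑ u, ∑ v, a u v) / e0 * ν c := by
  unfold dragm
  rw [sum_comm, sum_div, sum_mul]
  refine sum_le_sum fun u _ => ?_
  rw [sum_div, sum_mul]
  refine sum_le_sum fun v _ => ?_
  rw [div_mul_eq_mul_div, mul_div_assoc]
  refine mul_le_mul_of_nonneg_left ?_ (ha u v)
  exact (mul_le_of_le_one_right (QQ_nonneg hν u c) (ff_le_one hD u v c)).trans (k5_QQ_le hD hν u c)

/-- the total dragged mass is at most the transported mass -/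
theorem k5_sum_dragm (hD : PM D) (hν : ∀ c, 0 ≤ ν c) {a : X → X → ℝ} (ha : ∀ u v, 0 ≤ a u v) :
    ∑ c, ∑ v, dragm D ν a c v ≤ ∑ u, ∑ v, a u v := by
  unfold dragm
  have h1 : ∑ c, ∑ v, ∑ u, a u v * (QQ D ν u c * ff D u v c) =
      ∑ u, ∑ v, a u v * ∑ c, QQ D ν u c * ff D u v c := by
    rw [sum_comm]
    simp_rw [mul_sum]
    rw [sum_comm (γ := X) (s := univ) (t := univ) (f := fun u v =>
      ∑ c, a u v * (QQ D ν u c * ff D u v c))]
    refine sum_congr rfl fun v _ => ?_
    rw [sum_comm]
  rw [h1]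
  refine sum_le_sum fun u _ => sum_le_sum fun v _ => ?_
  refine mul_le_of_le_one_right (ha u v) ?_
  refine le_trans (sum_le_sum fun c _ => ?_) (sum_QQ_le_one (D := D) hν u)
  exact mul_le_of_le_one_right (QQ_nonneg hν u c) (ff_le_one hD u v c)

omit [DecidableEq X] in
theorem k5_log_sub {x y : ℝ} (hx : 0 < x) (hy : e0 ≤ y) :
    Real.log x - Real.log y ≤ |x - y| / e0 := by
  have hy0 : 0 < y := lt_of_lt_of_le k5_e0_pos hy
  rw [← Real.log_div hx.ne' hy0.ne']
  have h1 := Real.log_le_sub_one_of_pos (div_pos hx hy0)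
  have h2 : x / y - 1 = (x - y) / y := by
    field_simp
  rw [h2] at h1
  refine h1.trans ?_
  exact (div_le_div_of_nonneg_right (le_abs_self _) hy0.le).trans
    (div_le_div_of_nonneg_left (abs_nonneg _) k5_e0_pos hy)

/-- Lipschitz dependence of `F` on the token measure -/
theorem FF_lip (hD : PM D) (hp : ∀ x, 0 ≤ p x) {ν' : X → ℝ} (hν : ∀ c, 0 ≤ ν c)
    (hν' : ∀ c, 0 ≤ ν' c) :
    FF D p ν' ≤ FF D p ν + (1 + (∑ x, p x) / e0) * ∑ c, |ν' c - ν c| := by
  unfold FF
  set V := ∑ c, |ν' c - ν c| with hV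
  have h1 : ∑ c, ν' c - ∑ c, ν c ≤ V := by
    rw [← sum_sub_distrib]
    exact sum_le_sum fun c _ => le_abs_self _
  have h2 : ∀ u, |SS D ν u - SS D ν' u| ≤ V := by
    intro u
    unfold SS
    have h3 : (e0 + ∑ c, kern D u c * ν c) - (e0 + ∑ c, kern D u c * ν' c) =
        ∑ c, kern D u c * (ν c - ν' c) := by
      rw [add_sub_add_left_eq_sub, ← sum_sub_distrib]
      exact sum_congr rfl fun c _ => by ring
    rw [h3]
    refine (abs_sum_le_sum_abs _ _).trans (sum_le_sum fun c _ => ?_)
    rw [abs_mul, abs_of_pos (kern_pos u c), abs_sub_comm]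
    exact mul_le_of_le_one_left (abs_nonneg _) (kern_le_one hD u c)
  have h4 : ∑ u, p u * Real.log (SS D ν u) - ∑ u, p u * Real.log (SS D ν' u) ≤
      (∑ x, p x) / e0 * V := by
    rw [← sum_sub_distrib, sum_div, sum_mul]
    refine sum_le_sum fun u _ => ?_
    rw [← mul_sub, div_mul_eq_mul_div, mul_div_assoc]
    refine mul_le_mul_of_nonneg_left ?_ (hp u)
    exact (k5_log_sub (SS_pos hν u) (SS_ge hν' u)).trans
      (div_le_div_of_nonneg_right (h2 u) k5_e0_pos.le)
  (clear * - h1 h4; linarith)

omit [DecidableEq X] in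
/-- summation by parts on the complete graph -/
theorem k5_parts (G : X → X → ℝ) (L : X → ℝ) :
    ∑ x, L x * (∑ u, G u x - ∑ v, G x v) = ∑ u, ∑ v, G u v * (L v - L u) := by
  simp_rw [mul_sub]
  rw [sum_sub_distrib]
  have h1 : ∑ x, L x * ∑ u, G u x = ∑ u, ∑ v, G u v * L v := by
    rw [sum_comm]
    refine sum_congr rfl fun x _ => ?_
    rw [mul_sum]
    exact sum_congr rfl fun u _ => mul_comm _ _
  have h2 : ∑ x, L x * ∑ v, G x v = ∑ u, ∑ v, G u v * L u := by
    refine sum_congr rfl fun x _ => ?_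
    rw [mul_sum]
    exact sum_congr rfl fun u _ => mul_comm _ _
  rw [h1, h2, ← sum_sub_distrib]
  refine sum_congr rfl fun u _ => ?_
  rw [← sum_sub_distrib]

omit [DecidableEq X] in
theorem k5_push_mul (a : X → X → ℝ) (L : X → ℝ) :
    ∑ x, push p a x * L x = ∑ x, p x * L x + ∑ u, ∑ v, a u v * (L v - L u) := by
  rw [← k5_parts, ← sum_add_distrib]
  refine sum_congr rfl fun x _ => ?_
  unfold push
  ring

omit [DecidableEq X] in
theorem k5_push_nonneg {a : X → X → ℝ} (ha : ∀ u v, 0 ≤ a u v)
    (hap : ∀ u, ∑ v, a u v ≤ p u) (x : X) : 0 ≤ push p a x := by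
  unfold push
  have h1 : 0 ≤ ∑ u, a u x := sum_nonneg fun u _ => ha u x
  have h2 := hap x
  linarith

omit [DecidableEq X] in
theorem k5_sum_push (a : X → X → ℝ) : ∑ x, push p a x = ∑ x, p x := by
  have h := k5_push_mul (p := p) a (fun _ => 1)
  simpa only [mul_one, sub_self, mul_zero, sum_const_zero, add_zero] using h

theorem k5_sum_dragged (a : X → X → ℝ) : ∑ x, dragged D ν a x = ∑ x, ν x := by
  have h := k5_parts (fun c v => dragm D ν a c v) (fun _ => (1 : ℝ))
  simp only [sub_self, mul_zero, sum_const_zero, one_mul] at h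
  unfold dragged
  have h2 : ∑ x, (ν x + ∑ c, dragm D ν a c x - ∑ v, dragm D ν a x v) =
      ∑ x, ν x + ∑ x, (∑ c, dragm D ν a c x - ∑ v, dragm D ν a x v) := by
    rw [← sum_add_distrib]
    exact sum_congr rfl fun x _ => by ring
  rw [h2, h, add_zero]

/-- change of the smoothed token mass -/
noncomputable def k5_dl (D : X → X → ℝ) (ν : X → ℝ) (a : X → X → ℝ) (u : X) : ℝ :=
  ∑ c, ∑ v, dragm D ν a c v * (kern D u v - kern D u c)

theorem k5_SS_dragged (a : X → X → ℝ) (u : X) :
    SS D (dragged D ν a) u = SS D ν u + k5_dl D ν a u := by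
  unfold k5_dl
  rw [← k5_parts (fun c v => dragm D ν a c v) (fun x => kern D u x)]
  unfold SS dragged
  rw [add_assoc, ← sum_add_distrib]
  congr 1
  refine sum_congr rfl fun x _ => ?_
  ring

theorem k5_abs_dl (hD : PM D) (hν : ∀ c, 0 ≤ ν c) {a : X → X → ℝ} (ha : ∀ u v, 0 ≤ a u v)
    (u : X) : |k5_dl D ν a u| ≤ ∑ u, ∑ v, a u v := by
  refine le_trans ?_ (k5_sum_dragm hD hν ha)
  unfold k5_dl
  refine (abs_sum_le_sum_abs _ _).trans (sum_le_sum fun c _ => ?_)
  refine (abs_sum_le_sum_abs _ _).trans (sum_le_sum fun v _ => ?_)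
  rw [abs_mul, abs_of_nonneg (dragm_nonneg hD hν ha c v)]
  refine mul_le_of_le_one_right (dragm_nonneg hD hν ha c v) ?_
  have h1 := kern_pos (D := D) u v
  have h2 := kern_pos (D := D) u c
  have h3 := kern_le_one hD u v
  have h4 := kern_le_one hD u c
  rw [abs_le]
  constructor <;> linarith

theorem k5_log_one_add {x : ℝ} (hx : -(1 / 2) ≤ x) : x - 2 * x ^ 2 ≤ Real.log (1 + x) := by
  have h0 : 0 < 1 + x := by linarith
  have h1 := Real.log_le_sub_one_of_pos (inv_pos.mpr h0)
  rw [Real.log_inv] at h1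
  have h2 : (x - 2 * x ^ 2) * (1 + x) ≤ x := by
    have h3 : 0 ≤ x ^ 2 * (1 + 2 * x) := mul_nonneg (sq_nonneg _) (by linarith only [hx])
    have h4 : (x - 2 * x ^ 2) * (1 + x) = x - x ^ 2 * (1 + 2 * x) := by ring
    linarith only [h3]
  have h5 : x - 2 * x ^ 2 ≤ x / (1 + x) := by
    rw [le_div_iff₀ h0]
    exact h2
  have h6 : x / (1 + x) = 1 - (1 + x)⁻¹ := by
    field_simp
    ring
  linarith only [h1, h5, h6]

/-- the first order term of the drags -/
theorem k5_first (a : X → X → ℝ) :
    - ∑ u', p u' * (k5_dl D ν a u' / SS D ν u') =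
      ∑ u, ∑ v, a u v * ∑ c, QQ D ν u c * ff D u v c *
        ∑ u', p u' * (kern D u' c - kern D u' v) / SS D ν u' := by
  set W : X → X → ℝ := fun c v => ∑ u', p u' * (kern D u' c - kern D u' v) / SS D ν u' with hW
  have h1 : - ∑ u', p u' * (k5_dl D ν a u' / SS D ν u') = ∑ c, ∑ v, dragm D ν a c v * W c v := by
    rw [← sum_neg_distrib]
    have h2 : ∀ u', -(p u' * (k5_dl D ν a u' / SS D ν u')) =
        ∑ c, ∑ v, dragm D ν a c v * (p u' * (kern D u' c - kern D u' v) / SS D ν u') := by
      intro u'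
      unfold k5_dl
      rw [sum_div, mul_sum, ← sum_neg_distrib]
      refine sum_congr rfl fun c _ => ?_
      rw [sum_div, mul_sum, ← sum_neg_distrib]
      refine sum_congr rfl fun v _ => ?_
      ring
    simp_rw [h2]
    rw [sum_comm]
    refine sum_congr rfl fun c _ => ?_
    rw [sum_comm]
    refine sum_congr rfl fun v _ => ?_
    rw [hW, mul_sum]
  rw [h1]
  unfold dragm
  have h3 : ∀ c v, (∑ u, a u v * (QQ D ν u c * ff D u v c)) * W c v =
      ∑ u, a u v * (QQ D ν u c * ff D u v c * W c v) := by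
    intro c v
    rw [sum_mul]
    exact sum_congr rfl fun u _ => by ring
  calc ∑ c, ∑ v, (∑ u, a u v * (QQ D ν u c * ff D u v c)) * W c v
      = ∑ c, ∑ v, ∑ u, a u v * (QQ D ν u c * ff D u v c * W c v) :=
        sum_congr rfl fun c _ => sum_congr rfl fun v _ => h3 c v
    _ = ∑ c, ∑ u, ∑ v, a u v * (QQ D ν u c * ff D u v c * W c v) :=
        sum_congr rfl fun c _ => sum_comm
    _ = ∑ u, ∑ c, ∑ v, a u v * (QQ D ν u c * ff D u v c * W c v) := sum_comm
    _ = ∑ u, ∑ v, ∑ c, a u v * (QQ D ν u c * ff D u v c * W c v) :=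
        sum_congr rfl fun u _ => sum_comm
    _ = ∑ u, ∑ v, a u v * ∑ c, QQ D ν u c * ff D u v c * W c v :=
        sum_congr rfl fun u _ => sum_congr rfl fun v _ => (mul_sum _ _ _).symm

/-- second order expansion: exact first order term `drift`, error quadratic in `∑ a`. -/
theorem FF_plan_le (hD : PM D) (h : Bal D p ν) {k : ℝ} (hk : 1 ≤ k) (hpk : ∑ x, p x ≤ k)
    {a : X → X → ℝ} (ha : ∀ u v, 0 ≤ a u v) (hap : ∀ u, ∑ v, a u v ≤ p u)
    (hsmall : ∑ u, ∑ v, a u v ≤ e0 / 8) :
    FF D (push p a) (dragged D ν a) ≤ FF D p ν + ∑ u, ∑ v, a u v * drift D p ν u v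
      + 4000 * k * (∑ u, ∑ v, a u v) ^ 2 := by
  set α := ∑ u, ∑ v, a u v with hα
  have hα0 : 0 ≤ α := sum_nonneg fun u _ => sum_nonneg fun v _ => ha u v
  have hν := h.hν
  have he : (e0 : ℝ) = 1 / 20 := rfl
  set x : X → ℝ := fun u => k5_dl D ν a u / SS D ν u with hx
  have hxa : ∀ u, |x u| ≤ 20 * α := by
    intro u
    rw [hx]
    simp only
    rw [abs_div, abs_of_pos (SS_pos hν u)]
    have h1 := k5_abs_dl hD hν ha u
    have h2 : |k5_dl D ν a u| / SS D ν u ≤ α / e0 :=
      div_le_div₀ hα0 h1 k5_e0_pos (SS_ge hν u)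
    rw [he] at h2
    linarith only [h2]
  have hα1 : 20 * α ≤ 1 / 8 := by
    rw [he] at hsmall
    linarith
  have hlog : ∀ u, Real.log (SS D ν u) + (x u - 2 * x u ^ 2) ≤
      Real.log (SS D (dragged D ν a) u) := by
    intro u
    have h1 := abs_le.mp (hxa u)
    have h2 : SS D (dragged D ν a) u = SS D ν u * (1 + x u) := by
      rw [k5_SS_dragged, hx]
      have := (SS_pos (D := D) hν u).ne'
      field_simp
    rw [h2, Real.log_mul (SS_pos hν u).ne' (by linarith only [hsmall, he, h1])]
    have h3 := k5_log_one_add (x := x u) (by linarith only [hsmall, he, h1])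
    linarith only [h3]
  have hp' := k5_push_nonneg ha hap
  have hmain : - ∑ u, push p a u * Real.log (SS D (dragged D ν a) u) ≤
      - ∑ u, push p a u * Real.log (SS D ν u) - ∑ u, push p a u * x u
        + ∑ u, push p a u * (2 * x u ^ 2) := by
    have h1 : ∑ u, push p a u * (Real.log (SS D ν u) + (x u - 2 * x u ^ 2)) ≤
        ∑ u, push p a u * Real.log (SS D (dragged D ν a) u) :=
      sum_le_sum fun u _ => mul_le_mul_of_nonneg_left (hlog u) (hp' u)
    have h2 : ∑ u, push p a u * (Real.log (SS D ν u) + (x u - 2 * x u ^ 2)) =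
        ∑ u, push p a u * Real.log (SS D ν u) + ∑ u, push p a u * x u
          - ∑ u, push p a u * (2 * x u ^ 2) := by
      rw [← sum_add_distrib, ← sum_sub_distrib]
      exact sum_congr rfl fun u _ => by ring
    linarith only [h1, h2]
  have hsq : ∑ u, push p a u * (2 * x u ^ 2) ≤ 800 * k * α ^ 2 := by
    have h1 : ∀ u, push p a u * (2 * x u ^ 2) ≤ push p a u * (800 * α ^ 2) := by
      intro u
      refine mul_le_mul_of_nonneg_left ?_ (hp' u)
      have h2 : x u ^ 2 ≤ (20 * α) ^ 2 := sq_le_sq' (by linarith only [(abs_le.mp (hxa u)).1])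
        (abs_le.mp (hxa u)).2
      linarith
    refine (sum_le_sum fun u _ => h1 u).trans ?_
    rw [← sum_mul, k5_sum_push]
    have h2 : (∑ u, p u) * (800 * α ^ 2) ≤ k * (800 * α ^ 2) :=
      mul_le_mul_of_nonneg_right hpk (by (clear * -; positivity))
    linarith only [h2]
  have hx1 : - ∑ u, push p a u * x u ≤ - ∑ u, p u * x u + 40 * α ^ 2 := by
    rw [k5_push_mul]
    have h1 : ∑ u, ∑ v, a u v * (x u - x v) ≤ ∑ u, ∑ v, a u v * (40 * α) := by
      refine sum_le_sum fun u _ => sum_le_sum fun v _ => mul_le_mul_of_nonneg_left ?_ (ha u v)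
      have h2 := abs_le.mp (hxa u)
      have h3 := abs_le.mp (hxa v)
      linarith only [h2, h3]
    have h2 : ∑ u, ∑ v, a u v * (40 * α) = 40 * α ^ 2 := by
      simp_rw [← sum_mul]
      rw [← hα]
      ring
    have h3 : ∑ u, ∑ v, a u v * (x v - x u) = - ∑ u, ∑ v, a u v * (x u - x v) := by
      rw [← sum_neg_distrib]
      refine sum_congr rfl fun u _ => ?_
      rw [← sum_neg_distrib]
      exact sum_congr rfl fun v _ => by ring
    rw [h3]
    linarith only [h1, h2]
  have hL : - ∑ u, push p a u * Real.log (SS D ν u) = - ∑ u, p u * Real.log (SS D ν u) +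
      ∑ u, ∑ v, a u v * (Real.log (SS D ν u) - Real.log (SS D ν v)) := by
    rw [k5_push_mul]
    have h3 : ∑ u, ∑ v, a u v * (Real.log (SS D ν v) - Real.log (SS D ν u)) =
        - ∑ u, ∑ v, a u v * (Real.log (SS D ν u) - Real.log (SS D ν v)) := by
      rw [← sum_neg_distrib]
      refine sum_congr rfl fun u _ => ?_
      rw [← sum_neg_distrib]
      exact sum_congr rfl fun v _ => by ring
    rw [h3]
    ring
  have hdr : ∑ u, ∑ v, a u v * drift D p ν u v =
      ∑ u, ∑ v, a u v * (Real.log (SS D ν u) - Real.log (SS D ν v)) +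
      - ∑ u, p u * x u := by
    have h1 := k5_first (D := D) (p := p) (ν := ν) a
    rw [hx]
    simp only
    rw [h1, ← sum_add_distrib]
    refine sum_congr rfl fun u _ => ?_
    rw [← sum_add_distrib]
    refine sum_congr rfl fun v _ => ?_
    unfold drift
    rw [mul_add]
  unfold FF
  rw [k5_sum_dragged]
  have hfin : 40 * α ^ 2 + 800 * k * α ^ 2 ≤ 4000 * k * α ^ 2 := by
    have h1 : 0 ≤ α ^ 2 := sq_nonneg _
    nlinarith only [hk]
  rw [hdr]
  linarith only [hmain, hsq, hx1, hL, hfin]

end Vale.Agent.P304.Stp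
end
end

section

section

/-! L2: mass-weighted relabelling bounds (sections 3a-3c). -/

open Finset

namespace Vale.Agent.P304.Stp

open Vale.Agent.P304.Dyn

variable [StP]

variable {X J : Type} [Fintype X] [Fintype J] [DecidableEq X] [DecidableEq J]
  {D : X → X → ℝ} {p : X → ℝ} {η k : ℝ}

/-- growth bound restricted to small moves -/
noncomputable def sg (D : X → X → ℝ) (p ν : X → ℝ) (u v : X) : ℝ :=
  if slp * D u v ≤ 1 / 32 then D u v * gs D p ν u else 0

/-- drag move of a configuration along the plan `a` -/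
structure DragMove (D : X → X → ℝ) (η : ℝ) (a : X → X → ℝ) (x xd : Conf X J) : Prop where
  mv : ∀ j, xd j = x j ∨ ((x j).2 = true ∧ (xd j).2 = true ∧ D (x j).1 (xd j).1 ≤ 4)
  le : ∀ c v, c ≠ v → η * ((univ.filter fun j => x j = (c, true) ∧ xd j = (v, true)).card : ℝ)
    ≤ dragm D (nuC η x) a c v

theorem l2_Q_pos (P : LPar η k J) : (0 : ℝ) < P.Q := by
  have := P.hQ
  exact_mod_cast this

theorem l2_tau_pos (P : LPar η k J) : 0 < tau k := by
  have h1 := P.hk
  unfold tau e0
  have : 0 < 100 * k := by linarith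
  positivity

theorem l2_tau_le (P : LPar η k J) : tau k ≤ 1 / 10 := by
  have h1 := P.hk
  unfold tau e0
  rw [div_le_iff₀ (by linarith)]
  linarith only [h1]

theorem l2_sum_nu {ν : X → ℝ} (h : Bal D p ν) (hpk : ∑ u, p u ≤ k) : ∑ c, ν c ≤ 5 / 2 * k :=
  (sum_nu_le h).trans (by linarith)

theorem l2_ee_le {n : ℕ} (hD : PM D) (P : LPar η k J) (l : Fin n) (x x' : Conf X J)
    (h : Bal D p (nuC η x)) (hpk : ∑ u, p u ≤ k) (u u' : X) :
    EE (fun π : Dyn.Ord (GG n J P.B) =>
        if lab k P.Q P.Ne D π l x u = lab k P.Q P.Ne D π l x' u' then (0 : ℝ) else 1)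
      ≤ 6 * η / (P.Q * SS D (nuC η x) u) *
        ∑ j, |(slots k P.Q D x u j : ℝ) - slots k P.Q D x' u' j| := by
  have h1 := lab_ne_le P l x x' u u' (D := D)
  have h2 := SS_le_card hD P l x (l2_sum_nu h hpk) u
  have hQ := l2_Q_pos P
  have hS := SS_pos (D := D) h.hν u
  set S := ∑ j, |(slots k P.Q D x u j : ℝ) - slots k P.Q D x' u' j| with hSdef
  have hS0 : 0 ≤ S := sum_nonneg fun j _ => abs_nonneg _
  set c : ℝ := ((AA (B := P.B) k P.Q P.Ne D l x u).card : ℝ) with hc
  have hQS : 0 < SS D (nuC η x) u * P.Q := mul_pos hS hQ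
  have hc0 : 0 < c := by
    have h3 : 0 < 3 * η * c := lt_of_lt_of_le hQS h2
    have h4 : 0 < 3 * η := by
      have := P.hη
      linarith only [this]
    exact (pos_iff_pos_of_mul_pos h3).mp h4
  refine h1.trans ?_
  rw [div_mul_eq_mul_div, div_le_div_iff₀ hc0 (mul_pos hQ hS)]
  have h5 := mul_le_mul_of_nonneg_left h2 (mul_nonneg zero_le_two hS0)
  calc 2 * S * (P.Q * SS D (nuC η x) u) = 2 * S * (SS D (nuC η x) u * P.Q) := by ring
    _ ≤ 2 * S * (3 * η * c) := h5
    _ = 6 * η * S * c := by ring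

theorem l2_floor_sub {a b : ℝ} (ha : 0 ≤ a) (hb : 0 ≤ b) :
    |((⌊a⌋₊ : ℕ) : ℝ) - ((⌊b⌋₊ : ℕ) : ℝ)| ≤ |a - b| + 1 := by
  have h1 := Nat.floor_le ha
  have h2 := Nat.lt_floor_add_one a
  have h3 := Nat.floor_le hb
  have h4 := Nat.lt_floor_add_one b
  have h5 := le_abs_self (a - b)
  have h6 := neg_abs_le (a - b)
  rw [abs_le]
  constructor <;> linarith only [h1, h4, h5, h2, h3, h6]

theorem l2_slots_sub (P : LPar η k J) (x x' : Conf X J) (u u' : X) (j : J)
    (h : (x j).2 = true) (h' : (x' j).2 = true) :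
    |(slots k P.Q D x u j : ℝ) - slots k P.Q D x' u' j|
      ≤ P.Q * |MM (tau k) D u (x j).1 - MM (tau k) D u' (x' j).1| + 1 := by
  unfold slots
  rw [if_pos h, if_pos h']
  have hQ := l2_Q_pos P
  refine (l2_floor_sub (mul_nonneg hQ.le (MM_nonneg _ _)) (mul_nonneg hQ.le (MM_nonneg _ _))).trans ?_
  rw [← mul_sub, abs_mul, abs_of_pos hQ]

theorem l2_six (P : LPar η k J) {ν : X → ℝ} (hν : ∀ c, 0 ≤ ν c) (u : X) (s : ℝ) :
    6 * η / (P.Q * SS D ν u) * (P.Q * s + Fintype.card J)
      ≤ 6 * (η * s) / SS D ν u + 120 * (η * Fintype.card J / P.Q) := by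
  have hQ := l2_Q_pos P
  have hS := SS_pos (D := D) hν u
  have hη := P.hη
  have e : 6 * η / (P.Q * SS D ν u) * (P.Q * s + Fintype.card J)
      = 6 * (η * s) / SS D ν u + 6 * (η * Fintype.card J / P.Q) / SS D ν u := by
    (clear * - hQ hS hη; field_simp)
  rw [e]
  have h1 : 6 * (η * Fintype.card J / P.Q) / SS D ν u ≤ 6 * (η * Fintype.card J / P.Q) / e0 := by
    apply div_le_div_of_nonneg_left _ k5_e0_pos (SS_ge (D := D) hν u)
    (clear * - hη hQ; positivity)
  have h2 : 6 * (η * Fintype.card J / P.Q) / e0 = 120 * (η * Fintype.card J / P.Q) := by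
    unfold e0
    ring
  linarith only [h1, h2]

/-- (3a) relabelling caused by the proximal step of the tokens -/
theorem relabel_prox {n : ℕ} (hD : PM D) (P : LPar η k J) (l : Fin n) (x x' : Conf X J)
    (h : Bal D p (nuC η x')) (hpk : ∑ u, p u ≤ k) (hA : Adm x x') :
    ∑ u, p u * EE (fun π : Dyn.Ord (GG n J P.B) =>
        if lab k P.Q P.Ne D π l x u = lab k P.Q P.Ne D π l x' u then (0 : ℝ) else 1)
      ≤ 200 * η * chg x x' := by
  have hQ := l2_Q_pos P
  have hη := P.hη
  set loc : J → X := fun j => if (x j).2 = true then (x j).1 else (x' j).1 with hloc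
  set ch : Finset J := univ.filter fun j => x' j ≠ x j with hch
  have hsl : ∀ u, ∑ j, |(slots k P.Q D x' u j : ℝ) - slots k P.Q D x u j|
      ≤ ∑ j ∈ ch, P.Q * (Real.exp 3 * kern D u (loc j)) := by
    intro u
    have h0 : ∀ j, |(slots k P.Q D x' u j : ℝ) - slots k P.Q D x u j|
        ≤ if x' j ≠ x j then P.Q * (Real.exp 3 * kern D u (loc j)) else 0 := by
      intro j
      by_cases hj : x' j = x j
      · rw [if_neg (by simpa using hj)]
        have : slots k P.Q D x' u j = slots k P.Q D x u j := by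
          unfold slots
          rw [hj]
        rw [this, sub_self, abs_zero]
      · rw [if_pos hj]
        rcases hA j with h1 | ⟨h1, h2⟩ | ⟨h1, h2⟩
        · exact absurd h1 hj
        · have h3 : slots k P.Q D x' u j = 0 := slots_dead P x' u j (by rw [h2])
          have h4 : loc j = (x j).1 := by
            rw [hloc]
            simp only [h1, if_true]
          rw [h3, Nat.cast_zero, zero_sub, abs_neg, abs_of_nonneg (Nat.cast_nonneg _), h4]
          exact slots_le P x u j
        · have h3 : slots k P.Q D x u j = 0 := slots_dead P x u j h1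
          have h4 : loc j = (x' j).1 := by
            rw [hloc]
            simp only [h1]
            simp
          rw [h3, Nat.cast_zero, sub_zero, abs_of_nonneg (Nat.cast_nonneg _), h4]
          exact slots_le P x' u j
    refine (sum_le_sum fun j _ => h0 j).trans (le_of_eq ?_)
    rw [hch, sum_filter]
  have hE : ∀ u, EE (fun π : Dyn.Ord (GG n J P.B) =>
        if lab k P.Q P.Ne D π l x u = lab k P.Q P.Ne D π l x' u then (0 : ℝ) else 1)
      ≤ 6 * η / (P.Q * SS D (nuC η x') u) *
        ∑ j ∈ ch, P.Q * (Real.exp 3 * kern D u (loc j)) := by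
    intro u
    have h1 := l2_ee_le hD P l x' x h hpk u u
    have h2 : (fun π : Dyn.Ord (GG n J P.B) =>
        if lab k P.Q P.Ne D π l x u = lab k P.Q P.Ne D π l x' u then (0 : ℝ) else 1)
        = fun π : Dyn.Ord (GG n J P.B) =>
        if lab k P.Q P.Ne D π l x' u = lab k P.Q P.Ne D π l x u then (0 : ℝ) else 1 := by
      funext π
      exact if_congr eq_comm rfl rfl
    rw [h2]
    refine h1.trans (mul_le_mul_of_nonneg_left (hsl u) ?_)
    have hS := SS_pos (D := D) h.hν u
    (clear * - hη hQ hS; positivity)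
  calc ∑ u, p u * EE (fun π : Dyn.Ord (GG n J P.B) =>
        if lab k P.Q P.Ne D π l x u = lab k P.Q P.Ne D π l x' u then (0 : ℝ) else 1)
      ≤ ∑ u, p u * (6 * η / (P.Q * SS D (nuC η x') u) *
        ∑ j ∈ ch, P.Q * (Real.exp 3 * kern D u (loc j))) :=
        sum_le_sum fun u _ => mul_le_mul_of_nonneg_left (hE u) (h.hp u)
    _ = ∑ u, ∑ j ∈ ch, 6 * η * Real.exp 3 *
          (p u * kern D u (loc j) / SS D (nuC η x') u) := by
        refine sum_congr rfl fun u _ => ?_
        rw [mul_sum, mul_sum]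
        refine sum_congr rfl fun j _ => ?_
        have hS := SS_pos (D := D) h.hν u
        (clear * - hQ hS hη; field_simp)
    _ = ∑ j ∈ ch, 6 * η * Real.exp 3 * col D p (nuC η x') (loc j) := by
        rw [sum_comm]
        refine sum_congr rfl fun j _ => ?_
        unfold col
        rw [mul_sum]
    _ ≤ ∑ j ∈ ch, 200 * η := by
        refine sum_le_sum fun j _ => ?_
        have h1 := h.hi (loc j)
        have h2 := k4_exp3
        have h3 : 0 < Real.exp 3 := Real.exp_pos 3
        calc 6 * η * Real.exp 3 * col D p (nuC η x') (loc j)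
            ≤ 6 * η * Real.exp 3 * (8 / 5) := by (clear * - h1 hη; gcongr)
          _ ≤ 6 * η * (201 / 10) * (8 / 5) := by gcongr
          _ ≤ 200 * η := by linarith only [hη]
    _ = 200 * η * chg x x' := by
        rw [sum_const, nsmul_eq_mul, chg]
        ring

/-- (3c) relabelling caused by the drags -/
theorem relabel_drag {n : ℕ} (hD : PM D) (P : LPar η k J) (l : Fin n) (x xd : Conf X J)
    (h : Bal D p (nuC η x)) (hpk : ∑ u, p u ≤ k) {a : X → X → ℝ} (ha : ∀ u v, 0 ≤ a u v)
    (hap : ∀ u, ∑ v, a u v ≤ p u) (hm : DragMove D η a x xd) :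
    ∑ u, push p a u * EE (fun π : Dyn.Ord (GG n J P.B) =>
        if lab k P.Q P.Ne D π l x u = lab k P.Q P.Ne D π l xd u then (0 : ℝ) else 1)
      ≤ 1200000 * ∑ u, ∑ v, a u v * sg D p (nuC η x) u v
        + 200 * ∑ u, ∑ v, a u v * GP D p (nuC η x) u v
        + 200 * (∑ u, ∑ v, a u v) ^ 2 + 200 * k * (η * Fintype.card J / P.Q) := by
  have hQ := l2_Q_pos P
  have hη := P.hη
  have hk := P.hk
  set ν := nuC η x with hν
  set α := ∑ u, ∑ v, a u v with hα
  have hα0 : 0 ≤ α := sum_nonneg fun u _ => sum_nonneg fun v _ => ha u v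
  set f : X → X → X → ℝ := fun u c v => |MM (tau k) D u c - MM (tau k) D u v| with hf
  have hf0 : ∀ u c v, 0 ≤ f u c v := fun u c v => abs_nonneg _
  have hf1 : ∀ u c v, f u c v ≤ 1 := by
    intro u c v
    have h1 := MM_nonneg (τ := tau k) (D := D) u c
    have h2 := MM_nonneg (τ := tau k) (D := D) u v
    have h3 := MM_le_one (τ := tau k) (D := D) u c
    have h4 := MM_le_one (τ := tau k) (D := D) u v
    exact abs_le.mpr ⟨by linarith only [h1, h4], by linarith only [h2, h3]⟩
  have hdr0 := dragm_nonneg hD h.hν ha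
  -- sum of slot differences
  set N : X → X → ℝ := fun c v => if c ≠ v then
    ((univ.filter fun j => x j = (c, true) ∧ xd j = (v, true)).card : ℝ) else 0 with hN
  have hN0 : ∀ c v, 0 ≤ N c v := by
    intro c v
    rw [hN]
    simp only
    split_ifs
    · (clear * -; positivity)
    · exact le_rfl
  have hNd : ∀ c v, η * N c v ≤ dragm D ν a c v := by
    intro c v
    rw [hN]
    simp only
    split_ifs with hcv
    · exact hm.le c v hcv
    · rw [mul_zero]
      exact hdr0 c v
  have hsl : ∀ u, ∑ j, |(slots k P.Q D x u j : ℝ) - slots k P.Q D xd u j|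
      ≤ P.Q * (∑ c, ∑ v, N c v * f u c v) + Fintype.card J := by
    intro u
    have h0 : ∀ j, |(slots k P.Q D x u j : ℝ) - slots k P.Q D xd u j|
        ≤ P.Q * (∑ c, ∑ v, (if c ≠ v ∧ x j = (c, true) ∧ xd j = (v, true) then f u c v else 0))
          + 1 := by
      intro j
      have hnn : ∀ c v, 0 ≤ (if c ≠ v ∧ x j = (c, true) ∧ xd j = (v, true) then f u c v else 0) := by
        intro c v
        split_ifs
        · exact hf0 u c v
        · exact le_rfl
      by_cases hj : xd j = x j
      · have : slots k P.Q D xd u j = slots k P.Q D x u j := by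
          unfold slots
          rw [hj]
        rw [this, sub_self, abs_zero]
        have : 0 ≤ ∑ c, ∑ v, (if c ≠ v ∧ x j = (c, true) ∧ xd j = (v, true) then f u c v else 0) :=
          sum_nonneg fun c _ => sum_nonneg fun v _ => hnn c v
        (clear * - hQ; positivity)
      · rcases hm.mv j with h1 | ⟨h1, h2, _⟩
        · exact absurd h1 hj
        · refine (l2_slots_sub P x xd u u j h1 h2).trans ?_
          have h3 : f u (x j).1 (xd j).1
              ≤ ∑ c, ∑ v, (if c ≠ v ∧ x j = (c, true) ∧ xd j = (v, true) then f u c v else 0) := by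
            have h4 : f u (x j).1 (xd j).1 = if (x j).1 ≠ (xd j).1 ∧ x j = ((x j).1, true) ∧
                xd j = ((xd j).1, true) then f u (x j).1 (xd j).1 else 0 := by
              rw [if_pos]
              refine ⟨fun he => hj (Prod.ext he.symm (by rw [h1, h2])), Prod.ext rfl h1,
                Prod.ext rfl h2⟩
            rw [h4]
            refine le_trans ?_ (single_le_sum (f := fun c => ∑ v, (if c ≠ v ∧ x j = (c, true) ∧
              xd j = (v, true) then f u c v else 0)) (fun c _ => sum_nonneg fun v _ => hnn c v)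
              (mem_univ (x j).1))
            exact single_le_sum (f := fun v => (if (x j).1 ≠ v ∧ x j = ((x j).1, true) ∧
              xd j = (v, true) then f u (x j).1 v else 0)) (fun v _ => hnn _ v) (mem_univ (xd j).1)
          have h5 := mul_le_mul_of_nonneg_left h3 hQ.le
          rw [hf] at h5 ⊢
          linarith only [h5]
    refine (sum_le_sum fun j _ => h0 j).trans (le_of_eq ?_)
    rw [sum_add_distrib, sum_const, card_univ, nsmul_eq_mul, mul_one, ← mul_sum]
    congr 2
    rw [sum_comm]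
    refine sum_congr rfl fun c _ => ?_
    rw [sum_comm]
    refine sum_congr rfl fun v _ => ?_
    rw [hN]
    simp only
    by_cases hcv : c = v
    · simp only [hcv, ne_eq, not_true_eq_false, false_and, ↓reduceIte, sum_const_zero, zero_mul]
    · rw [if_pos hcv]
      rw [← sum_filter, sum_const, nsmul_eq_mul]
      congr 2
      simp only [ne_eq, hcv, not_false_eq_true, true_and]
  -- bound at each point
  have hE : ∀ u, EE (fun π : Dyn.Ord (GG n J P.B) =>
        if lab k P.Q P.Ne D π l x u = lab k P.Q P.Ne D π l xd u then (0 : ℝ) else 1)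
      ≤ 6 * (∑ c, ∑ v, dragm D ν a c v * f u c v) / SS D ν u
        + 120 * (η * Fintype.card J / P.Q) := by
    intro u
    have hS := SS_pos (D := D) h.hν u
    refine (l2_ee_le hD P l x xd h hpk u u).trans ?_
    have h1 : 6 * η / (P.Q * SS D ν u) * ∑ j, |(slots k P.Q D x u j : ℝ) - slots k P.Q D xd u j|
        ≤ 6 * η / (P.Q * SS D ν u) * (P.Q * (∑ c, ∑ v, N c v * f u c v) + Fintype.card J) :=
      mul_le_mul_of_nonneg_left (hsl u) (by (clear * - hη hQ hS; positivity))
    refine h1.trans ((l2_six P h.hν u _).trans ?_)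
    have h2 : η * ∑ c, ∑ v, N c v * f u c v ≤ ∑ c, ∑ v, dragm D ν a c v * f u c v := by
      rw [mul_sum]
      refine sum_le_sum fun c _ => ?_
      rw [mul_sum]
      refine sum_le_sum fun v _ => ?_
      rw [← mul_assoc]
      exact mul_le_mul_of_nonneg_right (hNd c v) (hf0 u c v)
    (clear * - h2 hS; gcongr)
  -- sum of the masses
  have hpushle : ∀ u, push p a u ≤ p u + ∑ w, a w u := by
    intro u
    unfold push
    have : 0 ≤ ∑ v, a u v := sum_nonneg fun v _ => ha u v
    linarith only [this]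
  have hpush0 := k5_push_nonneg ha hap
  set G : X → ℝ := fun u => ∑ c, ∑ v, dragm D ν a c v * f u c v with hG
  have hG0 : ∀ u, 0 ≤ G u := fun u => sum_nonneg fun c _ => sum_nonneg fun v _ =>
    mul_nonneg (hdr0 c v) (hf0 u c v)
  have hG1 : ∀ u, G u ≤ α := by
    intro u
    refine le_trans ?_ (k5_sum_dragm hD h.hν ha)
    refine sum_le_sum fun c _ => sum_le_sum fun v _ => ?_
    exact mul_le_of_le_one_right (hdr0 c v) (hf1 u c v)
  have hpart1 : ∑ u, p u * (6 * G u / SS D ν u) ≤ 1200000 * ∑ u, ∑ v, a u v * sg D p ν u v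
      + 200 * ∑ u, ∑ v, a u v * GP D p ν u v := by
    have e1 : ∑ u, p u * (6 * G u / SS D ν u)
        = 6 * ∑ c, ∑ v, dragm D ν a c v * ∑ u, p u * f u c v / SS D ν u := by
      have e2 : ∀ u, p u * (6 * G u / SS D ν u)
          = 6 * ∑ c, ∑ v, dragm D ν a c v * (p u * f u c v / SS D ν u) := by
        intro u
        rw [hG]
        simp only [mul_sum, sum_div]
        refine sum_congr rfl fun c _ => sum_congr rfl fun v _ => ?_
        ring
      simp_rw [e2]
      rw [← mul_sum, sum_comm]
      congr 1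
      refine sum_congr rfl fun c _ => ?_
      rw [sum_comm]
      refine sum_congr rfl fun v _ => ?_
      rw [mul_sum]
    rw [e1]
    have e3 : ∑ c, ∑ v, dragm D ν a c v * ∑ u, p u * f u c v / SS D ν u
        = ∑ u, ∑ v, a u v * ∑ c, QQ D ν u c * ff D u v c *
          ∑ u', p u' * |MM (tau k) D u' c - MM (tau k) D u' v| / SS D ν u' := by
      set W : X → X → ℝ := fun c v =>
        ∑ u', p u' * |MM (tau k) D u' c - MM (tau k) D u' v| / SS D ν u' with hW
      have e4 : ∑ c, ∑ v, dragm D ν a c v * W c v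
          = ∑ c, ∑ v, ∑ u, a u v * (QQ D ν u c * ff D u v c * W c v) := by
        refine sum_congr rfl fun c _ => sum_congr rfl fun v _ => ?_
        unfold dragm
        rw [sum_mul]
        refine sum_congr rfl fun u _ => ?_
        ring
      have e5 : ∑ u, ∑ v, a u v * ∑ c, QQ D ν u c * ff D u v c * W c v
          = ∑ u, ∑ v, ∑ c, a u v * (QQ D ν u c * ff D u v c * W c v) := by
        refine sum_congr rfl fun u _ => sum_congr rfl fun v _ => ?_
        rw [mul_sum]
      calc ∑ c, ∑ v, dragm D ν a c v * W c v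
          = ∑ c, ∑ v, ∑ u, a u v * (QQ D ν u c * ff D u v c * W c v) := e4
        _ = ∑ v, ∑ c, ∑ u, a u v * (QQ D ν u c * ff D u v c * W c v) := sum_comm
        _ = ∑ v, ∑ u, ∑ c, a u v * (QQ D ν u c * ff D u v c * W c v) :=
            sum_congr rfl fun v _ => sum_comm
        _ = ∑ u, ∑ v, ∑ c, a u v * (QQ D ν u c * ff D u v c * W c v) := sum_comm
        _ = ∑ u, ∑ v, a u v * ∑ c, QQ D ν u c * ff D u v c * W c v := e5.symm
    rw [e3]
    have h6 : ∀ u v, a u v * ∑ c, QQ D ν u c * ff D u v c *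
          ∑ u', p u' * |MM (tau k) D u' c - MM (tau k) D u' v| / SS D ν u'
        ≤ 200000 * (a u v * sg D p ν u v) + 21 * (a u v * GP D p ν u v) := by
      intro u v
      unfold sg
      split_ifs with huv
      · have h7 := relabel_drag_le hD h (l2_tau_pos P).le (l2_tau_le P) u v
        have h8 := mul_le_mul_of_nonneg_left h7 (ha u v)
        refine h8.trans (le_of_eq ?_)
        ring
      · have h9 : ∀ c, ff D u v c = 0 := by
          intro c
          unfold ff
          rw [if_pos (not_le.mp huv)]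
        have h10 := mul_nonneg (ha u v) (GP_nonneg hD h u v)
        simp only [h9, mul_zero, zero_mul, sum_const_zero]
        linarith only [h10]
    calc 6 * ∑ u, ∑ v, a u v * ∑ c, QQ D ν u c * ff D u v c *
          ∑ u', p u' * |MM (tau k) D u' c - MM (tau k) D u' v| / SS D ν u'
        ≤ 6 * ∑ u, ∑ v, (200000 * (a u v * sg D p ν u v) + 21 * (a u v * GP D p ν u v)) :=
          mul_le_mul_of_nonneg_left (sum_le_sum fun u _ => sum_le_sum fun v _ => h6 u v)
            (by norm_num)
      _ = 1200000 * ∑ u, ∑ v, a u v * sg D p ν u v + 126 * ∑ u, ∑ v, a u v * GP D p ν u v := by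
          simp_rw [sum_add_distrib, ← mul_sum]
          ring
      _ ≤ _ := by
          have h11 : 0 ≤ ∑ u, ∑ v, a u v * GP D p ν u v := sum_nonneg fun u _ =>
            sum_nonneg fun v _ => mul_nonneg (ha u v) (GP_nonneg hD h u v)
          linarith only [h11]
  have hpart2 : ∑ u, (∑ w, a w u) * (6 * G u / SS D ν u) ≤ 120 * α ^ 2 := by
    have h1 : ∀ u, 6 * G u / SS D ν u ≤ 120 * α := by
      intro u
      have hS := SS_ge (D := D) h.hν u
      calc 6 * G u / SS D ν u ≤ 6 * α / e0 := by
            apply div_le_div₀ (by (clear * - hα0; positivity)) (by linarith only [hG1 u]) k5_e0_pos hS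
        _ = 120 * α := by
            unfold e0
            ring
    calc ∑ u, (∑ w, a w u) * (6 * G u / SS D ν u) ≤ ∑ u, (∑ w, a w u) * (120 * α) :=
          sum_le_sum fun u _ => mul_le_mul_of_nonneg_left (h1 u) (sum_nonneg fun w _ => ha w u)
      _ = 120 * α ^ 2 := by
          rw [← sum_mul, sum_comm, ← hα]
          ring
  have hcst : 0 ≤ η * Fintype.card J / P.Q := by (clear * - hη hQ; positivity)
  calc ∑ u, push p a u * EE (fun π : Dyn.Ord (GG n J P.B) =>
        if lab k P.Q P.Ne D π l x u = lab k P.Q P.Ne D π l xd u then (0 : ℝ) else 1)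
      ≤ ∑ u, push p a u * (6 * G u / SS D ν u + 120 * (η * Fintype.card J / P.Q)) :=
        sum_le_sum fun u _ => mul_le_mul_of_nonneg_left (hE u) (hpush0 u)
    _ = ∑ u, push p a u * (6 * G u / SS D ν u)
        + (∑ u, push p a u) * (120 * (η * Fintype.card J / P.Q)) := by
        simp_rw [mul_add]
        rw [sum_add_distrib, ← sum_mul]
    _ ≤ ∑ u, (p u + ∑ w, a w u) * (6 * G u / SS D ν u)
        + k * (120 * (η * Fintype.card J / P.Q)) := by
        apply add_le_add
        · refine sum_le_sum fun u _ => mul_le_mul_of_nonneg_right (hpushle u) ?_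
          have hS := SS_pos (D := D) h.hν u
          have := hG0 u
          (clear * - this hS; positivity)
        · rw [k5_sum_push]
          exact mul_le_mul_of_nonneg_right hpk (by (clear * - hη hQ; positivity))
    _ = ∑ u, p u * (6 * G u / SS D ν u) + ∑ u, (∑ w, a w u) * (6 * G u / SS D ν u)
        + k * (120 * (η * Fintype.card J / P.Q)) := by
        simp_rw [add_mul]
        rw [sum_add_distrib]
    _ ≤ 1200000 * ∑ u, ∑ v, a u v * sg D p ν u v
        + 200 * ∑ u, ∑ v, a u v * GP D p ν u v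
        + 200 * α ^ 2 + 200 * k * (η * Fintype.card J / P.Q) := by
        have h1 : 0 ≤ α ^ 2 := sq_nonneg _
        have h2 : 0 ≤ k * (η * Fintype.card J / P.Q) := by positivity
        linarith

/-- (3b) own cut -/
theorem own_cut {n : ℕ} (hD : PM D) (P : LPar η k J) (l : Fin n) (x : Conf X J)
    (h : Bal D p (nuC η x)) (hpk : ∑ u, p u ≤ k) (u v : X) (huv : slp * D u v ≤ 1 / 32) :
    EE (fun π : Dyn.Ord (GG n J P.B) =>
        if lab k P.Q P.Ne D π l x u = lab k P.Q P.Ne D π l x v then (0 : ℝ) else 1)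
      ≤ 3000 * (D u v * gs D p (nuC η x) u) + 200 * (η * Fintype.card J / P.Q) := by
  have hQ := l2_Q_pos P
  have hη := P.hη
  have hS := SS_pos (D := D) h.hν u
  set f : X → ℝ := fun c => |MM (tau k) D u c - MM (tau k) D v c| with hf
  have hf0 : ∀ c, 0 ≤ f c := fun c => abs_nonneg _
  have hsl : ∑ j, |(slots k P.Q D x u j : ℝ) - slots k P.Q D x v j|
      ≤ P.Q * (∑ j ∈ univ.filter (fun j => (x j).2 = true), f (x j).1) + Fintype.card J := by
    have h0 : ∀ j, |(slots k P.Q D x u j : ℝ) - slots k P.Q D x v j|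
        ≤ P.Q * (if (x j).2 = true then f (x j).1 else 0) + 1 := by
      intro j
      by_cases hj : (x j).2 = true
      · rw [if_pos hj]
        exact l2_slots_sub P x x u v j hj hj
      · have hj' : (x j).2 = false := by simpa using hj
        rw [slots_dead P x u j hj', slots_dead P x v j hj', if_neg hj]
        simp only [CharP.cast_eq_zero, sub_self, abs_zero, mul_zero, zero_add, zero_le_one]
    refine (sum_le_sum fun j _ => h0 j).trans (le_of_eq ?_)
    rw [sum_add_distrib, sum_const, card_univ, nsmul_eq_mul, mul_one, ← mul_sum, sum_filter]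
  refine (l2_ee_le hD P l x x h hpk u v).trans ?_
  have h1 : 6 * η / (P.Q * SS D (nuC η x) u) *
      ∑ j, |(slots k P.Q D x u j : ℝ) - slots k P.Q D x v j|
      ≤ 6 * η / (P.Q * SS D (nuC η x) u) *
        (P.Q * (∑ j ∈ univ.filter (fun j => (x j).2 = true), f (x j).1) + Fintype.card J) :=
    mul_le_mul_of_nonneg_left hsl (by positivity)
  refine h1.trans ((l2_six P h.hν u _).trans ?_)
  rw [← sum_nuC_mul]
  have h2 := cut_le hD h (l2_tau_pos P).le (l2_tau_le P) u v huv
  have h3 : 6 * (∑ c, nuC η x c * f c) / SS D (nuC η x) u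
      = 6 * ∑ c, nuC η x c * |MM (tau k) D u c - MM (tau k) D v c| / SS D (nuC η x) u := by
    rw [hf, mul_div_assoc, sum_div]
  rw [h3]
  have hcst : 0 ≤ η * Fintype.card J / P.Q := by (clear * - hη hQ; positivity)
  (clear * - h2 hcst; linarith)

/-- the mass labelled by a fixed token -/
theorem label_mass {n : ℕ} (hD : PM D) (P : LPar η k J) (l : Fin n) (x : Conf X J)
    (h : Bal D p (nuC η x)) (hpk : ∑ u, p u ≤ k) (j : J) :
    ∑ u, p u * EE (fun π : Dyn.Ord (GG n J P.B) =>
        if lab k P.Q P.Ne D π l x u = some j then (1 : ℝ) else 0) ≤ 101 * η := by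
  have hη := P.hη
  have h1 : ∀ u, p u * EE (fun π : Dyn.Ord (GG n J P.B) =>
        if lab k P.Q P.Ne D π l x u = some j then (1 : ℝ) else 0)
      ≤ 63 * η * (p u * kern D u (x j).1 / SS D (nuC η x) u) := by
    intro u
    have h2 := lab_eq_le hD P l x (l2_sum_nu h hpk) u j
    refine (mul_le_mul_of_nonneg_left h2 (h.hp u)).trans ?_
    have hS := SS_pos (D := D) h.hν u
    have hk0 := kern_pos (D := D) u (x j).1
    have hp0 := h.hp u
    split_ifs
    · apply le_of_eq
      ring
    · rw [mul_zero, mul_zero]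
      (clear * - hη hp0 hk0 hS; positivity)
  calc ∑ u, p u * EE (fun π : Dyn.Ord (GG n J P.B) =>
        if lab k P.Q P.Ne D π l x u = some j then (1 : ℝ) else 0)
      ≤ ∑ u, 63 * η * (p u * kern D u (x j).1 / SS D (nuC η x) u) := sum_le_sum fun u _ => h1 u
    _ = 63 * η * col D p (nuC η x) (x j).1 := by
        rw [← mul_sum]
        rfl
    _ ≤ 63 * η * (8 / 5) := mul_le_mul_of_nonneg_left (h.hi _) (by positivity)
    _ ≤ 101 * η := by linarith only [hη]

end Vale.Agent.P304.Stp
end
end

section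

section

/-! P1: the proximal step of the tokens (blueprint (b)). -/

open Finset

namespace Vale.Agent.P304.Stp

open Vale.Agent.P304.Dyn

variable [StP]

/-! ### two bounds for the logarithm -/

lemma log_one_add_ge {y : ℝ} (hy : 0 ≤ y) : y - y ^ 2 ≤ Real.log (1 + y) := by
  have h0 : (0 : ℝ) < 1 + y := by (clear * - hy; linarith)
  refine le_trans ?_ (Real.one_sub_inv_le_log_of_pos h0)
  have h2 : 1 - (1 + y)⁻¹ = y / (1 + y) := by
    field_simp
    ring
  rw [h2, le_div_iff₀ h0]
  have h3 : 0 ≤ y ^ 3 := pow_nonneg hy 3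
  calc (y - y ^ 2) * (1 + y) = y - y ^ 3 := by ring
    _ ≤ y := by linarith only [h3]

lemma log_one_sub_ge {y : ℝ} (hy : 0 ≤ y) (hy1 : y ≤ 1 / 2) :
    -(y + y ^ 2) ≤ Real.log (1 - y) := by
  have h0 : (0 : ℝ) < 1 - y := by linarith only [hy1]
  rw [Real.le_log_iff_exp_le h0, Real.exp_neg]
  have ht : 0 ≤ y + y ^ 2 := by (clear * - hy; positivity)
  have h1 : 1 + (y + y ^ 2) + (y + y ^ 2) ^ 2 / 2 ≤ Real.exp (y + y ^ 2) :=
    Real.quadratic_le_exp_of_nonneg ht
  have h2 : 1 ≤ (1 - y) * (1 + (y + y ^ 2) + (y + y ^ 2) ^ 2 / 2) := by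
    have h3 : (1 - y) * (1 + (y + y ^ 2) + (y + y ^ 2) ^ 2 / 2) =
        1 + y ^ 2 * ((1 - y - y ^ 2 - y ^ 3) / 2) := by ring
    have h4 : y ^ 2 ≤ (1 / 2) ^ 2 := pow_le_pow_left₀ hy hy1 2
    have h5 : y ^ 3 ≤ (1 / 2) ^ 3 := pow_le_pow_left₀ hy hy1 3
    have h6 : 0 ≤ (1 - y - y ^ 2 - y ^ 3) / 2 := by
      norm_num at h4 h5
      linarith only [hy1, h4, h5]
    have h7 : 0 ≤ y ^ 2 * ((1 - y - y ^ 2 - y ^ 3) / 2) := mul_nonneg (sq_nonneg y) h6
    rw [h3]
    linarith only [h7]
  have h3 : 1 ≤ (1 - y) * Real.exp (y + y ^ 2) :=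
    h2.trans (mul_le_mul_of_nonneg_left h1 h0.le)
  rw [inv_le_iff_one_le_mul₀ (Real.exp_pos _)]
  exact h3

section upd
variable {X : Type} [Fintype X] [DecidableEq X] {D : X → X → ℝ} {p : X → ℝ}

lemma upd_eq (ν : X → ℝ) (c : X) (s : ℝ) :
    Function.update ν c (ν c + s) = fun c' => ν c' + if c' = c then s else 0 := by
  funext c'
  by_cases h : c' = c
  · subst h; rw [Function.update_self, if_pos rfl]
  · rw [Function.update_of_ne h, if_neg h, add_zero]

lemma sum_upd (ν : X → ℝ) (c : X) (s : ℝ) :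
    ∑ c', Function.update ν c (ν c + s) c' = ∑ c', ν c' + s := by
  rw [upd_eq, sum_add_distrib, sum_ite_eq' univ c (fun _ => s), if_pos (mem_univ c)]

lemma SS_upd (ν : X → ℝ) (c : X) (s : ℝ) (u : X) :
    SS D (Function.update ν c (ν c + s)) u = SS D ν u + s * kern D u c := by
  unfold SS
  rw [upd_eq]
  have h : ∀ c', kern D u c' * (ν c' + if c' = c then s else 0) =
      kern D u c' * ν c' + if c' = c then s * kern D u c' else 0 := by
    intro c'
    split_ifs
    · ring
    · ring
  rw [sum_congr rfl fun c' _ => h c', sum_add_distrib,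
    sum_ite_eq' univ c (fun c' => s * kern D u c'), if_pos (mem_univ c), add_assoc]

/-- adding mass `s` (of either sign) at one point -/
lemma FF_upd_le {k e η : ℝ} (hD : PM D) (hp : ∀ u, 0 ≤ p u) (hpk : ∑ u, p u ≤ k) {ν : X → ℝ}
    (hν : ∀ c, 0 ≤ ν c) (c : X) (hη : 0 ≤ η) (he : e = η ∨ (e = -η ∧ η ≤ e0 / 2)) :
    FF D p (Function.update ν c (ν c + e)) ≤
      FF D p ν + e * (1 - col D p ν c) + η ^ 2 * k / e0 ^ 2 := by
  have he0 : (0 : ℝ) < e0 := by norm_num [e0]
  have hterm : ∀ u, p u * Real.log (SS D ν u) +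
      (e * (p u * kern D u c / SS D ν u) - p u * (η ^ 2 / e0 ^ 2)) ≤
        p u * Real.log (SS D (Function.update ν c (ν c + e)) u) := by
    intro u
    have hSu : 0 < SS D ν u := SS_pos hν u
    have hS0 : e0 ≤ SS D ν u := SS_ge hν u
    have hκ : 0 < kern D u c := kern_pos u c
    have hκ1 : kern D u c ≤ 1 := kern_le_one hD u c
    rw [SS_upd]
    generalize SS D ν u = S at *
    generalize kern D u c = κ at *
    have hy : 0 ≤ η * κ / S := div_nonneg (mul_nonneg hη hκ.le) hSu.le
    have hy1 : η * κ / S ≤ η / e0 := by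
      refine div_le_div₀ hη ?_ he0 hS0
      have := mul_le_mul_of_nonneg_left hκ1 hη
      rwa [mul_one] at this
    have hy2 : (η * κ / S) ^ 2 ≤ η ^ 2 / e0 ^ 2 := by
      rw [← div_pow]
      exact pow_le_pow_left₀ hy hy1 2
    have hlow : e * κ / S - η ^ 2 / e0 ^ 2 ≤ Real.log (1 + e * κ / S) ∧ 0 < 1 + e * κ / S := by
      rcases he with rfl | ⟨rfl, h2⟩
      · have h3 := log_one_add_ge hy
        exact ⟨by linarith only [h3, hy2], by linarith only [hy]⟩
      · have h4 : η * κ / S ≤ 1 / 2 := by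
          refine hy1.trans ?_
          rw [div_le_iff₀ he0]
          linarith only [h2]
        have h3 := log_one_sub_ge hy h4
        have h5 : -η * κ / S = -(η * κ / S) := by ring
        rw [h5, ← sub_eq_add_neg]
        exact ⟨by linarith only [h3, hy2], by linarith only [h4]⟩
    have hlog : Real.log (S + e * κ) = Real.log S + Real.log (1 + e * κ / S) := by
      rw [← Real.log_mul hSu.ne' hlow.2.ne']
      congr 1
      (clear * - hSu; field_simp)
    rw [hlog]
    have h4 := mul_le_mul_of_nonneg_left hlow.1 (hp u)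
    have h5 : p u * (e * κ / S - η ^ 2 / e0 ^ 2) =
        e * (p u * κ / S) - p u * (η ^ 2 / e0 ^ 2) := by ring
    rw [h5] at h4
    linarith only [h4]
  have hsum := sum_le_sum fun u (_ : u ∈ univ) => hterm u
  rw [sum_add_distrib, sum_sub_distrib, ← mul_sum, ← sum_mul] at hsum
  have hk : (∑ u, p u) * (η ^ 2 / e0 ^ 2) ≤ η ^ 2 * k / e0 ^ 2 := by
    have := mul_le_mul_of_nonneg_right hpk (div_nonneg (sq_nonneg η) (sq_nonneg e0))
    calc (∑ u, p u) * (η ^ 2 / e0 ^ 2) ≤ k * (η ^ 2 / e0 ^ 2) := this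
      _ = η ^ 2 * k / e0 ^ 2 := by ring
  unfold FF
  rw [sum_upd]
  have hcol : e * (1 - col D p ν c) = e - e * ∑ u, p u * kern D u c / SS D ν u := by
    unfold col
    ring
  rw [hcol]
  linarith only [hsum, hk]

end upd

variable {X J : Type} [Fintype X] [Fintype J] [DecidableEq X] [DecidableEq J]
  {D : X → X → ℝ} {p : X → ℝ} {η k : ℝ}

/-- adding a single token -/
theorem FF_add_le (hD : PM D) (hp : ∀ u, 0 ≤ p u) (hpk : ∑ u, p u ≤ k) {ν : X → ℝ}
    (hν : ∀ c, 0 ≤ ν c) (hη : 0 ≤ η) (c : X) :
    FF D p (Function.update ν c (ν c + η)) ≤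
      FF D p ν + η * (1 - col D p ν c) + η ^ 2 * k / e0 ^ 2 :=
  FF_upd_le hD hp hpk hν c hη (Or.inl rfl)

/-- removing a single token -/
theorem FF_remove_le (hD : PM D) (hp : ∀ u, 0 ≤ p u) (hpk : ∑ u, p u ≤ k) {ν : X → ℝ}
    (hν : ∀ c, 0 ≤ ν c) (hη : 0 ≤ η) (hη1 : η ≤ e0 / 2) (c : X) (hc : η ≤ ν c) :
    FF D p (Function.update ν c (ν c - η)) ≤
      FF D p ν - η * (1 - col D p ν c) + η ^ 2 * k / e0 ^ 2 := by
  have h := FF_upd_le hD hp hpk hν c hη (e := -η) (Or.inr ⟨rfl, hη1⟩)
  rw [← sub_eq_add_neg] at h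
  linarith only [h]

/-! ### changes of a single token -/

lemma nuC_nonneg_bd690 (hη : 0 ≤ η) (x : Conf X J) (c : X) : 0 ≤ nuC η x c :=
  mul_nonneg hη (Nat.cast_nonneg _)

lemma nuC_eq_sum (x : Conf X J) (c : X) :
    nuC η x c = ∑ j, if x j = (c, true) then η else 0 := by
  rw [nuC, ← sum_filter, sum_const, nsmul_eq_mul, mul_comm]

/-- total mass -/
lemma sum_nuC_bd691 (x : Conf X J) :
    ∑ c, nuC η x c = η * ((univ.filter fun j => (x j).2 = true).card : ℝ) := by
  have h1 : ∀ j, (∑ c, if x j = (c, true) then η else 0) = if (x j).2 = true then η else 0 := by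
    intro j
    by_cases h : (x j).2 = true
    · rw [if_pos h]
      have h2 : ∀ c : X, (x j = (c, true)) ↔ (x j).1 = c := by
        intro c
        rw [Prod.ext_iff]
        exact and_iff_left h
      simp only [h2]
      rw [sum_ite_eq, if_pos (mem_univ _)]
    · rw [if_neg h]
      refine sum_eq_zero fun c _ => if_neg ?_
      intro h2
      rw [h2] at h
      exact h rfl
  calc ∑ c, nuC η x c = ∑ c, ∑ j, if x j = (c, true) then η else 0 :=
        sum_congr rfl fun c _ => nuC_eq_sum x c
    _ = ∑ j, ∑ c, if x j = (c, true) then η else 0 := sum_comm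
    _ = ∑ j, if (x j).2 = true then η else 0 := sum_congr rfl fun j _ => h1 j
    _ = η * ((univ.filter fun j => (x j).2 = true).card : ℝ) := by
        rw [← sum_filter, sum_const, nsmul_eq_mul, mul_comm]

/-- killing a token located at `c` -/
lemma nuC_kill (x : Conf X J) {j : J} {c : X} (h : x j = (c, true)) {b : X × Bool}
    (hb : b.2 = false) :
    nuC η (Function.update x j b) = Function.update (nuC η x) c (nuC η x c - η) := by
  funext c'
  rw [nuC_eq_sum, ← add_sum_erase univ _ (mem_univ j), Function.update_self]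
  have h1 : ¬ b = (c', true) := fun h' => by rw [h'] at hb; exact Bool.noConfusion hb
  rw [if_neg h1, zero_add]
  have h2 : ∑ i ∈ univ.erase j, (if Function.update x j b i = (c', true) then η else 0) =
      ∑ i ∈ univ.erase j, if x i = (c', true) then η else 0 :=
    sum_congr rfl fun i hi => by rw [Function.update_of_ne (ne_of_mem_erase hi)]
  rw [h2]
  have h3 := add_sum_erase univ (fun i => if x i = (c', true) then η else 0) (mem_univ j)
  rw [← nuC_eq_sum] at h3
  by_cases hc : c' = c
  · subst hc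
    rw [Function.update_self, ← h3, if_pos h]
    ring
  · rw [Function.update_of_ne hc, ← h3, if_neg, zero_add]
    intro h4
    rw [h] at h4
    exact hc (Prod.ext_iff.1 h4).1.symm

/-- reviving a dead token at `c` -/
lemma nuC_revive (x : Conf X J) {j : J} (c : X) (h : (x j).2 = false) :
    nuC η (Function.update x j (c, true)) = Function.update (nuC η x) c (nuC η x c + η) := by
  funext c'
  rw [nuC_eq_sum, ← add_sum_erase univ _ (mem_univ j), Function.update_self]
  have h2 : ∑ i ∈ univ.erase j, (if Function.update x j (c, true) i = (c', true) then η else 0) =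
      ∑ i ∈ univ.erase j, if x i = (c', true) then η else 0 :=
    sum_congr rfl fun i hi => by rw [Function.update_of_ne (ne_of_mem_erase hi)]
  rw [h2]
  have h3 := add_sum_erase univ (fun i => if x i = (c', true) then η else 0) (mem_univ j)
  have h4 : ¬ x j = (c', true) := fun h' => by rw [h'] at h; exact Bool.noConfusion h
  rw [← nuC_eq_sum, if_neg h4, zero_add] at h3
  rw [h3]
  by_cases hc : c' = c
  · subst hc
    rw [Function.update_self, if_pos rfl, add_comm]
  · rw [Function.update_of_ne hc, if_neg, zero_add]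
    intro h5
    exact hc (Prod.ext_iff.1 h5).1.symm

lemma chg_update_le (x x' : Conf X J) (j : J) (b : X × Bool) :
    (chg x (Function.update x' j b) : ℝ) ≤ chg x x' + 1 := by
  have h : (univ.filter fun i => Function.update x' j b i ≠ x i) ⊆
      insert j (univ.filter fun i => x' i ≠ x i) := by
    intro i hi
    by_cases hij : i = j
    · rw [hij]; exact mem_insert_self _ _
    · rw [mem_filter, Function.update_of_ne hij] at hi
      exact mem_insert_of_mem (mem_filter.2 hi)
  have h1 := (card_le_card h).trans (card_insert_le _ _)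
  unfold chg
  exact_mod_cast h1

lemma chg_self (x : Conf X J) : chg x x = 0 := by
  unfold chg
  rw [card_eq_zero, filter_eq_empty_iff]
  intro j _ h
  exact h rfl

/-- the total mass is bounded by the lower bound on the loads -/
lemma sum_nu_le_of_lo {ν : X → ℝ} (hp : ∀ u, 0 ≤ p u) (hν : ∀ c, 0 ≤ ν c)
    (lo : ∀ c, 0 < ν c → 2 / 5 ≤ col D p ν c) : ∑ c, ν c ≤ 5 / 2 * ∑ u, p u := by
  have h1 : ∀ c, ν c ≤ 5 / 2 * (ν c * col D p ν c) := by
    intro c
    rcases (hν c).eq_or_lt with h0 | h0
    · rw [← h0]; simp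
    · have := mul_le_mul_of_nonneg_left (lo c h0) h0.le
      linarith
  have h2 : ∑ c, ν c * col D p ν c = ∑ u, p u * ∑ c, QQ D ν u c := by
    unfold col QQ
    simp only [mul_sum]
    rw [sum_comm]
    refine sum_congr rfl fun u _ => sum_congr rfl fun c _ => ?_
    ring
  calc ∑ c, ν c ≤ ∑ c, 5 / 2 * (ν c * col D p ν c) := sum_le_sum fun c _ => h1 c
    _ = 5 / 2 * ∑ u, p u * ∑ c, QQ D ν u c := by rw [← mul_sum, h2]
    _ ≤ 5 / 2 * ∑ u, p u := by
        refine mul_le_mul_of_nonneg_left (sum_le_sum fun u _ => ?_) (by norm_num)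
        have := mul_le_mul_of_nonneg_left (sum_QQ_le_one (D := D) hν u) (hp u)
        rwa [mul_one] at this

/-- the proximal step: argmin over the finite set of admissible configurations -/
theorem exists_tokprox [Nonempty X] (hD : PM D) (P : LPar η k J) (hp : ∀ u, 0 ≤ p u)
    (hpk : ∑ u, p u ≤ k)
    (x : Conf X J) (hx : ∑ c, nuC η x c ≤ 5 / 2 * k) :
    ∃ x' : Conf X J, Adm x x' ∧ Bal D p (nuC η x') ∧
      FF D p (nuC η x') + η / 2 * chg x x' ≤ FF D p (nuC η x) := by
  classical
  have hη : 0 < η := P.hη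
  have hk : 1 ≤ k := P.hk
  have he0 : (0 : ℝ) < e0 := by norm_num [e0]
  have hη1 : η ≤ e0 / 2 := by
    have h1 := P.hη1
    have h2 : η * 1 ≤ η * k := mul_le_mul_of_nonneg_left hk hη.le
    have h3 : e0 ^ 2 / 100 ≤ e0 / 2 := by norm_num [e0]
    linarith only [h1, h2, h3]
  have hxx : Adm x x := fun j => Or.inl rfl
  obtain ⟨x', hx', hmin⟩ := Finset.exists_min_image (univ.filter fun x' : Conf X J => Adm x x')
    (fun x' => FF D p (nuC η x') + η / 2 * chg x x') ⟨x, mem_filter.2 ⟨mem_univ _, hxx⟩⟩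
  replace hx' : Adm x x' := (mem_filter.1 hx').2
  replace hmin : ∀ x'' : Conf X J, Adm x x'' → FF D p (nuC η x') + η / 2 * chg x x' ≤
      FF D p (nuC η x'') + η / 2 * chg x x'' := fun x'' h =>
    hmin x'' (mem_filter.2 ⟨mem_univ _, h⟩)
  have hν : ∀ c, 0 ≤ nuC η x' c := nuC_nonneg_bd690 hη.le x'
  have hsmall : η ^ 2 * k / e0 ^ 2 ≤ η * (1 / 100) := by
    rw [div_le_iff₀ (pow_pos he0 2)]
    have h1 := mul_le_mul_of_nonneg_left P.hη1 hη.le
    calc η ^ 2 * k = η * (η * k) := by ring
      _ ≤ η * (e0 ^ 2 / 100) := h1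
      _ = η * (1 / 100) * e0 ^ 2 := by ring
  -- lower bound
  have lo : ∀ c, 0 < nuC η x' c → 2 / 5 ≤ col D p (nuC η x') c := by
    intro c hc
    have hcard : 0 < (univ.filter fun j => x' j = (c, true)).card := by
      rw [Nat.pos_iff_ne_zero]
      intro h0
      rw [nuC, h0, Nat.cast_zero, mul_zero] at hc
      exact lt_irrefl _ hc
    have hge : η ≤ nuC η x' c := by
      have h1 : (1 : ℝ) ≤ ((univ.filter fun j => x' j = (c, true)).card : ℝ) := by
        exact_mod_cast hcard
      have := mul_le_mul_of_nonneg_left h1 hη.le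
      rwa [mul_one] at this
    obtain ⟨j, hj⟩ := card_pos.1 hcard
    replace hj : x' j = (c, true) := (mem_filter.1 hj).2
    -- the value after killing
    obtain ⟨b, hb, hbad⟩ : ∃ b : X × Bool, b.2 = false ∧ (b = x j ∨ ((x j).2 = true ∧
        b = ((x j).1, false)) ∨ ((x j).2 = false ∧ b.2 = true)) := by
      by_cases h : (x j).2 = true
      · exact ⟨((x j).1, false), rfl, Or.inr (Or.inl ⟨h, rfl⟩)⟩
      · exact ⟨x j, Bool.eq_false_of_not_eq_true h, Or.inl rfl⟩
    have hadm : Adm x (Function.update x' j b) := by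
      intro i
      by_cases hij : i = j
      · subst hij; rw [Function.update_self]; exact hbad
      · rw [Function.update_of_ne hij]; exact hx' i
    have h1 := hmin _ hadm
    rw [nuC_kill x' hj hb] at h1
    have h2 := FF_remove_le hD hp hpk hν hη.le hη1 c hge
    have h3 := mul_le_mul_of_nonneg_left (chg_update_le x x' j b) (half_pos hη).le
    have h4 : η * (1 - col D p (nuC η x') c) ≤ η * (3 / 5) := by
      linarith only [h1, h2, h3, hsmall, hη]
    have h5 := le_of_mul_le_mul_left h4 hη
    linarith only [h5]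
  -- upper bound
  have hsum := sum_nu_le_of_lo (D := D) hp hν lo
  have hi : ∀ c, col D p (nuC η x') c ≤ 8 / 5 := by
    intro c
    obtain ⟨j, hj1, hj2⟩ : ∃ j, (x j).2 = false ∧ (x' j).2 = false := by
      by_contra hno
      push Not at hno
      have hcov : (univ : Finset J) ⊆ (univ.filter fun j => (x j).2 = true) ∪
          (univ.filter fun j => (x' j).2 = true) := by
        intro j _
        rw [mem_union, mem_filter, mem_filter]
        by_cases h : (x j).2 = true
        · exact Or.inl ⟨mem_univ _, h⟩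
        · exact Or.inr ⟨mem_univ _, Bool.eq_true_of_not_eq_false
            (hno j (Bool.eq_false_of_not_eq_true h))⟩
      have h1 := (card_le_card hcov).trans (card_union_le _ _)
      rw [card_univ] at h1
      have h2 : (Fintype.card J : ℝ) ≤ ((univ.filter fun j => (x j).2 = true).card : ℝ) +
          ((univ.filter fun j => (x' j).2 = true).card : ℝ) := by exact_mod_cast h1
      have h3 := mul_le_mul_of_nonneg_left h2 hη.le
      rw [mul_add, ← sum_nuC_bd691, ← sum_nuC_bd691] at h3
      have h4 := P.hJ2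
      linarith only [h3, h4, hx, hsum, hpk, hk]
    have hadm : Adm x (Function.update x' j (c, true)) := by
      intro i
      by_cases hij : i = j
      · subst hij; rw [Function.update_self]; exact Or.inr (Or.inr ⟨hj1, rfl⟩)
      · rw [Function.update_of_ne hij]; exact hx' i
    have h1 := hmin _ hadm
    rw [nuC_revive x' c hj2] at h1
    have h2 := FF_add_le hD hp hpk hν hη.le c
    have h3 := mul_le_mul_of_nonneg_left (chg_update_le x x' j (c, true)) (half_pos hη).le
    have h4 : η * col D p (nuC η x') c ≤ η * (8 / 5) := by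
      linarith only [h1, h2, h3, hsmall, hη]
    exact le_of_mul_le_mul_left h4 hη
  refine ⟨x', hx', ⟨hp, hν, hi, lo⟩, ?_⟩
  have h1 := hmin x hxx
  rw [chg_self, Nat.cast_zero, mul_zero, add_zero] at h1
  exact h1

end Vale.Agent.P304.Stp
end
end

section

section

/-! P2: selection of the micro-tokens to be dragged (blueprint (f)). -/

open Finset

namespace Vale.Agent.P304.Stp

open Vale.Agent.P304.Dyn

variable [StP]

/-- the cheapest `m` elements of a finset cost at most the average share -/
theorem exists_cheap {J : Type} [DecidableEq J] (s : Finset J) (ω : J → ℝ) (hω : ∀ j, 0 ≤ ω j)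
    (m : ℕ) (hm : m ≤ s.card) :
    ∃ t ⊆ s, t.card = m ∧ (s.card : ℝ) * ∑ j ∈ t, ω j ≤ m * ∑ j ∈ s, ω j := by
  obtain ⟨d, hd⟩ : ∃ d, s.card = m + d := ⟨s.card - m, by omega⟩
  clear hm
  induction d generalizing s with
  | zero =>
    refine ⟨s, Subset.refl _, by omega, ?_⟩
    have h1 : s.card = m := by omega
    rw [h1]
  | succ d ih =>
    have hne : s.Nonempty := by
      rw [← card_pos]
      omega
    obtain ⟨x, hx, hmax⟩ := exists_max_image s ω hne
    have hc := card_erase_add_one hx
    obtain ⟨t, hts, htc, hle⟩ := ih (s.erase x) (by omega)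
    refine ⟨t, hts.trans (erase_subset _ _), htc, ?_⟩
    have h1 : ∑ j ∈ t, ω j ≤ m * ω x := by
      have h := sum_le_card_nsmul t ω (ω x) (fun j hj => hmax j (mem_of_mem_erase (hts hj)))
      rwa [nsmul_eq_mul, htc] at h
    have h2 : ∑ j ∈ s, ω j = ω x + ∑ j ∈ s.erase x, ω j := (add_sum_erase s ω hx).symm
    have h3 : (s.card : ℝ) = ((s.erase x).card : ℝ) + 1 := by
      rw [← hc]
      push_cast
      ring
    rw [h2, h3, add_mul, one_mul, mul_add]
    linarith only [hle, h1]

/-- disjoint cheap subsets of prescribed sizes, using at most half of the set -/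
theorem exists_cheap_family {J V : Type} [DecidableEq J] [Fintype V] [DecidableEq V]
    (s : Finset J) (ω : J → ℝ) (hω : ∀ j, 0 ≤ ω j) (m : V → ℕ) (hm : 2 * ∑ v, m v ≤ s.card) :
    ∃ t : V → Finset J, (∀ v, t v ⊆ s) ∧ (∀ v, (t v).card = m v) ∧
      (∀ v v', v ≠ v' → Disjoint (t v) (t v')) ∧
      ∀ v, (s.card : ℝ) * ∑ j ∈ t v, ω j ≤ 2 * m v * ∑ j ∈ s, ω j := by
  have key : ∀ W : Finset V, ∃ t : V → Finset J, (∀ v, v ∉ W → t v = ∅) ∧ (∀ v, t v ⊆ s) ∧
      (∀ v ∈ W, (t v).card = m v) ∧ (∀ v v', v ≠ v' → Disjoint (t v) (t v')) ∧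
      ∀ v ∈ W, (s.card : ℝ) * ∑ j ∈ t v, ω j ≤ 2 * m v * ∑ j ∈ s, ω j := by
    intro W
    induction W using Finset.induction_on with
    | empty => exact ⟨fun _ => ∅, by simp, by simp only [empty_subset, implies_true], by simp only [notMem_empty, card_empty, IsEmpty.forall_iff, implies_true], by simp only [ne_eq, disjoint_self, bot_eq_empty, implies_true], by simp only [notMem_empty, sum_empty, mul_zero, IsEmpty.forall_iff, implies_true]⟩
    | insert v0 W hv0 ih =>
      obtain ⟨t, h1, h2, h3, h4, h5⟩ := ih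
      have hb : (W.biUnion t).card = ∑ v ∈ W, m v := by
        rw [card_biUnion (fun v _ v' _ h => h4 v v' h)]
        exact sum_congr rfl h3
      have hsub : W.biUnion t ⊆ s := biUnion_subset.2 fun v _ => h2 v
      have hr : (s \ W.biUnion t).card = s.card - ∑ v ∈ W, m v := by
        rw [card_sdiff_of_subset hsub, hb]
      have hsum : ∑ v ∈ W, m v + m v0 ≤ ∑ v, m v := by
        rw [add_comm, ← sum_insert hv0]
        exact sum_le_univ_sum_of_nonneg fun _ => Nat.zero_le _
      obtain ⟨t0, ht0, hc0, hl0⟩ := exists_cheap (s \ W.biUnion t) ω hω (m v0) (by (clear * - hm hr hsum; omega))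
      have hdis : ∀ v ∈ W, Disjoint t0 (t v) := by
        intro v hv
        rw [Finset.disjoint_left]
        intro j hj hj'
        have h6 := ht0 hj
        rw [mem_sdiff] at h6
        exact h6.2 (mem_biUnion.2 ⟨v, hv, hj'⟩)
      have hdis' : ∀ v, v ≠ v0 → Disjoint t0 (t v) := by
        intro v _
        by_cases hv : v ∈ W
        · exact hdis v hv
        · rw [h1 v hv]
          exact Finset.disjoint_empty_right _
      refine ⟨Function.update t v0 t0, ?_, ?_, ?_, ?_, ?_⟩
      · intro v hv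
        rw [mem_insert, not_or] at hv
        rw [Function.update_of_ne hv.1]
        exact h1 v hv.2
      · intro v
        by_cases hv : v = v0
        · rw [hv, Function.update_self]
          exact ht0.trans sdiff_subset
        · rw [Function.update_of_ne hv]
          exact h2 v
      · intro v hv
        by_cases hv' : v = v0
        · rw [hv', Function.update_self, hc0]
        · rw [Function.update_of_ne hv']
          exact h3 v (mem_of_mem_insert_of_ne hv hv')
      · intro v v' hvv
        by_cases hv : v = v0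
        · subst hv
          rw [Function.update_self, Function.update_of_ne (Ne.symm hvv)]
          exact hdis' v' (Ne.symm hvv)
        · by_cases hv' : v' = v0
          · subst hv'
            rw [Function.update_self, Function.update_of_ne hvv]
            exact (hdis' v hvv).symm
          · rw [Function.update_of_ne hv, Function.update_of_ne hv']
            exact h4 v v' hvv
      · intro v hv
        by_cases hv' : v = v0
        · subst hv'
          rw [Function.update_self]
          have e1 : 0 ≤ ∑ j ∈ t0, ω j := sum_nonneg fun j _ => hω j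
          have e2 : ∑ j ∈ s \ W.biUnion t, ω j ≤ ∑ j ∈ s, ω j :=
            sum_le_sum_of_subset_of_nonneg sdiff_subset fun j _ _ => hω j
          have e3 : (s.card : ℝ) ≤ 2 * ((s \ W.biUnion t).card : ℝ) := by
            have : s.card ≤ 2 * (s \ W.biUnion t).card := by omega
            exact_mod_cast this
          have e4 := mul_le_mul_of_nonneg_right e3 e1
          have e5 := mul_le_mul_of_nonneg_left e2 (Nat.cast_nonneg (α := ℝ) (m v))
          calc (s.card : ℝ) * ∑ j ∈ t0, ω j
              ≤ 2 * ((s \ W.biUnion t).card : ℝ) * ∑ j ∈ t0, ω j := e4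
            _ = 2 * (((s \ W.biUnion t).card : ℝ) * ∑ j ∈ t0, ω j) := by ring
            _ ≤ 2 * (m v * ∑ j ∈ s, ω j) := by linarith only [hl0, e5]
            _ = _ := by ring
        · rw [Function.update_of_ne hv']
          exact h5 v (mem_of_mem_insert_of_ne hv hv')
  obtain ⟨t, -, h2, h3, h4, h5⟩ := key univ
  exact ⟨t, h2, fun v => h3 v (mem_univ v), h4, fun v => h5 v (mem_univ v)⟩

variable {X J : Type} [Fintype X] [Fintype J] [DecidableEq X] [DecidableEq J]
  {D : X → X → ℝ} {p : X → ℝ} {η k : ℝ}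

/-- the drag plan: disjoint cheap sets of tokens -/
theorem p2_family (hD : PM D) (hη : 0 < η) (x : Conf X J) (hν : ∀ c, 0 ≤ nuC η x c)
    {a : X → X → ℝ} (ha : ∀ u v, 0 ≤ a u v)
    (hsmall : ∑ u, ∑ v, a u v ≤ e0 / 2) (ω : J → ℝ) (hω : ∀ j, 0 ≤ ω j) :
    ∃ (m : X → X → ℕ) (t : X → X → Finset J),
      (∀ c v, η * (m c v : ℝ) ≤ dragm D (nuC η x) a c v) ∧
      (∀ c v, v ≠ c → dragm D (nuC η x) a c v - η * (m c v : ℝ) ≤ η) ∧
      (∀ c, m c c = 0) ∧
      (∀ c v, t c v ⊆ univ.filter (fun j => x j = (c, true))) ∧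
      (∀ c v, (t c v).card = m c v) ∧
      (∀ c v v', v ≠ v' → Disjoint (t c v) (t c v')) ∧
      ∀ c v, ((univ.filter (fun j => x j = (c, true))).card : ℝ) * ∑ j ∈ t c v, ω j ≤
        2 * m c v * ∑ j ∈ univ.filter (fun j => x j = (c, true)), ω j := by
  have hdm : ∀ c v, 0 ≤ dragm D (nuC η x) a c v := dragm_nonneg hD hν ha
  have hm_le : ∀ c v, η * ((if v = c then 0 else ⌊dragm D (nuC η x) a c v / η⌋₊ : ℕ) : ℝ) ≤
      dragm D (nuC η x) a c v := by
    intro c v
    split_ifs
    · simpa only [CharP.cast_eq_zero, mul_zero] using hdm c v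
    · have h1 := Nat.floor_le (div_nonneg (hdm c v) hη.le)
      calc η * (⌊dragm D (nuC η x) a c v / η⌋₊ : ℝ)
          ≤ η * (dragm D (nuC η x) a c v / η) := mul_le_mul_of_nonneg_left h1 hη.le
        _ = _ := by field_simp
  have hm_sum : ∀ c, 2 * ∑ v, (if v = c then 0 else ⌊dragm D (nuC η x) a c v / η⌋₊) ≤
      (univ.filter (fun j => x j = (c, true))).card := by
    intro c
    have h1 : η * ∑ v, ((if v = c then 0 else ⌊dragm D (nuC η x) a c v / η⌋₊ : ℕ) : ℝ) ≤
        1 / 2 * nuC η x c := by
      calc η * ∑ v, ((if v = c then 0 else ⌊dragm D (nuC η x) a c v / η⌋₊ : ℕ) : ℝ)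
          = ∑ v, η * ((if v = c then 0 else ⌊dragm D (nuC η x) a c v / η⌋₊ : ℕ) : ℝ) := mul_sum ..
        _ ≤ ∑ v, dragm D (nuC η x) a c v := sum_le_sum fun v _ => hm_le c v
        _ ≤ (∑ u, ∑ v, a u v) / e0 * nuC η x c := sum_dragm_le hD hν ha c
        _ ≤ 1 / 2 * nuC η x c := by
            refine mul_le_mul_of_nonneg_right ?_ (hν c)
            rw [div_le_iff₀ k5_e0_pos]
            linarith
    have h2 : nuC η x c = η * ((univ.filter fun j => x j = (c, true)).card : ℝ) := rfl
    rw [h2] at h1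
    have h3 : 2 * ∑ v, ((if v = c then 0 else ⌊dragm D (nuC η x) a c v / η⌋₊ : ℕ) : ℝ) ≤
        ((univ.filter fun j => x j = (c, true)).card : ℝ) := by
      by_contra h4
      push Not at h4
      have := mul_lt_mul_of_pos_left h4 hη
      linarith only [h1, this]
    exact_mod_cast h3
  choose t h1 h2 h3 h4 using fun c => exists_cheap_family
    (univ.filter (fun j => x j = (c, true))) ω hω
    (fun v => if v = c then 0 else ⌊dragm D (nuC η x) a c v / η⌋₊) (hm_sum c)
  refine ⟨fun c v => if v = c then 0 else ⌊dragm D (nuC η x) a c v / η⌋₊, t, hm_le, ?_, ?_, h1,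
    h2, h3, h4⟩
  · intro c v hv
    beta_reduce
    rw [if_neg hv]
    have h5 := (Nat.lt_floor_add_one (dragm D (nuC η x) a c v / η)).le
    rw [div_le_iff₀ hη] at h5
    linarith only [h5]
  · intro c
    beta_reduce
    rw [if_pos rfl]

theorem exists_drag (hD : PM D) (P : LPar η k J) (x : Conf X J)
    (h : Bal D p (nuC η x)) {a : X → X → ℝ} (ha : ∀ u v, 0 ≤ a u v)
    (hsmall : ∑ u, ∑ v, a u v ≤ e0 / 2) (ω : J → ℝ) (hω : ∀ j, 0 ≤ ω j) :
    ∃ xd : Conf X J, DragMove D η a x xd ∧
      ∑ c, |nuC η xd c - dragged D (nuC η x) a c| ≤ 2 * η * (Fintype.card X : ℝ) ^ 2 ∧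
      ∑ j, ω j * D (x j).1 (xd j).1 ≤
        2 * ∑ c, ∑ v, dragm D (nuC η x) a c v * D c v *
          ((∑ j ∈ univ.filter (fun j => x j = (c, true)), ω j) / nuC η x c) := by
  classical
  have hη := P.hη
  have hν := h.hν
  obtain ⟨m, t, hm1, hm2, hm3, ht1, ht2, ht3, ht4⟩ := p2_family hD hη x hν ha hsmall ω hω
  have hdm : ∀ c v, 0 ≤ dragm D (nuC η x) a c v := dragm_nonneg hD hν ha
  have F1 : ∀ j c v, j ∈ t c v → x j = (c, true) := fun j c v hj => by
    have := ht1 c v hj
    rw [mem_filter] at this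
    exact this.2
  have F5 : ∀ j c v c' v', j ∈ t c v → j ∈ t c' v' → c' = c ∧ v' = v := by
    intro j c v c' v' hj hj'
    have e1 := F1 j c v hj
    have e2 := F1 j c' v' hj'
    rw [e1, Prod.mk.injEq] at e2
    obtain ⟨e3, -⟩ := e2
    subst e3
    refine ⟨rfl, ?_⟩
    by_contra hne
    exact Finset.disjoint_left.1 (ht3 c v' v hne) hj' hj
  obtain ⟨xd, hxd1, hxd2⟩ : ∃ xd : Conf X J, (∀ j c v, j ∈ t c v → xd j = (v, true)) ∧
      ∀ j, (∀ c v, j ∉ t c v) → xd j = x j := by
    refine ⟨fun j => if hj : ∃ v, j ∈ t (x j).1 v then (hj.choose, true) else x j, ?_, ?_⟩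
    · intro j c v hj
      have e1 := F1 j c v hj
      have hj' : ∃ v, j ∈ t (x j).1 v := ⟨v, by rw [e1]; exact hj⟩
      beta_reduce
      rw [dif_pos hj']
      have e2 := hj'.choose_spec
      rw [(F5 j c v _ _ hj e2).2]
    · intro j hj
      beta_reduce
      rw [dif_neg (by
        rintro ⟨v, hv⟩
        exact hj _ _ hv)]
  have Fne : ∀ j c v, j ∈ t c v → v ≠ c := by
    rintro j c v hj rfl
    have e1 := ht2 v v
    rw [hm3, card_eq_zero] at e1
    rw [e1] at hj
    exact absurd hj (Finset.notMem_empty j)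
  refine ⟨xd, ⟨?_, ?_⟩, ?_, ?_⟩
  · intro j
    by_cases hj : ∀ c v, j ∉ t c v
    · exact Or.inl (hxd2 j hj)
    · push Not at hj
      obtain ⟨c, v, hj⟩ := hj
      refine Or.inr ?_
      rw [hxd1 j c v hj, F1 j c v hj]
      refine ⟨rfl, rfl, ?_⟩
      show D c v ≤ 4
      have h1 : 1 ≤ m c v := by
        rw [← ht2 c v]
        exact card_pos.2 ⟨j, hj⟩
      have h2 : 0 < dragm D (nuC η x) a c v := by
        refine lt_of_lt_of_le ?_ (hm1 c v)
        have : (1 : ℝ) ≤ m c v := by exact_mod_cast h1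
        (clear * - hη h1; positivity)
      have h3 : ∃ u, ff D u v c ≠ 0 := by
        by_contra hno
        push Not at hno
        have : dragm D (nuC η x) a c v = 0 := by
          unfold dragm
          exact sum_eq_zero fun u _ => by rw [hno u, mul_zero, mul_zero]
        linarith only [h2, this]
      obtain ⟨u, hu⟩ := h3
      have h4 : slp * D u v ≤ 1 / 32 := by
        by_contra hc
        push Not at hc
        exact hu (by unfold ff; rw [if_pos hc])
      have h4' : D u v ≤ 1 / 32 := (le_mul_of_one_le_left (hD.nonneg u v) one_le_slp).trans h4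
      have h5 : D u c ≤ 3 := by
        by_contra hc
        push Not at hc
        exact hu (by unfold ff; rw [if_neg (not_lt.2 h4), if_pos hc])
      have h6 := hD.tri c u v
      rw [hD.symm c u] at h6
      linarith only [h4', h5, h6]
  · intro c v hcv
    refine le_trans ?_ (hm1 c v)
    refine mul_le_mul_of_nonneg_left ?_ hη.le
    rw [← ht2 c v]
    refine Nat.cast_le.2 (card_le_card ?_)
    intro j hj
    rw [mem_filter] at hj
    obtain ⟨-, hj1, hj2⟩ := hj
    by_cases hj3 : ∀ c v, j ∉ t c v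
    · rw [hxd2 j hj3, hj1, Prod.mk.injEq] at hj2
      exact absurd hj2.1 hcv
    · push Not at hj3
      obtain ⟨c', v', hj3⟩ := hj3
      have e1 := F1 j c' v' hj3
      have e2 := hxd1 j c' v' hj3
      rw [hj1, Prod.mk.injEq] at e1
      rw [hj2, Prod.mk.injEq] at e2
      rw [e1.1, e2.1]
      exact hj3
  · -- rounding
    have hcount : ∀ c, nuC η xd c = nuC η x c - ∑ v, η * (m c v : ℝ) + ∑ c', η * (m c' c : ℝ) := by
      intro c
      have hpt : ∀ j, (if xd j = (c, true) then (1 : ℝ) else 0) =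
          (if x j = (c, true) then (1 : ℝ) else 0) - ∑ v, (if j ∈ t c v then (1 : ℝ) else 0) +
            ∑ c', (if j ∈ t c' c then (1 : ℝ) else 0) := by
        intro j
        by_cases hj : ∀ c v, j ∉ t c v
        · rw [hxd2 j hj, sum_eq_zero (fun v _ => if_neg (hj c v)),
            sum_eq_zero (fun c' _ => if_neg (hj c' c))]
          ring
        · push Not at hj
          obtain ⟨c0, v0, hj⟩ := hj
          rw [hxd1 j c0 v0 hj, F1 j c0 v0 hj]
          have e1 : ∑ v, (if j ∈ t c v then (1 : ℝ) else 0) = if c0 = c then 1 else 0 := by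
            by_cases hc : c0 = c
            · subst hc
              rw [if_pos rfl, sum_eq_single v0]
              · rw [if_pos hj]
              · intro v _ hv
                rw [if_neg]
                intro hj'
                exact hv (F5 j _ _ _ _ hj hj').2
              · intro hv
                exact absurd (mem_univ v0) hv
            · rw [if_neg hc]
              refine sum_eq_zero fun v _ => if_neg fun hj' => hc (F5 j _ _ _ _ hj hj').1.symm
          have e2 : ∑ c', (if j ∈ t c' c then (1 : ℝ) else 0) = if v0 = c then 1 else 0 := by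
            by_cases hc : v0 = c
            · subst hc
              rw [if_pos rfl, sum_eq_single c0]
              · rw [if_pos hj]
              · intro v _ hv
                rw [if_neg]
                intro hj'
                exact hv (F5 j _ _ _ _ hj hj').1
              · intro hv
                exact absurd (mem_univ c0) hv
            · rw [if_neg hc]
              refine sum_eq_zero fun v _ => if_neg fun hj' => hc (F5 j _ _ _ _ hj hj').2.symm
          rw [e1, e2]
          simp only [Prod.mk.injEq, and_true]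
          ring
      have h1 : ((univ.filter fun j => xd j = (c, true)).card : ℝ) =
          ((univ.filter fun j => x j = (c, true)).card : ℝ) - ∑ v, (m c v : ℝ)
            + ∑ c', (m c' c : ℝ) := by
        rw [card_filter, card_filter]
        push_cast
        rw [sum_congr rfl fun j _ => hpt j, sum_add_distrib, sum_sub_distrib]
        congr 1
        · congr 1
          rw [sum_comm]
          refine sum_congr rfl fun v _ => ?_
          rw [← ht2 c v, sum_boole]
          congr 2
          ext j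
          simp only [subset_univ, filter_mem_eq_of_subset]
        · rw [sum_comm]
          refine sum_congr rfl fun v _ => ?_
          rw [← ht2 v c, sum_boole]
          congr 2
          ext j
          simp only [subset_univ, filter_mem_eq_of_subset]
      show η * ((univ.filter fun j => xd j = (c, true)).card : ℝ) =
        η * ((univ.filter fun j => x j = (c, true)).card : ℝ) - _ + _
      rw [h1, ← mul_sum, ← mul_sum]
      ring
    have hr : ∀ c v, |if v = c then 0 else dragm D (nuC η x) a c v - η * (m c v : ℝ)| ≤ η := by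
      intro c v
      split_ifs with hv
      · rw [abs_zero]
        exact hη.le
      · rw [abs_of_nonneg (sub_nonneg.2 (hm1 c v))]
        exact hm2 c v hv
    have hdiff : ∀ c, nuC η xd c - dragged D (nuC η x) a c =
        ∑ v, (if v = c then 0 else dragm D (nuC η x) a c v - η * (m c v : ℝ)) -
          ∑ c', (if c = c' then 0 else dragm D (nuC η x) a c' c - η * (m c' c : ℝ)) := by
      intro c
      have e1 : ∑ v, (if v = c then 0 else dragm D (nuC η x) a c v - η * (m c v : ℝ)) =
          ∑ v, dragm D (nuC η x) a c v - ∑ v, η * (m c v : ℝ) - dragm D (nuC η x) a c c := by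
        have e3 : ∀ v, (if v = c then 0 else dragm D (nuC η x) a c v - η * (m c v : ℝ)) =
            dragm D (nuC η x) a c v - η * (m c v : ℝ) -
              (if v = c then dragm D (nuC η x) a c c else 0) := by
          intro v
          split_ifs with hv
          · rw [hv, hm3]
            simp
          · ring
        rw [sum_congr rfl fun v _ => e3 v, sum_sub_distrib, sum_sub_distrib,
          sum_ite_eq' univ c, if_pos (mem_univ c)]
      have e2 : ∑ c', (if c = c' then 0 else dragm D (nuC η x) a c' c - η * (m c' c : ℝ)) =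
          ∑ c', dragm D (nuC η x) a c' c - ∑ c', η * (m c' c : ℝ) - dragm D (nuC η x) a c c := by
        have e3 : ∀ c', (if c = c' then 0 else dragm D (nuC η x) a c' c - η * (m c' c : ℝ)) =
            dragm D (nuC η x) a c' c - η * (m c' c : ℝ) -
              (if c = c' then dragm D (nuC η x) a c c else 0) := by
          intro v
          split_ifs with hv
          · rw [← hv, hm3]
            simp only [CharP.cast_eq_zero, mul_zero, sub_zero, sub_self]
          · ring
        rw [sum_congr rfl fun v _ => e3 v, sum_sub_distrib, sum_sub_distrib,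
          sum_ite_eq univ c, if_pos (mem_univ c)]
      rw [hcount c, e1, e2]
      unfold dragged
      ring
    have hN : ∀ f : X → ℝ, (∀ v, |f v| ≤ η) → |∑ v, f v| ≤ Fintype.card X * η := by
      intro f hf
      refine (abs_sum_le_sum_abs _ _).trans ?_
      have := sum_le_card_nsmul univ (fun v => |f v|) η fun v _ => hf v
      rwa [nsmul_eq_mul, card_univ] at this
    have hone : ∀ c, |nuC η xd c - dragged D (nuC η x) a c| ≤ 2 * (Fintype.card X * η) := by
      intro c
      rw [hdiff c]
      refine (abs_sub _ _).trans ?_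
      have h1 := hN _ fun v => hr c v
      have h2 := hN (fun c' => if c = c' then 0 else dragm D (nuC η x) a c' c - η * (m c' c : ℝ))
        fun c' => hr c' c
      linarith only [h1, h2]
    have := sum_le_card_nsmul univ (fun c => |nuC η xd c - dragged D (nuC η x) a c|)
      (2 * (Fintype.card X * η)) fun c _ => hone c
    rw [nsmul_eq_mul, card_univ] at this
    refine this.trans (le_of_eq (by ring))
  · -- cost
    have hpt : ∀ j, ω j * D (x j).1 (xd j).1 ≤
        ∑ c, ∑ v, (if j ∈ t c v then ω j * D c v else 0) := by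
      intro j
      by_cases hj : ∀ c v, j ∉ t c v
      · rw [hxd2 j hj, hD.self, mul_zero]
        exact sum_nonneg fun c _ => sum_nonneg fun v _ => by
          rw [if_neg (hj c v)]
      · push Not at hj
        obtain ⟨c0, v0, hj⟩ := hj
        rw [hxd1 j c0 v0 hj, F1 j c0 v0 hj]
        have hnn : ∀ c v, 0 ≤ (if j ∈ t c v then ω j * D c v else 0) := by
          intro c v
          split_ifs
          · exact mul_nonneg (hω j) (hD.nonneg c v)
          · exact le_rfl
        refine le_trans ?_ (single_le_sum (fun c _ => sum_nonneg fun v _ => hnn c v)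
          (mem_univ c0))
        refine le_trans ?_ (single_le_sum (fun v _ => hnn c0 v) (mem_univ v0))
        rw [if_pos hj]
    calc ∑ j, ω j * D (x j).1 (xd j).1
        ≤ ∑ j, ∑ c, ∑ v, (if j ∈ t c v then ω j * D c v else 0) :=
          sum_le_sum fun j _ => hpt j
      _ = ∑ c, ∑ v, (∑ j ∈ t c v, ω j) * D c v := by
          rw [sum_comm]
          refine sum_congr rfl fun c _ => ?_
          rw [sum_comm]
          refine sum_congr rfl fun v _ => ?_
          rw [sum_mul, ← sum_filter]
          refine sum_congr ?_ fun _ _ => rfl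
          ext j
          simp only [subset_univ, filter_mem_eq_of_subset]
      _ ≤ ∑ c, ∑ v, 2 * (dragm D (nuC η x) a c v * D c v *
          ((∑ j ∈ univ.filter (fun j => x j = (c, true)), ω j) / nuC η x c)) := by
          refine sum_le_sum fun c _ => sum_le_sum fun v _ => ?_
          have hDn := hD.nonneg c v
          have hWn : 0 ≤ ∑ j ∈ univ.filter (fun j => x j = (c, true)), ω j :=
            sum_nonneg fun j _ => hω j
          have hdn := hdm c v
          have hνc : nuC η x c = η * ((univ.filter fun j => x j = (c, true)).card : ℝ) := rfl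
          rcases Nat.eq_zero_or_pos (univ.filter fun j => x j = (c, true)).card with h0 | h0
          · have h1 : t c v = ∅ := by
              have h2 := ht1 c v
              rw [card_eq_zero.1 h0] at h2
              exact subset_empty.1 h2
            rw [h1, sum_empty, zero_mul]
            have := hν c
            (clear * - hdn hDn hWn this; positivity)
          · have h0' : (0 : ℝ) < ((univ.filter fun j => x j = (c, true)).card : ℝ) := by
              exact_mod_cast h0
            have hνp : 0 < nuC η x c := by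
              rw [hνc]
              (clear * - hη h0; positivity)
            have h1 : ∑ j ∈ t c v, ω j ≤ 2 * (dragm D (nuC η x) a c v *
                ((∑ j ∈ univ.filter (fun j => x j = (c, true)), ω j) / nuC η x c)) := by
              rw [← mul_div_assoc, ← mul_div_assoc, le_div_iff₀ hνp, hνc]
              have h2 := mul_le_mul_of_nonneg_left (ht4 c v) hη.le
              have h3 := mul_le_mul_of_nonneg_right (hm1 c v) hWn
              calc (∑ j ∈ t c v, ω j) * (η * ((univ.filter fun j => x j = (c, true)).card : ℝ))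
                  = η * (((univ.filter fun j => x j = (c, true)).card : ℝ) *
                      ∑ j ∈ t c v, ω j) := by ring
                _ ≤ η * (2 * m c v * ∑ j ∈ univ.filter (fun j => x j = (c, true)), ω j) := h2
                _ = 2 * (η * m c v * ∑ j ∈ univ.filter (fun j => x j = (c, true)), ω j) := by
                    ring
                _ ≤ _ := by linarith only [h3]
            calc (∑ j ∈ t c v, ω j) * D c v ≤ _ := mul_le_mul_of_nonneg_right h1 hDn
              _ = _ := by ring
      _ = _ := by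
          simp only [mul_sum]

/-- the following cost in terms of users (uses `ff * D c v ≤ 65 D u v`) -/
theorem follow_le (hD : PM D) (x : Conf X J) (hη : 0 < η) {a : X → X → ℝ}
    (ha : ∀ u v, 0 ≤ a u v) (ω : J → ℝ) (hω : ∀ j, 0 ≤ ω j) :
    2 * ∑ c, ∑ v, dragm D (nuC η x) a c v * D c v *
          ((∑ j ∈ univ.filter (fun j => x j = (c, true)), ω j) / nuC η x c)
      ≤ 130 * ∑ u, ∑ v, a u v * ((if slp * D u v ≤ 1 / 32 then D u v else 0) *
          ∑ c ∈ univ.filter (fun c => D u c ≤ 3), kern D u c / SS D (nuC η x) u *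
            ∑ j ∈ univ.filter (fun j => x j = (c, true)), ω j) := by
  have hν : ∀ c, 0 ≤ nuC η x c := fun c => nuC_nonneg hη.le x c
  have hW : ∀ c, 0 ≤ ∑ j ∈ univ.filter (fun j => x j = (c, true)), ω j :=
    fun c => sum_nonneg fun j _ => hω j
  have hpt : ∀ u v c, a u v * (QQ D (nuC η x) u c * ff D u v c) * D c v *
      ((∑ j ∈ univ.filter (fun j => x j = (c, true)), ω j) / nuC η x c) ≤
      65 * (a u v * ((if slp * D u v ≤ 1 / 32 then D u v else 0) *
        (if D u c ≤ 3 then kern D u c / SS D (nuC η x) u *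
          ∑ j ∈ univ.filter (fun j => x j = (c, true)), ω j else 0))) := by
    intro u v c
    have hS := SS_pos (D := D) hν u
    have hK := kern_pos (D := D) u c
    have h1 := ha u v
    have h2 := hD.nonneg u v
    have h3 := hW c
    by_cases h4 : slp * D u v ≤ 1 / 32
    · by_cases h5 : D u c ≤ 3
      · rw [if_pos h4, if_pos h5]
        rcases eq_or_ne (nuC η x c) 0 with h0 | h0
        · rw [h0, div_zero, mul_zero]
          (clear * - h1 h2 hK hS h3; positivity)
        · have h6 : ff D u v c * D c v ≤ 65 * D u v := by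
            refine le_trans (mul_le_mul_of_nonneg_left ?_ (ff_nonneg hD u v c))
              (ff_mul_le hD u v c)
            have := hD.tri c u v
            rwa [hD.symm c u] at this
          have h7 : 0 ≤ a u v * (kern D u c / SS D (nuC η x) u *
              ∑ j ∈ univ.filter (fun j => x j = (c, true)), ω j) := by (clear * - h1 hK hS h3; positivity)
          calc a u v * (QQ D (nuC η x) u c * ff D u v c) * D c v *
                ((∑ j ∈ univ.filter (fun j => x j = (c, true)), ω j) / nuC η x c)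
              = a u v * (kern D u c / SS D (nuC η x) u *
                  ∑ j ∈ univ.filter (fun j => x j = (c, true)), ω j) *
                  (ff D u v c * D c v) := by
                unfold QQ
                (clear * - h0 hS hK; field_simp)
            _ ≤ a u v * (kern D u c / SS D (nuC η x) u *
                  ∑ j ∈ univ.filter (fun j => x j = (c, true)), ω j) * (65 * D u v) :=
                mul_le_mul_of_nonneg_left h6 h7
            _ = _ := by ring
      · have : ff D u v c = 0 := by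
          unfold ff
          rw [if_neg (not_lt.2 h4), if_pos (not_le.1 h5)]
        rw [this, if_neg h5]
        simp only [mul_zero, zero_mul, one_div, Std.le_refl]
    · have : ff D u v c = 0 := by
        unfold ff
        rw [if_pos (not_le.1 h4)]
      rw [this, if_neg h4]
      simp only [mul_zero, zero_mul, mul_ite, ite_self, Std.le_refl]
  calc 2 * ∑ c, ∑ v, dragm D (nuC η x) a c v * D c v *
          ((∑ j ∈ univ.filter (fun j => x j = (c, true)), ω j) / nuC η x c)
      = 2 * ∑ c, ∑ v, ∑ u, a u v * (QQ D (nuC η x) u c * ff D u v c) * D c v *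
          ((∑ j ∈ univ.filter (fun j => x j = (c, true)), ω j) / nuC η x c) := by
        simp only [dragm, sum_mul]
    _ = 2 * ∑ u, ∑ v, ∑ c, a u v * (QQ D (nuC η x) u c * ff D u v c) * D c v *
          ((∑ j ∈ univ.filter (fun j => x j = (c, true)), ω j) / nuC η x c) := by
        congr 1
        rw [sum_comm]
        rw [sum_congr rfl fun v _ => sum_comm]
        rw [sum_comm]
    _ ≤ 2 * ∑ u, ∑ v, ∑ c, 65 * (a u v * ((if slp * D u v ≤ 1 / 32 then D u v else 0) *
        (if D u c ≤ 3 then kern D u c / SS D (nuC η x) u *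
          ∑ j ∈ univ.filter (fun j => x j = (c, true)), ω j else 0))) := by
        refine mul_le_mul_of_nonneg_left ?_ (by norm_num)
        exact sum_le_sum fun u _ => sum_le_sum fun v _ => sum_le_sum fun c _ => hpt u v c
    _ = _ := by
        simp only [← mul_sum, ← sum_filter]
        ring

end Vale.Agent.P304.Stp
end
end
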