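import Vale.Agent.P304.Stp.S3

set_option linter.all false

/-! Growth: one scale and the sum over all scales, for the steep kernel. -/

open Finset

namespace Vale.Agent.P304.Stp

open Vale.Agent.P304.Dyn

variable [StP]

variable {X : Type} [Fintype X] [DecidableEq X] {D : X → X → ℝ} {p ν : X → ℝ} {k : ℝ}

theorem s4_exp_slp (hk : 1 ≤ k) (hsl : Real.log (1 / tau k) ≤ slp) :
    Real.exp (-slp) ≤ 1 / (2000 * k) := by
  have h1 : 1 / tau k = 2000 * k := by
    unfold tau e0
    field_simp
    ring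
  rw [h1] at hsl
  have hpos : 0 < 2000 * k := by linarith only [hk]
  calc Real.exp (-slp) ≤ Real.exp (-Real.log (2000 * k)) := Real.exp_le_exp.2 (neg_le_neg hsl)
    _ = 1 / (2000 * k) := by rw [Real.exp_neg, Real.exp_log hpos, one_div]

theorem kern_tail (hk : 1 ≤ k) (hsl : Real.log (1 / tau k) ≤ slp) (u c : X)
    (h : 9 / 2 < D u c) : kern D u c ≤ 1 / (2000 * k) := by
  refine le_trans ?_ (s4_exp_slp hk hsl)
  unfold kern
  apply Real.exp_le_exp.2
  have e1 := phi_ge_steep (t := D u c)
  have e2 := one_le_slp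
  have e3 : (slp - 1) * 1 ≤ (slp - 1) * (D u c - 7 / 2) :=
    mul_le_mul_of_nonneg_left (by linarith only [h]) (by linarith only [e2])
  linarith only [e1, e3, h]

/-- far tokens are supported by the users of an annulus -/
theorem nu_mid_le (hD : PM D) (h : Bal D p ν) (hk : 1 ≤ k) (hpk : ∑ x, p x ≤ k)
    (hsl : Real.log (1 / tau k) ≤ slp) (u : X) :
    ∑ c ∈ univ.filter (fun c => 3 < D u c ∧ D u c ≤ 5), ν c ≤
      6 * ∑ u' ∈ univ.filter (fun u' => 1 / 4 < D u u' ∧ D u u' ≤ 16), p u' := by
  have hk0 : 0 < k := by linarith only [hk]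
  set A := univ.filter (fun u' => 1 / 4 < D u u' ∧ D u u' ≤ 16) with hA
  have hq0 : ∀ u' c, 0 ≤ p u' * kern D u' c / SS D ν u' := fun u' c =>
    div_nonneg (mul_nonneg (h.hp u') (kern_pos u' c).le) (SS_pos h.hν u').le
  have e1 : ∀ c ∈ univ.filter (fun c => 3 < D u c ∧ D u c ≤ 5), ν c ≤
      6 * ∑ u' ∈ A, p u' * QQ D ν u' c := by
    intro c hc
    rw [mem_filter] at hc
    have e2 : ∑ u' ∈ A, p u' * QQ D ν u' c = ν c * ∑ u' ∈ A, p u' * kern D u' c / SS D ν u' := by
      rw [mul_sum]
      refine sum_congr rfl fun u' _ => ?_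
      unfold QQ
      ring
    rw [e2]
    rcases (h.hν c).eq_or_lt with h0 | h0
    · rw [← h0]; simp
    · have e3 := col_out_far hD h u c h0 hc.2.1
      have e4 : ∑ u' ∈ univ.filter (fun u' => 1 / 4 < D u u'), p u' * kern D u' c / SS D ν u' ≤
          ∑ u' ∈ A, p u' * kern D u' c / SS D ν u' + 1 / 100 := by
        have e5 : ∀ u', (if 1 / 4 < D u u' then p u' * kern D u' c / SS D ν u' else 0) ≤
            (if 1 / 4 < D u u' ∧ D u u' ≤ 16 then p u' * kern D u' c / SS D ν u' else 0)
              + p u' * (1 / (100 * k)) := by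
          intro u'
          have hp := h.hp u'
          have hpk' : 0 ≤ p u' * (1 / (100 * k)) := by positivity
          by_cases h1 : 1 / 4 < D u u'
          · by_cases h2 : D u u' ≤ 16
            · rw [if_pos h1, if_pos ⟨h1, h2⟩]
              linarith only [hpk']
            · rw [if_pos h1, if_neg (fun hh => h2 hh.2), zero_add]
              have h3 : 9 / 2 < D u' c := by
                have := hD.tri u c u'
                rw [hD.symm c u'] at this
                linarith only [this, h2, hc.2.2]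
              have h4 := kern_tail (D := D) hk hsl u' c h3
              have hS := SS_ge (D := D) h.hν u'
              have hS' := SS_pos (D := D) h.hν u'
              rw [mul_div_assoc]
              refine mul_le_mul_of_nonneg_left ?_ hp
              calc kern D u' c / SS D ν u' ≤ (1 / (2000 * k)) / e0 :=
                    div_le_div₀ (by positivity) h4 k5_e0_pos hS
                _ = 1 / (100 * k) := by
                    unfold e0
                    field_simp
                    norm_num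
          · rw [if_neg h1, if_neg (fun hh => h1 hh.1)]
            linarith only [hpk']
        rw [sum_filter, hA, sum_filter]
        refine (sum_le_sum fun u' _ => e5 u').trans ?_
        rw [sum_add_distrib, ← sum_mul]
        have e6 : (∑ u', p u') * (1 / (100 * k)) ≤ k * (1 / (100 * k)) :=
          mul_le_mul_of_nonneg_right hpk (by positivity)
        have e7 : k * (1 / (100 * k)) = 1 / 100 := by field_simp
        linarith only [e6, e7]
      have e8 : 1 / 6 ≤ ∑ u' ∈ A, p u' * kern D u' c / SS D ν u' := by linarith only [e3, e4]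
      nlinarith only [e8, h0]
  refine (sum_le_sum e1).trans ?_
  rw [← mul_sum, sum_comm]
  refine mul_le_mul_of_nonneg_left (sum_le_sum fun u' _ => ?_) (by norm_num)
  rw [← mul_sum]
  refine mul_le_of_le_one_right (h.hp u') (le_trans ?_ (sum_QQ_le_one (D := D) h.hν u'))
  exact sum_le_sum_of_subset_of_nonneg (filter_subset _ _) fun c _ _ => QQ_nonneg h.hν u' c

theorem SS_near (hD : PM D) (h : Bal D p ν) (hk : 1 ≤ k) (hpk : ∑ x, p x ≤ k)
    (hsl : Real.log (1 / tau k) ≤ slp) (u u' : X) (hu : D u u' ≤ 1 / 4) :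
    SS D ν u' ≤ 131 / 100 * SS D ν u +
      11 / 100 * ∑ c ∈ univ.filter (fun c => 3 < D u c ∧ D u c ≤ 5), ν c := by
  have hk0 : 0 < k := by linarith only [hk]
  have hexp : Real.exp (1 / 4) ≤ 1285 / 1000 := by
    have h2 : |(1 / 4 : ℝ)| ≤ 1 := by rw [abs_of_pos (by norm_num)]; norm_num
    have h3 := Real.exp_bound' (x := 1 / 4) (by norm_num) (by norm_num) (n := 3) (by norm_num)
    refine h3.trans ?_
    norm_num [Finset.sum_range_succ, Nat.factorial]
  have hexp2 : Real.exp (1 / 2 - 11 / 4) ≤ 11 / 100 := by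
    have h1 : (9.1 : ℝ) ≤ Real.exp (9 / 4) := by
      have e1 : Real.exp (9 / 4) = Real.exp 1 ^ 2 * Real.exp (1 / 4) := by
        rw [← Real.exp_nat_mul, ← Real.exp_add]
        norm_num
      have e2 := Real.exp_one_gt_d9
      have e3 : (1 / 4 : ℝ) + 1 ≤ Real.exp (1 / 4) := Real.add_one_le_exp _
      have e4 : (2.71 : ℝ) ^ 2 ≤ Real.exp 1 ^ 2 :=
        pow_le_pow_left₀ (by norm_num) (by linarith only [e2]) 2
      rw [e1]
      have e5 : (2.71 : ℝ) ^ 2 * (1 / 4 + 1) ≤ Real.exp 1 ^ 2 * Real.exp (1 / 4) :=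
        mul_le_mul e4 e3 (by norm_num) (by positivity)
      refine le_trans ?_ e5
      norm_num
    rw [show (1 : ℝ) / 2 - 11 / 4 = -(9 / 4) by norm_num, Real.exp_neg]
    calc (Real.exp (9 / 4))⁻¹ ≤ (9.1 : ℝ)⁻¹ := inv_anti₀ (by norm_num) h1
      _ ≤ 11 / 100 := by norm_num
  have hterm : ∀ c, kern D u' c * ν c ≤ 1285 / 1000 * (kern D u c * ν c) +
      11 / 100 * (if 3 < D u c ∧ D u c ≤ 5 then ν c else 0) + 1 / (2000 * k) * ν c := by
    intro c
    have hν := h.hν c
    have hK := (kern_pos (D := D) u c).le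
    have n1 : 0 ≤ kern D u c * ν c := mul_nonneg hK hν
    have n2 : 0 ≤ 1 / (2000 * k) * ν c := by positivity
    have hd0 := hD.nonneg u u'
    by_cases h1 : D u c ≤ 3
    · rw [if_neg (fun hh => by linarith only [hh.1, h1]), mul_zero, add_zero]
      have h2 : kern D u' c ≤ Real.exp (1 / 4) * kern D u c := by
        unfold kern
        rw [← Real.exp_add]
        apply Real.exp_le_exp.2
        have ht := hD.tri u u' c
        rcases le_total (D u c) (D u' c) with h3 | h3
        · have := phi_mono (hD.nonneg u c) h3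
          linarith only [this]
        · have h4 := phi_incr_near (hD.nonneg u' c) h3 (by linarith only [h1])
          have h5 : (D u c - D u' c) * min 1 (D u c) ≤ (D u c - D u' c) * 1 :=
            mul_le_mul_of_nonneg_left (min_le_left _ _) (by linarith only [h3])
          linarith only [h4, h5, ht, hu]
      have h6 : kern D u' c * ν c ≤ 1285 / 1000 * kern D u c * ν c := by
        refine mul_le_mul_of_nonneg_right (h2.trans ?_) hν
        exact mul_le_mul_of_nonneg_right hexp hK
      linarith only [h6, n2]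
    · by_cases h2 : D u c ≤ 5
      · rw [if_pos ⟨not_le.1 h1, h2⟩]
        have h3 : kern D u' c ≤ 11 / 100 := by
          refine (kern_le_exp u' c).trans (le_trans (Real.exp_le_exp.2 ?_) hexp2)
          have ht := hD.tri u u' c
          linarith only [ht, hu, h1]
        have h4 := mul_le_mul_of_nonneg_right h3 hν
        linarith only [h4, n1, n2]
      · rw [if_neg (fun hh => h2 hh.2), mul_zero, add_zero]
        have h3 : 9 / 2 < D u' c := by
          have ht := hD.tri u u' c
          linarith only [ht, hu, h2]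
        have h4 := mul_le_mul_of_nonneg_right (kern_tail (D := D) hk hsl u' c h3) hν
        linarith only [h4, n1]
  have hsum := sum_le_sum fun c (_ : c ∈ (univ : Finset X)) => hterm c
  rw [sum_add_distrib, sum_add_distrib, ← mul_sum, ← mul_sum, ← mul_sum, ← sum_filter] at hsum
  have hν := sum_nu_le h
  have h7 : 1 / (2000 * k) * ∑ c, ν c ≤ 1 / 800 := by
    have h8 : ∑ c, ν c ≤ 5 / 2 * k := by linarith only [hν, hpk]
    calc 1 / (2000 * k) * ∑ c, ν c ≤ 1 / (2000 * k) * (5 / 2 * k) :=
          mul_le_mul_of_nonneg_left h8 (by positivity)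
      _ = 1 / 800 := by
          field_simp
          norm_num
  have hS := SS_ge (D := D) h.hν u
  unfold SS at hS ⊢
  unfold e0 at hS ⊢
  linarith only [hsum, h7, hS]

/-- ball bound -/
theorem ball_le' (hD : PM D) (h : Bal D p ν) (hk : 1 ≤ k) (hpk : ∑ x, p x ≤ k)
    (hsl : Real.log (1 / tau k) ≤ slp) (u : X) :
    e0 + ∑ u' ∈ univ.filter (fun u' => D u u' ≤ 1 / 4), p u' ≤
      16 / 5 * SS D ν u +
        11 / 10 * ∑ u' ∈ univ.filter (fun u' => 1 / 4 < D u u' ∧ D u u' ≤ 16), p u' := by
  set P := ∑ u' ∈ univ.filter (fun u' => D u u' ≤ 1 / 4), p u' with hP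
  set O := ∑ u' ∈ univ.filter (fun u' => 1 / 4 < D u u' ∧ D u u' ≤ 16), p u' with hO
  have hO0 : 0 ≤ O := sum_nonneg fun u' _ => h.hp u'
  have hS := SS_pos (D := D) h.hν u
  have hSe := SS_ge (D := D) h.hν u
  set W := 131 / 100 * SS D ν u + 66 / 100 * O with hW
  have hWp : 0 < W := by
    rw [hW]
    linarith only [hO0, hS]
  have hmid := nu_mid_le hD h hk hpk hsl u
  have h1 : P * (Real.exp (-(1 / 32)) / W) ≤ 8 / 5 := by
    refine le_trans ?_ (h.hi u)
    rw [hP, sum_mul]
    unfold col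
    refine le_trans (sum_le_sum fun u' hu' => ?_) (sum_le_sum_of_subset_of_nonneg
      (filter_subset (fun u' => D u u' ≤ 1 / 4) univ) fun u' _ _ =>
        div_nonneg (mul_nonneg (h.hp u') (kern_pos u' u).le) (SS_pos h.hν u').le)
    have hd : D u u' ≤ 1 / 4 := (mem_filter.1 hu').2
    have hd' : D u' u ≤ 1 / 4 := by rwa [hD.symm u' u]
    have hS' := SS_pos (D := D) h.hν u'
    have hk' : Real.exp (-(1 / 32)) ≤ kern D u' u := by
      unfold kern
      apply Real.exp_le_exp.2
      have := phi_quarter (hD.nonneg u' u) hd'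
      linarith only [this]
    have hr : SS D ν u' ≤ W := by
      refine (SS_near hD h hk hpk hsl u u' hd).trans ?_
      rw [hW]
      linarith only [hmid]
    rw [mul_div_assoc]
    refine mul_le_mul_of_nonneg_left ?_ (h.hp u')
    exact div_le_div₀ (kern_pos _ _).le hk' hS' hr
  have hexp : Real.exp (1 / 32) ≤ 1 + 1 / 32 * (33 / 32) := by
    have := k4_exp_sub_one_le (x := 1 / 32) (by norm_num) (by norm_num)
    linarith only [this]
  have hprod : Real.exp (1 / 32) * Real.exp (-(1 / 32)) = 1 := by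
    rw [← Real.exp_add]; simp
  have h5 : P * Real.exp (-(1 / 32)) ≤ 8 / 5 * W := by
    rw [← mul_div_assoc, div_le_iff₀ hWp] at h1
    exact h1
  have h6 : P ≤ (1 + 1 / 32 * (33 / 32)) * (8 / 5 * W) := by
    calc P = Real.exp (1 / 32) * (P * Real.exp (-(1 / 32))) := by
          rw [mul_comm P, ← mul_assoc, hprod, one_mul]
      _ ≤ Real.exp (1 / 32) * (8 / 5 * W) := mul_le_mul_of_nonneg_left h5 (Real.exp_pos _).le
      _ ≤ _ := mul_le_mul_of_nonneg_right hexp (by linarith only [hWp])
  rw [hW] at h6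
  linarith only [h6, hSe, hO0, hS]

/-- overlap of distant users -/
theorem TT_far (hD : PM D) (h : Bal D p ν) (hk : 1 ≤ k) (hpk : ∑ x, p x ≤ k)
    (hsl : Real.log (1 / tau k) ≤ slp) (u u' : X) (hu : 16 < D u u') :
    TT D ν u u' ≤ 1 / k * Real.exp (-(D u u' / 2)) := by
  have hk0 : 0 < k := by linarith only [hk]
  have hS := SS_ge (D := D) h.hν u
  have hS' := SS_ge (D := D) h.hν u'
  have hSp := SS_pos (D := D) h.hν u
  have hSp' := SS_pos (D := D) h.hν u'
  have hs1 := one_le_slp
  set E := Real.exp (1 / 2 - D u u' / 2 - 4 * (slp - 1)) with hE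
  have hEp : 0 < E := Real.exp_pos _
  have hfar : ∀ x c : X, D u u' / 2 ≤ D x c → kern D x c ≤ E := by
    intro x c hx
    unfold kern
    rw [hE]
    apply Real.exp_le_exp.2
    have e1 := phi_ge_steep (t := D x c)
    have e2 : (slp - 1) * 4 ≤ (slp - 1) * (D x c - 7 / 2) :=
      mul_le_mul_of_nonneg_left (by linarith only [hu, hx]) (by linarith only [hs1])
    linarith only [e1, e2, hx]
  have hprod : ∀ c, kern D u c * kern D u' c ≤ E := by
    intro c
    have h1 := kern_le_one hD u c
    have h2 := kern_le_one hD u' c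
    have h3 := (kern_pos (D := D) u c).le
    have h4 := (kern_pos (D := D) u' c).le
    have ht := hD.tri u c u'
    rw [hD.symm c u'] at ht
    rcases le_total (D u u' / 2) (D u c) with h5 | h5
    · have h6 := hfar u c h5
      calc kern D u c * kern D u' c ≤ E * 1 := mul_le_mul h6 h2 h4 hEp.le
        _ = E := mul_one E
    · have h6 := hfar u' c (by linarith only [h5, ht])
      calc kern D u c * kern D u' c ≤ 1 * E := mul_le_mul h1 h6 h4 zero_le_one
        _ = E := one_mul E
  have hν := sum_nu_le h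
  have h8 : ∑ c, ν c ≤ 5 / 2 * k := by linarith only [hν, hpk]
  have h9 : ∑ c, ν c * kern D u c * kern D u' c ≤ 5 / 2 * k * E := by
    calc ∑ c, ν c * kern D u c * kern D u' c ≤ ∑ c, ν c * E := by
          refine sum_le_sum fun c _ => ?_
          rw [mul_assoc]
          exact mul_le_mul_of_nonneg_left (hprod c) (h.hν c)
      _ = (∑ c, ν c) * E := by rw [sum_mul]
      _ ≤ 5 / 2 * k * E := mul_le_mul_of_nonneg_right h8 hEp.le
  have h10 : TT D ν u u' ≤ 1000 * k * E := by
    unfold TT
    rw [← sum_div]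
    calc (∑ c, ν c * kern D u c * kern D u' c) / (SS D ν u * SS D ν u')
        ≤ (5 / 2 * k * E) / (e0 * e0) :=
          div_le_div₀ (by positivity) h9 (mul_pos k5_e0_pos k5_e0_pos)
            (mul_le_mul hS hS' k5_e0_pos.le hSp.le)
      _ = 1000 * k * E := by
          unfold e0
          ring
  refine h10.trans ?_
  have hsl' := s4_exp_slp hk hsl
  have hE2 : E = Real.exp (9 / 2) * Real.exp (-slp) ^ 4 * Real.exp (-(D u u' / 2)) := by
    rw [hE, ← Real.exp_nat_mul, ← Real.exp_add, ← Real.exp_add]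
    congr 1
    push_cast
    ring
  have hE3 : Real.exp (9 / 2) ≤ 243 := by
    have e1 : Real.exp (9 / 2) ≤ Real.exp 5 := Real.exp_le_exp.2 (by norm_num)
    have e2 : Real.exp 5 = Real.exp 1 ^ 5 := by
      rw [← Real.exp_nat_mul]; norm_num
    have e3 : Real.exp 1 ^ 5 ≤ 3 ^ 5 := by
      refine pow_le_pow_left₀ (Real.exp_pos _).le ?_ 5
      have := Real.exp_one_lt_d9
      linarith only [this]
    rw [e2] at e1
    refine e1.trans (e3.trans ?_)
    norm_num
  have hE4 : Real.exp (-slp) ^ 4 ≤ (1 / (2000 * k)) ^ 4 :=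
    pow_le_pow_left₀ (Real.exp_pos _).le hsl' 4
  have hE5 : 1000 * k * (243 * (1 / (2000 * k)) ^ 4) ≤ 1 / k := by
    have e1 : 1000 * k * (243 * (1 / (2000 * k)) ^ 4) = (243000 / 16000000000000) * (1 / k ^ 3) := by
      field_simp
      norm_num
    have e2 : 1 / k ^ 3 ≤ 1 / k := by
      apply one_div_le_one_div_of_le hk0
      calc k = k ^ 1 := (pow_one k).symm
        _ ≤ k ^ 3 := pow_le_pow_right₀ hk (by norm_num)
    have e3 : 0 < 1 / k ^ 3 := by positivity
    rw [e1]
    linarith only [e2, e3]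
  rw [hE2]
  have hx := Real.exp_pos (-(D u u' / 2))
  calc 1000 * k * (Real.exp (9 / 2) * Real.exp (-slp) ^ 4 * Real.exp (-(D u u' / 2)))
      ≤ 1000 * k * (243 * (1 / (2000 * k)) ^ 4 * Real.exp (-(D u u' / 2))) := by
        refine mul_le_mul_of_nonneg_left (mul_le_mul_of_nonneg_right ?_ hx.le) (by positivity)
        exact mul_le_mul hE3 hE4 (by positivity) (by norm_num)
    _ = 1000 * k * (243 * (1 / (2000 * k)) ^ 4) * Real.exp (-(D u u' / 2)) := by ring
    _ ≤ 1 / k * Real.exp (-(D u u' / 2)) := mul_le_mul_of_nonneg_right hE5 hx.le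

end Vale.Agent.P304.Stp

/-! sums over the scales -/

namespace Vale.Agent.P304.Stp

open Vale.Agent.P304.Dyn

variable [StP]

variable {X : Type} [MetricSpace X] [Fintype X] [DecidableEq X]

/-- one scale -/
theorem gg_one {r0 : ℝ} (hr : 0 < r0) (l : ℕ) {p ν : X → ℝ} {k : ℝ} (hk : 1 ≤ k)
    (hsl : Real.log (1 / tau k) ≤ slp)
    (hpk : ∑ x, p x ≤ k) (h : Bal (Dl r0 l) p ν) (u : X) :
    gg (Dl r0 l) p ν u
      ≤ ∑ u' ∈ univ.filter (fun u' => u' ≠ u), (8 * (p u' / ssB p u (dist u u'))) *
          (if dist u u' / r0 / 2 ^ l ≤ 1 / 4 then dist u u' / r0 / 2 ^ l else 0)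
        + 16 * (Real.log (ssB p u (r0 / 4 * 2 ^ (l + 6))) - Real.log (ssB p u (r0 / 4 * 2 ^ l)))
        + ∑ u', (p u' / k) *
          (if (8 : ℝ) < dist u u' / (2 * r0) / 2 ^ l
            then Real.exp (-(dist u u' / (2 * r0) / 2 ^ l)) else 0) := by
  have hD := Dl_pm (X := X) hr l
  have hR : 0 < r0 * 2 ^ l := by positivity
  have he : 0 < e0 := by norm_num [e0]
  have hk0 : 0 < k := by linarith only [hk]
  have hS := SS_pos (D := Dl r0 l) h.hν u
  have hdl : ∀ u' : X, dist u u' / r0 / 2 ^ l = Dl r0 l u u' := fun u' => by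
    unfold Dl; rw [div_div]
  have hdl2 : ∀ u' : X, dist u u' / (2 * r0) / 2 ^ l = Dl r0 l u u' / 2 := fun u' => by
    unfold Dl
    field_simp
  set B0 := ssB p u (r0 / 4 * 2 ^ l) with hB0
  set B1 := ssB p u (r0 / 4 * 2 ^ (l + 6)) with hB1
  have hB0p : 0 < B0 := lt_of_lt_of_le he (ssB_ge h.hp u _)
  have hB01 : B0 ≤ B1 := by
    refine ssB_mono h.hp u ?_
    refine mul_le_mul_of_nonneg_left ?_ (by (clear * - hr; positivity))
    exact pow_le_pow_right₀ (by norm_num) (by omega)
  have hB1p : 0 < B1 := lt_of_lt_of_le hB0p hB01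
  have hlog0 : 0 ≤ Real.log B1 - Real.log B0 := sub_nonneg.2 (Real.log_le_log hB0p hB01)
  -- the annulus
  have i1 : ∀ x, dist u x ≤ r0 / 4 * 2 ^ l ↔ Dl r0 l u x ≤ 1 / 4 := by
    intro x
    unfold Dl
    rw [div_le_iff₀ hR]
    constructor <;> intro h5 <;> linarith only [h5]
  have i2 : ∀ x, dist u x ≤ r0 / 4 * 2 ^ (l + 6) ↔ Dl r0 l u x ≤ 16 := by
    intro x
    unfold Dl
    rw [div_le_iff₀ hR]
    have : r0 / 4 * 2 ^ (l + 6) = 16 * (r0 * 2 ^ l) := by
      rw [pow_add]; ring
    rw [this]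
  have hsum : ∑ u' ∈ univ.filter (fun u' => 1 / 4 < Dl r0 l u u' ∧ Dl r0 l u u' ≤ 16), p u'
      = B1 - B0 := by
    have hb : B1 - B0 = ∑ x, ((if dist u x ≤ r0 / 4 * 2 ^ (l + 6) then p x else 0)
        - (if dist u x ≤ r0 / 4 * 2 ^ l then p x else 0)) := by
      rw [sum_sub_distrib, ← sum_filter, ← sum_filter, hB1, hB0]
      unfold ssB
      ring
    rw [hb, sum_filter]
    refine sum_congr rfl fun x _ => ?_
    rcases le_or_gt (Dl r0 l u x) (1 / 4) with h1 | h1
    · rw [if_neg (by intro h2; linarith only [h1, h2.1]), if_pos ((i2 x).2 (by linarith only [h1])),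
        if_pos ((i1 x).2 h1)]
      ring
    · rcases le_or_gt (Dl r0 l u x) 16 with h2 | h2
      · rw [if_pos ⟨h1, h2⟩, if_pos ((i2 x).2 h2), if_neg (fun h3 => by linarith only [h1, (i1 x).1 h3])]
        ring
      · rw [if_neg (by intro h3; linarith only [h2, h3.2]), if_neg (fun h3 => by linarith only [h2, (i2 x).1 h3]),
          if_neg (fun h3 => by linarith only [h2, (i1 x).1 h3])]
        ring
  have hball0 : e0 + ∑ u' ∈ univ.filter (fun u' => Dl r0 l u u' ≤ 1 / 4), p u' = B0 := by
    rw [hB0]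
    unfold ssB
    congr 1
    refine sum_congr (filter_congr fun x _ => (i1 x).symm) fun _ _ => rfl
  have hball := ball_le' hD h hk hpk hsl u
  rw [hsum, hball0] at hball
  -- the three parts
  set G : X → ℝ := fun u' => p u' * min 1 (Dl r0 l u u') * TT (Dl r0 l) ν u u' with hG
  have hG0 : ∀ u', 0 ≤ G u' := fun u' => mul_nonneg (mul_nonneg (h.hp u')
    (le_min zero_le_one (hD.nonneg u u'))) (TT_nonneg h.hν u u')
  have hsmall0 : 0 ≤ ∑ u' ∈ univ.filter (fun u' => u' ≠ u), (8 * (p u' / ssB p u (dist u u'))) *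
          (if dist u u' / r0 / 2 ^ l ≤ 1 / 4 then dist u u' / r0 / 2 ^ l else 0) := by
    refine sum_nonneg fun u' _ => mul_nonneg (mul_nonneg (by norm_num)
      (div_nonneg (h.hp u') (he.le.trans (ssB_ge h.hp u _)))) ?_
    split_ifs
    · rw [hdl]; exact hD.nonneg u u'
    · exact le_rfl
  have hfar0 : 0 ≤ ∑ u', (p u' / k) *
          (if (8 : ℝ) < dist u u' / (2 * r0) / 2 ^ l
            then Real.exp (-(dist u u' / (2 * r0) / 2 ^ l)) else 0) := by
    refine sum_nonneg fun u' _ => mul_nonneg (div_nonneg (h.hp u') hk0.le) ?_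
    split_ifs
    · exact (Real.exp_pos _).le
    · exact le_rfl
  have hlogx : Real.log B1 - Real.log B0 = Real.log (B1 / B0) := by
    rw [Real.log_div hB1p.ne' hB0p.ne']
  rcases le_or_gt (B1 - B0) (B0 / 2) with hcase | hcase
  · -- small growth
    have hSB : B0 ≤ 8 * SS (Dl r0 l) ν u := by linarith only [hball, hcase, hS]
    have hinv : 1 / SS (Dl r0 l) ν u ≤ 8 / B0 := by
      rw [div_le_div_iff₀ hS hB0p]
      linarith only [hSB]
    have hsplit : gg (Dl r0 l) p ν u
        = ∑ u', (if Dl r0 l u u' ≤ 1 / 4 then G u' else 0)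
          + ∑ u', (if 1 / 4 < Dl r0 l u u' ∧ Dl r0 l u u' ≤ 16 then G u' else 0)
          + ∑ u', (if (16 : ℝ) < Dl r0 l u u' then G u' else 0) := by
      rw [← sum_add_distrib, ← sum_add_distrib]
      unfold gg
      refine sum_congr rfl fun u' _ => ?_
      show G u' = _
      rcases le_or_gt (Dl r0 l u u') (1 / 4) with h1 | h1
      · rw [if_pos h1, if_neg (by intro h2; linarith only [h1, h2.1]), if_neg (by linarith only [h1])]
        ring
      · rcases le_or_gt (Dl r0 l u u') 16 with h2 | h2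
        · rw [if_neg (by linarith only [h1]), if_pos ⟨h1, h2⟩, if_neg (by linarith only [h2])]
          ring
        · rw [if_neg (by linarith only [h2]), if_neg (by intro h3; linarith only [h2, h3.2]), if_pos h2]
          ring
    rw [hsplit]
    refine add_le_add (add_le_add ?_ ?_) ?_
    · -- small distances
      rw [sum_filter]
      refine sum_le_sum fun u' _ => ?_
      rw [hdl]
      by_cases hu : u' = u
      · subst hu
        have h0 : Dl r0 l u' u' = 0 := hD.self u'
        have hz : G u' = 0 := by simp only [hG, h0, zero_le_one, inf_of_le_right, mul_zero, zero_mul]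
        rw [hz]; simp only [one_div, ite_self, ne_eq, not_true_eq_false, ↓reduceIte, Std.le_refl]
      · rw [if_pos hu]
        by_cases h1 : Dl r0 l u u' ≤ 1 / 4
        · rw [if_pos h1, if_pos h1]
          have hd0 := hD.nonneg u u'
          have h2 : TT (Dl r0 l) ν u u' ≤ 8 / ssB p u (dist u u') := by
            refine (TT_le hD h.hν u u').trans (hinv.trans ?_)
            refine div_le_div_of_nonneg_left (by norm_num)
              (lt_of_lt_of_le he (ssB_ge h.hp u _)) ?_
            exact ssB_mono h.hp u ((i1 u').2 h1)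
          have h3 : min 1 (Dl r0 l u u') ≤ Dl r0 l u u' := min_le_right _ _
          calc G u' ≤ p u' * Dl r0 l u u' * (8 / ssB p u (dist u u')) := by
                refine mul_le_mul (mul_le_mul_of_nonneg_left h3 (h.hp u')) h2
                  (TT_nonneg h.hν u u') (mul_nonneg (h.hp u') hd0)
            _ = _ := by ring
        · rw [if_neg h1, if_neg h1, mul_zero]
    · -- middle distances
      have hM2 : ∑ u', (if 1 / 4 < Dl r0 l u u' ∧ Dl r0 l u u' ≤ 16 then G u' else 0)
          ≤ 8 * ((B1 - B0) / B0) := by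
        rw [← hsum, sum_filter, sum_div, mul_sum]
        refine sum_le_sum fun u' _ => ?_
        split_ifs with h1
        · have h2 : TT (Dl r0 l) ν u u' ≤ 8 / B0 := (TT_le hD h.hν u u').trans hinv
          have h3 : min 1 (Dl r0 l u u') ≤ 1 := min_le_left _ _
          calc G u' ≤ p u' * 1 * (8 / B0) := by
                refine mul_le_mul (mul_le_mul_of_nonneg_left h3 (h.hp u')) h2
                  (TT_nonneg h.hν u u') (mul_nonneg (h.hp u') zero_le_one)
            _ = _ := by ring
        · simp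
      refine hM2.trans ?_
      rw [hlogx]
      have hx0 : 0 ≤ (B1 - B0) / B0 := div_nonneg (by linarith only [hB01]) hB0p.le
      have hx1 : (B1 - B0) / B0 ≤ 1 / 2 := by
        rw [div_le_iff₀ hB0p]
        linarith only [hcase]
      have hx2 : B1 / B0 = 1 + (B1 - B0) / B0 := by
        field_simp
        ring
      rw [hx2]
      have h4 := log_one_add_ge hx0
      nlinarith only [h4, hx0, hx1]
    · -- large distances
      refine sum_le_sum fun u' _ => ?_
      rw [hdl2]
      by_cases h1 : (16 : ℝ) < Dl r0 l u u'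
      · rw [if_pos h1, if_pos (by linarith only [h1])]
        have h2 := TT_far hD h hk hpk hsl u u' h1
        have h5 : min 1 (Dl r0 l u u') ≤ 1 := min_le_left _ _
        calc G u' ≤ p u' * 1 * (1 / k * Real.exp (-(Dl r0 l u u' / 2))) := by
              refine mul_le_mul (mul_le_mul_of_nonneg_left h5 (h.hp u')) h2
                (TT_nonneg h.hν u u') (mul_nonneg (h.hp u') zero_le_one)
          _ = _ := by ring
      · rw [if_neg h1, if_neg (by intro h2; exact h1 (by linarith only [h2])), mul_zero]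
  · -- large growth
    have h1 := gg_le hD h u
    have h2 : 8 / 5 ≤ 16 * (Real.log B1 - Real.log B0) := by
      rw [hlogx]
      have hx2 : (3 : ℝ) / 2 ≤ B1 / B0 := by
        rw [le_div_iff₀ hB0p]
        linarith only [hcase]
      have h3 : 1 - (B1 / B0)⁻¹ ≤ Real.log (B1 / B0) :=
        Real.one_sub_inv_le_log_of_pos (div_pos hB1p hB0p)
      have h4 : (B1 / B0)⁻¹ ≤ ((3 : ℝ) / 2)⁻¹ := inv_anti₀ (by norm_num) hx2
      have h5 : ((3 : ℝ) / 2)⁻¹ = 2 / 3 := by norm_num
      linarith only [h3, h4, h5]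
    linarith only [h1, h2, hsmall0, hfar0]

/-- bound for the sum over all scales of `slp * g` -/
noncomputable def Gk (k : ℝ) : ℝ := slp * (500 * (1 + Real.log k))

theorem sum_gg_le {r0 : ℝ} (hr : 0 < r0) (n : ℕ) {p : X → ℝ} {ν : Fin n → X → ℝ} {k : ℝ}
    (hk : 1 ≤ k) (hsl : Real.log (1 / tau k) ≤ slp) (hpk : ∑ x, p x ≤ k)
    (h : ∀ l : Fin n, Bal (Dl r0 l) p (ν l)) (u : X) :
    ∑ l : Fin n, gg (Dl r0 l) p (ν l) u ≤ 500 * (1 + Real.log k) := by
  have hlk : 0 ≤ Real.log k := Real.log_nonneg hk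
  rcases Nat.eq_zero_or_pos n with hn | hn
  · subst hn
    simp only [univ_eq_empty, sum_empty]
    positivity
  have hp : ∀ x, 0 ≤ p x := (h ⟨0, hn⟩).hp
  have he : 0 < e0 := by norm_num [e0]
  have hk0 : 0 < k := by linarith only [hk]
  have h1 : ∑ l : Fin n, gg (Dl r0 l) p (ν l) u ≤ ∑ l : Fin n,
      (∑ u' ∈ univ.filter (fun u' => u' ≠ u), (8 * (p u' / ssB p u (dist u u'))) *
          (if dist u u' / r0 / 2 ^ (l : ℕ) ≤ 1 / 4 then dist u u' / r0 / 2 ^ (l : ℕ) else 0)
        + 16 * (Real.log (ssB p u (r0 / 4 * 2 ^ ((l : ℕ) + 6)))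
            - Real.log (ssB p u (r0 / 4 * 2 ^ (l : ℕ))))
        + ∑ u', (p u' / k) *
          (if (8 : ℝ) < dist u u' / (2 * r0) / 2 ^ (l : ℕ)
            then Real.exp (-(dist u u' / (2 * r0) / 2 ^ (l : ℕ))) else 0)) :=
    sum_le_sum fun l _ => gg_one hr l hk hsl hpk (h l) u
  refine h1.trans ?_
  rw [Fin.sum_univ_eq_sum_range (fun l : ℕ =>
      (∑ u' ∈ univ.filter (fun u' => u' ≠ u), (8 * (p u' / ssB p u (dist u u'))) *
          (if dist u u' / r0 / 2 ^ l ≤ 1 / 4 then dist u u' / r0 / 2 ^ l else 0)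
        + 16 * (Real.log (ssB p u (r0 / 4 * 2 ^ (l + 6)))
            - Real.log (ssB p u (r0 / 4 * 2 ^ l)))
        + ∑ u', (p u' / k) *
          (if (8 : ℝ) < dist u u' / (2 * r0) / 2 ^ l
            then Real.exp (-(dist u u' / (2 * r0) / 2 ^ l)) else 0))) n,
    sum_add_distrib, sum_add_distrib]
  set L : ℝ := Real.log ((k + e0) / e0) with hL
  -- small distances
  have hA2 : ∑ l ∈ range n, ∑ u' ∈ univ.filter (fun u' => u' ≠ u),
      (8 * (p u' / ssB p u (dist u u'))) *
        (if dist u u' / r0 / 2 ^ l ≤ 1 / 4 then dist u u' / r0 / 2 ^ l else 0)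
      ≤ 4 * L := by
    rw [sum_comm]
    calc ∑ u' ∈ univ.filter (fun u' => u' ≠ u), ∑ l ∈ range n,
          (8 * (p u' / ssB p u (dist u u'))) *
            (if dist u u' / r0 / 2 ^ l ≤ 1 / 4 then dist u u' / r0 / 2 ^ l else 0)
        ≤ ∑ u' ∈ univ.filter (fun u' => u' ≠ u), 4 * (p u' / ssB p u (dist u u')) := by
          refine sum_le_sum fun u' _ => ?_
          rw [← mul_sum]
          have h2 := ss_geo1 (a := dist u u' / r0) (c := 1 / 4) (by (clear * - hr; positivity)) (by norm_num) n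
          have h3 : 0 ≤ min (1 / 4 : ℝ) (dist u u' / r0 / 2 ^ n) :=
            le_min (by norm_num) (by (clear * - hr; positivity))
          have h4 : 0 ≤ 8 * (p u' / ssB p u (dist u u')) :=
            mul_nonneg (by norm_num) (div_nonneg (hp u') (he.le.trans (ssB_ge hp u _)))
          have h5 := mul_le_mul_of_nonneg_left (h2.trans
            (show 2 * (1 / 4 : ℝ) - 2 * min (1 / 4) (dist u u' / r0 / 2 ^ n) ≤ 1 / 2 by
              linarith only [h3])) h4
          refine h5.trans (le_of_eq ?_)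
          ring
      _ = 4 * ∑ u' ∈ univ.filter (fun u' => u' ≠ u), p u' / ssB p u (dist u u') := by
          rw [mul_sum]
      _ ≤ 4 * L :=
          mul_le_mul_of_nonneg_left (sum_div_ball_le p hp hpk u) (by norm_num)
  -- annuli
  have hA1 : ∑ l ∈ range n, 16 * (Real.log (ssB p u (r0 / 4 * 2 ^ (l + 6)))
      - Real.log (ssB p u (r0 / 4 * 2 ^ l))) ≤ 16 * (6 * L) := by
    rw [← mul_sum]
    refine mul_le_mul_of_nonneg_left ?_ (by norm_num)
    have h2 := ss_shift (fun i => Real.log (ssB p u (r0 / 4 * 2 ^ i))) (Real.log e0)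
      (Real.log (k + e0)) (fun i => Real.log_le_log he (ssB_ge hp u _))
      (fun i => Real.log_le_log (lt_of_lt_of_le he (ssB_ge hp u _)) (ssB_le hp hpk u _)) n 6
    rw [← Real.log_div (by positivity) he.ne'] at h2
    norm_num at h2 ⊢
    exact h2
  -- far
  have hB : ∑ l ∈ range n, ∑ u', (p u' / k) *
      (if (8 : ℝ) < dist u u' / (2 * r0) / 2 ^ l
        then Real.exp (-(dist u u' / (2 * r0) / 2 ^ l)) else 0) ≤ 1 := by
    rw [sum_comm]
    have hJe : Real.exp (-(8 : ℝ)) ≤ 1 / 2 := by
      have h3 : (8 : ℝ) + 1 ≤ Real.exp 8 := Real.add_one_le_exp 8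
      rw [Real.exp_neg, ← one_div]
      exact one_div_le_one_div_of_le (by norm_num) (by linarith only [h3])
    calc ∑ u', ∑ l ∈ range n, (p u' / k) *
          (if (8 : ℝ) < dist u u' / (2 * r0) / 2 ^ l
            then Real.exp (-(dist u u' / (2 * r0) / 2 ^ l)) else 0)
        ≤ ∑ u', (p u' / k) * (2 * (1 / 2)) := by
          refine sum_le_sum fun u' _ => ?_
          rw [← mul_sum]
          refine mul_le_mul_of_nonneg_left ?_ (div_nonneg (hp u') hk0.le)
          refine (ss_geo3 (a := dist u u' / (2 * r0)) (K := (8 : ℝ)) (by norm_num) n).trans ?_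
          refine mul_le_mul_of_nonneg_left (le_trans ?_ hJe) (by norm_num)
          exact Real.exp_le_exp.2 (neg_le_neg (le_max_left _ _))
      _ = (∑ u', p u') / k := by
          rw [sum_div]
          refine sum_congr rfl fun u' _ => ?_
          ring
      _ ≤ 1 := by rw [div_le_one hk0]; exact hpk
  -- final arithmetic
  have hLle : L ≤ 4 + Real.log k := by
    have h2 : (k + e0) / e0 ≤ 21 * k := by
      rw [div_le_iff₀ he]
      unfold e0
      linarith only [hk]
    have h3 : L ≤ Real.log (21 * k) := Real.log_le_log (by (clear * - hk he; positivity)) h2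
    rw [Real.log_mul (by norm_num) hk0.ne'] at h3
    have h4 : Real.log 21 ≤ 4 := by
      have h5 : Real.log 21 ≤ Real.log 32 := Real.log_le_log (by norm_num) (by norm_num)
      have h6 : Real.log 32 = 5 * Real.log 2 := by
        rw [show (32 : ℝ) = 2 ^ 5 by norm_num, Real.log_pow]; norm_num
      have h7 := Real.log_two_lt_d9
      linarith only [h5, h6, h7]
    linarith only [h3, h4]
  linarith only [hA2, hA1, hB, hLle, hlk]

theorem sum_gs_le {r0 : ℝ} (hr : 0 < r0) (n : ℕ) {p : X → ℝ} {ν : Fin n → X → ℝ} {k : ℝ}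
    (hk : 1 ≤ k) (hsl : Real.log (1 / tau k) ≤ slp) (hpk : ∑ x, p x ≤ k)
    (h : ∀ l : Fin n, Bal (Dl r0 l) p (ν l)) (u : X) :
    ∑ l : Fin n, gs (Dl r0 l) p (ν l) u ≤ Gk k := by
  unfold gs Gk
  rw [← mul_sum]
  exact mul_le_mul_of_nonneg_left (sum_gg_le hr n hk hsl hpk h u) slp_pos.le

theorem gs_nonneg {D : X → X → ℝ} {p ν : X → ℝ} (hD : PM D) (h : Bal D p ν) (u : X) :
    0 ≤ gs D p ν u :=
  mul_nonneg slp_pos.le (gg_nonneg hD h u)

/-- geometric sum: large scales, in units of the slope -/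
theorem sum_scale_sq_le' {r0 δ : ℝ} (hr : 0 < r0) (hδ : 0 ≤ δ) (n : ℕ) :
    ∑ l : Fin n, (r0 * 2 ^ (l : ℕ)) *
      (if slp * (δ / (r0 * 2 ^ (l : ℕ))) ≤ 1 / 32 then slp * (δ / (r0 * 2 ^ (l : ℕ))) ^ 2 else 0)
        ≤ slp * δ / 8 := by
  have hs1 := one_le_slp
  have hs0 := slp_pos
  refine le_trans (sum_le_sum fun l _ => ?_) (sum_scale_sq_le hr (mul_nonneg hs0.le hδ) n)
  have hR : 0 < r0 * 2 ^ (l : ℕ) := by positivity
  refine mul_le_mul_of_nonneg_left ?_ hR.le
  rw [mul_div_assoc]
  split_ifs with h1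
  · have e1 : (slp * (δ / (r0 * 2 ^ (l : ℕ)))) ^ 2 =
        slp * (slp * (δ / (r0 * 2 ^ (l : ℕ))) ^ 2) := by ring
    rw [e1]
    exact le_mul_of_one_le_left (mul_nonneg hs0.le (sq_nonneg _)) hs1
  · exact le_rfl

/-- geometric sum: small scales, in units of the slope -/
theorem sum_scale_small_le' {r0 δ : ℝ} (hr : 0 < r0) (hδ : 0 ≤ δ) (n : ℕ) :
    ∑ l : Fin n, (if slp * (δ / (r0 * 2 ^ (l : ℕ))) ≤ 1 / 32 then 0 else r0 * 2 ^ (l : ℕ)) ≤
      64 * (slp * δ) := by
  have h := sum_scale_small_le hr (mul_nonneg slp_pos.le hδ) n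
  simpa only [mul_div_assoc] using h

end Vale.Agent.P304.Stp
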