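import Vale.Agent.P304.Stp.S4

set_option linter.all false

section

section

/-!
# P304: the world (all scales), states, addresses, places
-/

open Finset

namespace Vale.Agent.P304.Stp

open Vale.Agent.P304.Dyn

variable [StP]

/-- data of the construction: `n` scales `r0 * 2^l`, `M` tracks, tokens indexed by `J` -/
structure World (X : Type) [MetricSpace X] [Fintype X] where
  /-- number of servers -/
  k : ℝ
  hk : 1 ≤ k
  /-- number of scales -/
  n : ℕ
  hn : 1 ≤ n
  /-- smallest scale -/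
  r0 : ℝ
  hr0 : 0 < r0
  /-- root location -/
  x0 : X
  /-- number of tracks -/
  M : ℕ
  hM : 8 * k ≤ M
  hM2 : (M : ℝ) ≤ 9 * k
  bot : ∀ u v : X, u ≠ v → RR k * r0 < dist u v
  hsl : Real.log (1 / tau k) ≤ slp
  top : ∀ u v : X, dist u v ≤ r0 * 2 ^ n

variable {X J : Type} [MetricSpace X] [Fintype X] [DecidableEq X] [Fintype J] [DecidableEq J]

namespace World

variable (Wd : World X)

/-- the scale of level `l` -/
noncomputable def r (l : ℕ) : ℝ := Wd.r0 * 2 ^ l

/-- level of a node of depth `m` (`1 ≤ m ≤ n`): `n - m` -/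
def lv (m : ℕ) : Fin Wd.n := ⟨(Wd.n - m) % Wd.n, Nat.mod_lt _ Wd.hn⟩

/-- weight of a node of depth `m` -/
noncomputable def rho (m : ℕ) : ℝ := 6 * RR Wd.k * Wd.r (Wd.n - m)

/-- price parameters of the tracks -/
noncomputable def lam : ℝ := 1 / (16 * Real.log (Wd.M + 2))

/-- weight of a label change at level `l` -/
noncomputable def wt (l : ℕ) : ℝ := 24 * RR Wd.k * Wd.r l

end World

/-- the state: tokens at every level, and for every order `π` the tracks -/
structure St (Wd : World X) (J : Type) [Fintype J] (B : ℕ) where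
  x : Fin Wd.n → Conf X J
  y : Dyn.Ord (GG Wd.n J B) → Fin Wd.M → List J

variable {Wd : World X} {η : ℝ}

/-- the label of `u` at level `l` -/
noncomputable def labS (P : LPar η Wd.k J) (x : Fin Wd.n → Conf X J) (π : Dyn.Ord (GG Wd.n J P.B))
    (l : Fin Wd.n) (u : X) : Option J :=
  lab Wd.k P.Q P.Ne (Dl Wd.r0 l) π l (x l) u

/-- the list of the labels at the top `d` levels, cut at the first null label (deepest first) -/
noncomputable def adAux (P : LPar η Wd.k J) (x : Fin Wd.n → Conf X J) (π : Dyn.Ord (GG Wd.n J P.B))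
    (u : X) : ℕ → List J
  | 0 => []
  | d + 1 =>
    if (adAux P x π u d).length = d then
      match labS P x π (Wd.lv (d + 1)) u with
      | some j => j :: adAux P x π u d
      | none => adAux P x π u d
    else adAux P x π u d

/-- the address of `u` -/
noncomputable def ad (P : LPar η Wd.k J) (x : Fin Wd.n → Conf X J) (π : Dyn.Ord (GG Wd.n J P.B))
    (u : X) : List J := adAux P x π u Wd.n

/-- the place of a node: the location of its last token -/
def loc (Wd : World X) (x : Fin Wd.n → Conf X J) : List J → X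
  | [] => Wd.x0
  | j :: N => (x (Wd.lv (N.length + 1)) j).1

/-- invariant of a state with respect to the posterior `p` -/
structure Inv (P : LPar η Wd.k J) (p : X → ℝ) (s : St Wd J P.B) : Prop where
  bal : ∀ l : Fin Wd.n, Bal (Dl Wd.r0 l) p (nuC η (s.x l))
  len : ∀ π i, (s.y π i).length ≤ Wd.n
  dom : ∀ π (N : List J), N ≠ [] → Wd.lam * cnt (s.y π) N ≤ pm p (ad P s.x π) N
  lf : ∀ π u, 1 ≤ p u → (ad P s.x π u).length = Wd.n ∧ ∃ i, s.y π i = ad P s.x π u

/-- tokens displaced by at most `4` scales (alive ones only) -/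
def Moved (Wd : World X) (x xd : Fin Wd.n → Conf X J) : Prop :=
  ∀ l j, xd l j = x l j ∨
    ((x l j).2 = true ∧ (xd l j).2 = true ∧ Dl Wd.r0 l (x l j).1 (xd l j).1 ≤ 4)

/-! ### costs -/

/-- physical movement of the tracks -/
noncomputable def PhC {B : ℕ} (s s' : St Wd J B) : ℝ :=
  EE fun π => ∑ i, dist (loc Wd s.x (s.y π i)) (loc Wd s'.x (s'.y π i))

/-- movement of the tracks on the tree -/
noncomputable def TrC {B : ℕ} (s s' : St Wd J B) : ℝ :=
  EE fun π => ∑ i, (dn Wd.rho (s.y π i) (s'.y π i) + dn Wd.rho (s'.y π i) (s.y π i))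

/-- address distance between `u` before and `v` after -/
noncomputable def XC (P : LPar η Wd.k J) (x x' : Fin Wd.n → Conf X J) (u v : X) : ℝ :=
  EE fun π => ∑ l : Fin Wd.n, Wd.wt l * (if labS P x π l u = labS P x' π l v then (0 : ℝ) else 1)

/-! ### potential -/

/-- total coefficient of relabellings -/
noncomputable def World.Gam (Wd : World X) : ℝ := 1 + 32 * Real.log (Wd.M + 2) ^ 2

/-- coefficient of the token potential -/
noncomputable def World.A1 (Wd : World X) : ℝ := 9600 * RR Wd.k * Wd.Gam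

/-- the potential; affine in `p` -/
noncomputable def Pot (P : LPar η Wd.k J) (p : X → ℝ) (s : St Wd J P.B) : ℝ :=
  Wd.A1 * ∑ l : Fin Wd.n, Wd.r l * FF (Dl Wd.r0 l) p (nuC η (s.x l))
    + 4 / Wd.lam * EE (fun π => pot Wd.rho Wd.lam p (ad P s.x π) (s.y π))
    + 2 * EE (fun π => ∑ i, hgt Wd.rho (s.y π i))

/-- follow constant -/
noncomputable def World.G2 (Wd : World X) : ℝ :=
  2 * (101 / Wd.lam) * (24 + 12 * RR Wd.k) * Real.log ((Wd.k + e0) / e0)
    + 16 * (1 / Wd.lam) * (1 + Real.log ((Wd.k + e0) / e0))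

/-- the constant of the `T`-step -/
noncomputable def World.CT (Wd : World X) : ℝ :=
  Wd.A1 * (600 * Gk Wd.k + 1000 * slp + 64 * slp * Real.log (60 * Wd.k))
    + 24 * RR Wd.k * Wd.Gam * (1300000 * Gk Wd.k + 64 * slp) + 130 * Wd.G2

/-- the error of one substep: `α` = total mass of the plan, `η` = mass of a token,
`q = η |J| / Q` -/
noncomputable def World.err (Wd : World X) (α η q : ℝ) : ℝ :=
  ∑ l : Fin Wd.n, Wd.r l * (Wd.A1 * (4000 * Wd.k * α ^ 2
      + (1 + Wd.k / e0) * (2 * η * (Fintype.card X : ℝ) ^ 2))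
    + 24 * RR Wd.k * Wd.Gam * (200 * α ^ 2 + 400 * Wd.k * q))

end Vale.Agent.P304.Stp
end
end

section

section

/-! S1: addresses and labels. -/

open Finset

namespace Vale.Agent.P304.Stp

open Vale.Agent.P304.Dyn

variable [StP]

variable {X J : Type} [MetricSpace X] [Fintype X] [DecidableEq X] [Fintype J] [DecidableEq J]
  {Wd : World X} {η : ℝ}

theorem adAux_length_le (P : LPar η Wd.k J) (x : Fin Wd.n → Conf X J) (π : Dyn.Ord (GG Wd.n J P.B))
    (u : X) (d : ℕ) : (adAux P x π u d).length ≤ d := by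
  induction d with
  | zero => simp only [adAux, List.length_nil, Std.le_refl]
  | succ d ih =>
    rw [adAux]
    split_ifs with h
    · split
      · simp [h]
      · omega
    · omega

theorem adAux_suffix_succ (P : LPar η Wd.k J) (x : Fin Wd.n → Conf X J)
    (π : Dyn.Ord (GG Wd.n J P.B)) (u : X) (d : ℕ) :
    adAux P x π u d <:+ adAux P x π u (d + 1) := by
  rw [adAux]
  split_ifs with h
  · split
    · exact List.suffix_cons _ _
    · exact List.suffix_rfl
  · exact List.suffix_rfl

theorem adAux_suffix (P : LPar η Wd.k J) (x : Fin Wd.n → Conf X J)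
    (π : Dyn.Ord (GG Wd.n J P.B)) (u : X) {d e : ℕ} (h : d ≤ e) :
    adAux P x π u d <:+ adAux P x π u e := by
  induction h with
  | refl => exact List.suffix_rfl
  | step _ ih => exact ih.trans (adAux_suffix_succ P x π u _)

theorem adAux_const (P : LPar η Wd.k J) (x : Fin Wd.n → Conf X J)
    (π : Dyn.Ord (GG Wd.n J P.B)) (u : X) {d e : ℕ} (h : d ≤ e)
    (hd : (adAux P x π u d).length < d) : adAux P x π u e = adAux P x π u d := by
  induction h with
  | refl => rfl
  | step hm ih =>
    rw [adAux, if_neg, ih]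
    rw [ih]
    have : d ≤ _ := hm
    (clear * - hd this; omega)

theorem ad_length_le (P : LPar η Wd.k J) (x : Fin Wd.n → Conf X J) (π : Dyn.Ord (GG Wd.n J P.B))
    (u : X) : (ad P x π u).length ≤ Wd.n := adAux_length_le P x π u _

theorem lab_of_suffix_aux (P : LPar η Wd.k J) (x : Fin Wd.n → Conf X J)
    (π : Dyn.Ord (GG Wd.n J P.B)) (u : X) (j : J) (N : List J) (d : ℕ)
    (h : (j :: N) <:+ adAux P x π u d) :
    labS P x π (Wd.lv (N.length + 1)) u = some j := by
  induction d with
  | zero =>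
    rw [adAux, List.suffix_nil] at h
    exact absurd h (List.cons_ne_nil _ _)
  | succ d ih =>
    rw [adAux] at h
    split_ifs at h with hd
    · split at h
      · rename_i j0 hj0
        rw [List.suffix_cons_iff] at h
        rcases h with h | h
        · obtain ⟨rfl, rfl⟩ := List.cons_eq_cons.mp h
          rw [hd]
          exact hj0
        · exact ih h
      · exact ih h
    · exact ih h

/-- the letters of the address are the labels -/
theorem lab_of_suffix (P : LPar η Wd.k J) (x : Fin Wd.n → Conf X J) (π : Dyn.Ord (GG Wd.n J P.B))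
    (u : X) (j : J) (N : List J) (h : (j :: N) <:+ ad P x π u) :
    labS P x π (Wd.lv (N.length + 1)) u = some j := lab_of_suffix_aux P x π u j N _ h

theorem ad_length_eq (P : LPar η Wd.k J) (x : Fin Wd.n → Conf X J) (π : Dyn.Ord (GG Wd.n J P.B))
    (u : X) (h : ∀ l, labS P x π l u ≠ none) : (ad P x π u).length = Wd.n := by
  have key : ∀ d, (adAux P x π u d).length = d := by
    intro d
    induction d with
    | zero => simp only [adAux, List.length_nil]
    | succ d ih =>
      rw [adAux, if_pos ih]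
      split
      · simp [ih]
      · rename_i h0
        exact absurd h0 (h _)
  exact key _

/-- a label of the right level extends the address -/
theorem cons_suffix_of_lab (P : LPar η Wd.k J) (x : Fin Wd.n → Conf X J)
    (π : Dyn.Ord (GG Wd.n J P.B)) (u : X) (j : J) (N : List J) (hN : N <:+ ad P x π u)
    (hn : N.length + 1 ≤ Wd.n) (h : labS P x π (Wd.lv (N.length + 1)) u = some j) :
    (j :: N) <:+ ad P x π u := by
  have hlen : (adAux P x π u N.length).length = N.length := by
    by_contra hne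
    have hlt : (adAux P x π u N.length).length < N.length :=
      lt_of_le_of_ne (adAux_length_le P x π u _) hne
    have h1 := adAux_const P x π u (show N.length ≤ Wd.n by omega) hlt
    have h2 := hN.length_le
    rw [ad, h1] at h2
    (clear * - hlt h2; omega)
  have hEq : adAux P x π u N.length = N := by
    have h1 : adAux P x π u N.length <:+ ad P x π u :=
      adAux_suffix P x π u (show N.length ≤ Wd.n by omega)
    have h2 : adAux P x π u N.length <:+ N := suffix_of_le h1 hN hlen.le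
    exact h2.eq_of_length hlen
  have h3 : adAux P x π u (N.length + 1) = j :: N := by
    rw [adAux, if_pos hlen, h]
    simp only [hEq]
  rw [← h3]
  exact adAux_suffix P x π u hn

theorem tau_le {k : ℝ} (hk : 1 ≤ k) : 2000 ≤ 1 / tau k := by
  unfold tau e0
  rw [one_div_div, le_div_iff₀ (by norm_num)]
  linarith only [hk]

/-- `RR k = 7/2 + log (2000 k)` -/
theorem RR_ge {k : ℝ} (hk : 1 ≤ k) : 11 ≤ RR k := by
  unfold RR
  norm_num

theorem rho_pos (Wd : World X) (m : ℕ) : 0 < Wd.rho m := by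
  have h1 := RR_ge Wd.hk
  have h2 := Wd.hr0
  unfold World.rho World.r
  have : 0 < RR Wd.k := by linarith only [h1]
  positivity

theorem wt_pos (Wd : World X) (l : ℕ) : 0 < Wd.wt l := by
  have h1 := RR_ge Wd.hk
  have h2 := Wd.hr0
  unfold World.wt World.r
  have : 0 < RR Wd.k := by linarith
  positivity

theorem lam_pos (Wd : World X) : 0 < Wd.lam := by
  unfold World.lam
  have h1 := Wd.hM
  have h2 := Wd.hk
  have h3 : 0 < Real.log ((Wd.M : ℝ) + 2) := Real.log_pos (by linarith only [])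
  positivity

theorem sum_two_pow_aux (n m : ℕ) (h : m < n) :
    ∑ i ∈ Icc (m + 1) n, (2 : ℝ) ^ (n - i) ≤ 2 * 2 ^ (n - (m + 1)) := by
  have h1 : ∑ i ∈ Icc (m + 1) n, (2 : ℝ) ^ (n - i) = ∑ l ∈ range (n - m), (2 : ℝ) ^ l := by
    refine sum_nbij' (fun i => n - i) (fun l => n - l) ?_ ?_ ?_ ?_ ?_
    · intro i hi
      simp only [mem_Icc] at hi
      simp only [mem_range]
      omega
    · intro l hl
      simp only [mem_range] at hl
      simp only [mem_Icc]
      omega
    · intro i hi
      simp only [mem_Icc] at hi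
      (clear * - hi; omega)
    · intro l hl
      simp only [mem_range] at hl
      omega
    · intro i _
      rfl
  rw [h1, geom_sum_eq (by norm_num)]
  have h2 : n - m = (n - (m + 1)) + 1 := by omega
  rw [h2, pow_succ]
  norm_num
  linarith only []

/-- address distance is controlled by the label changes -/
theorem dn_ad_le (P : LPar η Wd.k J) (x x' : Fin Wd.n → Conf X J) (π : Dyn.Ord (GG Wd.n J P.B))
    (u u' : X) :
    2 * dn Wd.rho (ad P x' π u') (ad P x π u) ≤
      ∑ l : Fin Wd.n, Wd.wt l * (if labS P x π l u = labS P x' π l u' then (0 : ℝ) else 1) := by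
  have hnn : ∀ l : Fin Wd.n,
      0 ≤ Wd.wt l * (if labS P x π l u = labS P x' π l u' then (0 : ℝ) else 1) := by
    intro l
    have := (wt_pos Wd l).le
    split_ifs <;> simp [this]
  by_cases hS : (sf (ad P x π u) \ sf (ad P x' π u')).Nonempty
  · obtain ⟨N0, hN0, hmin⟩ := exists_min_image _ (fun N : List J => N.length) hS
    rw [mem_sdiff, mem_sf, mem_sf] at hN0
    obtain ⟨⟨hB, hne⟩, hA⟩ := hN0
    obtain ⟨j, N, rfl⟩ := List.exists_cons_of_ne_nil hne
    have hlenB : N.length + 1 ≤ (ad P x π u).length := by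
      have := hB.length_le
      simpa only [Order.add_one_le_iff, gt_iff_lt, List.length_cons] using this
    have hn : N.length + 1 ≤ Wd.n := hlenB.trans (ad_length_le P x π u)
    have hNB : N <:+ ad P x π u := (List.suffix_cons j N).trans hB
    have hNA : N <:+ ad P x' π u' := by
      by_contra hcon
      have hN1 : N ≠ [] := by
        rintro rfl
        exact hcon List.nil_suffix
      have h1 : N ∈ sf (ad P x π u) \ sf (ad P x' π u') := by
        rw [mem_sdiff, mem_sf, mem_sf]
        exact ⟨⟨hNB, hN1⟩, fun h => hcon h.1⟩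
      have h2 := hmin N h1
      simp at h2
    have hlab := lab_of_suffix P x π u j N hB
    have hdiff : labS P x π (Wd.lv (N.length + 1)) u ≠
        labS P x' π (Wd.lv (N.length + 1)) u' := by
      intro heq
      rw [hlab] at heq
      exact hA ⟨cons_suffix_of_lab P x' π u' j N hNA hn heq.symm, hne⟩
    have hlv : ((Wd.lv (N.length + 1) : Fin Wd.n) : ℕ) = Wd.n - (N.length + 1) := by
      unfold World.lv
      exact Nat.mod_eq_of_lt (by omega)
    have hsum : dn Wd.rho (ad P x' π u') (ad P x π u) ≤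
        ∑ i ∈ Icc (N.length + 1) Wd.n, Wd.rho i := by
      unfold dn
      have hinj : Set.InjOn (fun N : List J => N.length)
          (sf (ad P x π u) \ sf (ad P x' π u') : Finset (List J)) := by
        intro a ha b hb hab
        rw [mem_coe, mem_sdiff, mem_sf] at ha hb
        have hab' : a.length = b.length := hab
        exact (suffix_of_le ha.1.1 hb.1.1 hab'.le).eq_of_length hab'
      rw [← sum_image (f := fun i => Wd.rho i) hinj]
      apply sum_le_sum_of_subset_of_nonneg
      · intro i hi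
        rw [mem_image] at hi
        obtain ⟨a, ha, rfl⟩ := hi
        have h1 := hmin a ha
        rw [mem_sdiff, mem_sf] at ha
        have h2 := ha.1.1.length_le
        have h3 := ad_length_le P x π u
        simp only [List.length_cons] at h1
        rw [mem_Icc]
        omega
      · intro i _ _
        exact (rho_pos Wd i).le
    have hsum2 : 2 * ∑ i ∈ Icc (N.length + 1) Wd.n, Wd.rho i ≤
        Wd.wt (Wd.lv (N.length + 1) : Fin Wd.n) := by
      rw [hlv]
      unfold World.rho World.wt World.r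
      rw [← mul_sum, ← mul_sum]
      have h1 := sum_two_pow_aux Wd.n N.length (by omega)
      have h2 := RR_ge Wd.hk
      have h3 := Wd.hr0
      have h4 : 0 ≤ 12 * RR Wd.k * Wd.r0 := by
        have : 0 < RR Wd.k := by linarith only [h2]
        (clear * - h2 h3; positivity)
      have h5 := mul_le_mul_of_nonneg_left h1 h4
      nlinarith only [h5]
    have hsingle := single_le_sum (f := fun l : Fin Wd.n =>
      Wd.wt l * (if labS P x π l u = labS P x' π l u' then (0 : ℝ) else 1))
      (fun l _ => hnn l) (mem_univ (Wd.lv (N.length + 1)))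
    simp only [if_neg hdiff, mul_one] at hsingle
    linarith only [hsum, hsum2, hsingle]
  · rw [not_nonempty_iff_eq_empty] at hS
    unfold dn
    rw [hS, sum_empty, mul_zero]
    exact sum_nonneg fun l _ => hnn l

end Vale.Agent.P304.Stp
end
end

section

section

/-! S2: places of nodes (section 6). -/

open Finset

namespace Vale.Agent.P304.Stp

open Vale.Agent.P304.Dyn

variable [StP]

variable {X J : Type} [MetricSpace X] [Fintype X] [DecidableEq X] [Fintype J] [DecidableEq J]
  {Wd : World X} {η : ℝ}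

omit [DecidableEq X] in
theorem s2_r_pos (l : ℕ) : 0 < Wd.r l := by
  have := Wd.hr0
  unfold World.r
  positivity

omit [DecidableEq X] in
theorem s2_lv {m : ℕ} (h1 : 1 ≤ m) : ((Wd.lv m : Fin Wd.n) : ℕ) = Wd.n - m := by
  have hn := Wd.hn
  unfold World.lv
  exact Nat.mod_eq_of_lt (by omega)

omit [DecidableEq X] in
theorem s2_r_lv {m : ℕ} (h1 : 1 ≤ m) : Wd.r (Wd.lv m) = Wd.r (Wd.n - m) := by
  rw [s2_lv h1]

omit [DecidableEq X] in
theorem s2_dist_of_Dl {l : ℕ} {u v : X} {c : ℝ} (h : Dl Wd.r0 l u v ≤ c) :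
    dist u v ≤ c * Wd.r l := by
  have h0 := s2_r_pos (Wd := Wd) l
  unfold World.r at h0
  unfold Dl at h
  rw [div_le_iff₀ h0] at h
  exact h

omit [DecidableEq X] [DecidableEq J] in
theorem s2_loc_cons (x : Fin Wd.n → Conf X J) (j : J) (N : List J) :
    loc Wd x (j :: N) = (x (Wd.lv (N.length + 1)) j).1 := rfl

/-- a point is close to the place of every node that contains it -/
theorem dist_loc_le (P : LPar η Wd.k J) (x : Fin Wd.n → Conf X J) (π : Dyn.Ord (GG Wd.n J P.B))
    (u : X) (j : J) (N : List J) (h : (j :: N) <:+ ad P x π u) :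
    (x (Wd.lv (N.length + 1)) j).2 = true ∧
      dist u (loc Wd x (j :: N)) ≤ RR Wd.k * Wd.r (Wd.lv (N.length + 1)) := by
  have h1 := lab_of_suffix P x π u j N h
  unfold labS at h1
  obtain ⟨h2, h3⟩ := lab_dist P Wd.hsl π _ _ _ _ h1
  exact ⟨h2, s2_dist_of_Dl h3⟩

/-- the place of a complete address is the point itself -/
theorem loc_full (P : LPar η Wd.k J) (x : Fin Wd.n → Conf X J) (π : Dyn.Ord (GG Wd.n J P.B))
    (u : X) (h : (ad P x π u).length = Wd.n) : loc Wd x (ad P x π u) = u := by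
  have hn := Wd.hn
  rcases hcase : ad P x π u with _ | ⟨j, N⟩
  · rw [hcase] at h
    simp only [List.length_nil] at h
    omega
  · rw [hcase] at h
    have hs : (j :: N) <:+ ad P x π u := by
      rw [hcase]
    obtain ⟨_, h2⟩ := dist_loc_le P x π u j N hs
    have h3 : N.length + 1 = Wd.n := by
      simpa only [List.length_cons] using h
    rw [s2_r_lv (by omega), h3, Nat.sub_self] at h2
    have h4 : Wd.r 0 = Wd.r0 := by
      unfold World.r
      simp
    rw [h4] at h2
    by_contra hne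
    have h5 := Wd.bot u (loc Wd x (j :: N)) (fun h => hne h.symm)
    linarith only [h2, h5]

/-- a proximal step does not move the place of a node all of whose tokens are alive -/
theorem loc_adm {x x' : Fin Wd.n → Conf X J} (hA : ∀ l, Adm (x l) (x' l)) (j : J) (N : List J)
    (h : (x (Wd.lv (N.length + 1)) j).2 = true) : loc Wd x' (j :: N) = loc Wd x (j :: N) := by
  rw [s2_loc_cons, s2_loc_cons]
  rcases hA (Wd.lv (N.length + 1)) j with h1 | ⟨_, h1⟩ | ⟨h1, _⟩
  · rw [h1]
  · rw [h1]
  · rw [h] at h1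
    exact absurd h1 (by simp)

/-- the place of a node before and after a displacement -/
theorem s2_moved {x xd : Fin Wd.n → Conf X J} (hm : Moved Wd x xd) (j : J) (N : List J)
    (h : (x (Wd.lv (N.length + 1)) j).2 = true) :
    (xd (Wd.lv (N.length + 1)) j).2 = true ∧
      dist (loc Wd x (j :: N)) (loc Wd xd (j :: N)) ≤ 4 * Wd.r (Wd.n - (N.length + 1)) := by
  have h0 := s2_r_pos (Wd := Wd) (Wd.n - (N.length + 1))
  rcases hm (Wd.lv (N.length + 1)) j with h1 | ⟨_, h2, h3⟩
  · refine ⟨by rw [h1]; exact h, ?_⟩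
    rw [s2_loc_cons, s2_loc_cons, h1, dist_self]
    positivity
  · refine ⟨h2, ?_⟩
    have h4 := s2_dist_of_Dl h3
    rw [s2_r_lv (by omega)] at h4
    exact h4

/-- distance of a point of a node to the place of the node after a step `x → xd → x'` -/
theorem s2_node (P : LPar η Wd.k J) {x xd x' : Fin Wd.n → Conf X J} (hm : Moved Wd x xd)
    (hA : ∀ l, Adm (xd l) (x' l)) (π : Dyn.Ord (GG Wd.n J P.B)) (j : J) (N : List J) (u : X)
    (h : (j :: N) <:+ ad P x π u) :
    loc Wd x' (j :: N) = loc Wd xd (j :: N) ∧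
      dist u (loc Wd x' (j :: N)) ≤ (RR Wd.k + 4) * Wd.r (Wd.n - (N.length + 1)) := by
  obtain ⟨h1, h2⟩ := dist_loc_le P x π u j N h
  obtain ⟨h3, h4⟩ := s2_moved hm j N h1
  have h5 := loc_adm hA j N h3
  refine ⟨h5, ?_⟩
  rw [s2_r_lv (by omega)] at h2
  rw [h5]
  have h6 := dist_triangle u (loc Wd x (j :: N)) (loc Wd xd (j :: N))
  linarith only [h2, h4, h6]

/-- adjacent nodes of a chain that was occupied before the step `x → xd → x'` -/
theorem adj_old (P : LPar η Wd.k J) {x xd x' : Fin Wd.n → Conf X J} (hm : Moved Wd x xd)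
    (hA : ∀ l, Adm (xd l) (x' l)) (π : Dyn.Ord (GG Wd.n J P.B)) (j : J) (N : List J) (u : X)
    (h : (j :: N) <:+ ad P x π u) :
    dist (loc Wd x' (j :: N)) (loc Wd x' N) ≤ Wd.rho (N.length + 1) := by
  have hR := RR_ge Wd.hk
  have hlen : (j :: N).length ≤ Wd.n := h.length_le.trans (ad_length_le P x π u)
  rw [List.length_cons] at hlen
  have hr := s2_r_pos (Wd := Wd) (Wd.n - (N.length + 1))
  unfold World.rho
  rcases N with _ | ⟨j', N'⟩
  · have h1 : dist (loc Wd x' [j]) (loc Wd x' []) ≤ Wd.r0 * 2 ^ Wd.n := Wd.top _ _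
    refine h1.trans ?_
    simp only [List.length_nil, zero_add] at hr ⊢
    have h2 : Wd.r0 * 2 ^ Wd.n = 2 * Wd.r (Wd.n - 1) := by
      unfold World.r
      have hn := Wd.hn
      have h3 : (2 : ℝ) ^ Wd.n = 2 ^ (Wd.n - 1) * 2 := by
        rw [← pow_succ, Nat.sub_add_cancel hn]
      rw [h3]
      ring
    rw [h2]
    nlinarith only [hr, hR]
  · have h1 := (s2_node P hm hA π j (j' :: N') u h).2
    have hs : (j' :: N') <:+ ad P x π u := (List.suffix_cons j (j' :: N')).trans h
    have h2 := (s2_node P hm hA π j' N' u hs).2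
    have h3 : Wd.r (Wd.n - (N'.length + 1)) = 2 * Wd.r (Wd.n - ((j' :: N').length + 1)) := by
      rw [List.length_cons] at hlen ⊢
      unfold World.r
      have h4 : Wd.n - (N'.length + 1) = Wd.n - (N'.length + 1 + 1) + 1 := by omega
      rw [h4, pow_succ]
      ring
    rw [h3] at h2
    have h5 := dist_triangle_left (loc Wd x' (j :: j' :: N')) (loc Wd x' (j' :: N')) u
    nlinarith only [hr, h1, h2, h5, hR]

/-- walk from a list to one of its suffixes -/
theorem s2_walk_suffix {f : List J → X} {ρ : ℕ → ℝ} (hρ : ∀ m, 0 ≤ ρ m) (c : List J) :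
    ∀ a : List J, c <:+ a →
      (∀ (j : J) (N : List J), (j :: N) <:+ a → dist (f (j :: N)) (f N) ≤ ρ (N.length + 1)) →
      dist (f a) (f c) ≤ ∑ N ∈ sf a \ sf c, ρ N.length := by
  intro a
  induction a with
  | nil =>
    intro h _
    have hc : c = [] := List.suffix_nil.1 h
    rw [hc, dist_self]
    exact sum_nonneg fun _ _ => hρ _
  | cons j a ih =>
    intro h hd
    rcases List.suffix_cons_iff.1 h with h1 | h1
    · rw [h1, dist_self]
      exact sum_nonneg fun _ _ => hρ _
    · have h2 := ih h1 (fun i N hN => hd i N (hN.trans (List.suffix_cons j a)))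
      have h3 := hd j a (List.suffix_refl _)
      have h4 : (j :: a) ∉ sf c := fun hm => by
        have := (mem_sf.1 hm).1.length_le
        have := h1.length_le
        rw [List.length_cons] at *
        omega
      have h5 : sf (j :: a) \ sf c = insert (j :: a) (sf a \ sf c) := by
        rw [sf_cons, insert_sdiff_of_notMem _ h4]
      have h6 : (j :: a) ∉ sf a \ sf c := fun hm =>
        cons_notMem_sf j a (mem_sdiff.1 hm).1
      rw [h5, sum_insert h6, List.length_cons]
      have h7 := dist_triangle (f (j :: a)) (f a) (f c)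
      linarith only [h2, h3, h7]

/-- walk between two lists -/
theorem s2_walk {f : List J → X} {ρ : ℕ → ℝ} (hρ : ∀ m, 0 ≤ ρ m) (b : List J)
    (hb : ∀ (j : J) (N : List J), (j :: N) <:+ b → dist (f (j :: N)) (f N) ≤ ρ (N.length + 1)) :
    ∀ a : List J,
      (∀ (j : J) (N : List J), (j :: N) <:+ a → dist (f (j :: N)) (f N) ≤ ρ (N.length + 1)) →
      dist (f a) (f b) ≤ dn ρ a b + dn ρ b a := by
  intro a
  induction a with
  | nil =>
    intro _
    have h1 := s2_walk_suffix hρ [] b List.nil_suffix hb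
    have h2 := dn_nonneg hρ b ([] : List J)
    rw [dist_comm]
    have h3 : dn ρ [] b = ∑ N ∈ sf b \ sf [], ρ N.length := rfl
    linarith
  | cons j a ih =>
    intro hd
    by_cases hs : (j :: a) <:+ b
    · have h1 := s2_walk_suffix hρ (j :: a) b hs hb
      have h2 := dn_nonneg hρ b (j :: a)
      rw [dist_comm]
      have h3 : dn ρ (j :: a) b = ∑ N ∈ sf b \ sf (j :: a), ρ N.length := rfl
      linarith only [h1, h2, h3]
    · have h2 := ih (fun i N hN => hd i N (hN.trans (List.suffix_cons j a)))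
      have h3 := hd j a (List.suffix_refl _)
      have h4 : (j :: a) ∉ sf b := fun hm => hs (mem_sf.1 hm).1
      have h5 : dn ρ b (j :: a) = ρ (a.length + 1) + dn ρ b a := by
        unfold dn
        have h6 : (j :: a) ∉ sf a \ sf b := fun hm =>
          cons_notMem_sf j a (mem_sdiff.1 hm).1
        rw [sf_cons, insert_sdiff_of_notMem _ h4, sum_insert h6, List.length_cons]
      have h6 : dn ρ (j :: a) b = dn ρ a b := by
        unfold dn
        rw [sf_cons, sdiff_insert, erase_eq_of_notMem]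
        intro hm
        exact h4 (mem_sdiff.1 hm).1
      rw [h5, h6]
      have h7 := dist_triangle (f (j :: a)) (f a) (f b)
      linarith only [h2, h3, h7]

/-- physical distance between nodes along the tree -/
theorem place_le (P : LPar η Wd.k J) {x xd x' : Fin Wd.n → Conf X J} (hm : Moved Wd x xd)
    (hA : ∀ l, Adm (xd l) (x' l)) (π : Dyn.Ord (GG Wd.n J P.B)) (a b : List J)
    (ha : ∀ N, N ≠ [] → N <:+ a → ∃ u, N <:+ ad P x π u)
    (hb : ∀ N, N ≠ [] → N <:+ b → ∃ u, N <:+ ad P x' π u) :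
    dist (loc Wd x a) (loc Wd x' b) ≤
      dist (loc Wd x a) (loc Wd xd a) + (dn Wd.rho a b + dn Wd.rho b a) := by
  have hρ : ∀ m, 0 ≤ Wd.rho m := fun m => (rho_pos Wd m).le
  have h1 : loc Wd x' a = loc Wd xd a := by
    rcases a with _ | ⟨j, N⟩
    · rfl
    · obtain ⟨u, hu⟩ := ha (j :: N) (by simp) (List.suffix_refl _)
      exact (s2_node P hm hA π j N u hu).1
  have hm' : Moved Wd x' x' := fun l j => Or.inl rfl
  have hA' : ∀ l, Adm (x' l) (x' l) := fun l j => Or.inl rfl
  have h2 : dist (loc Wd x' a) (loc Wd x' b) ≤ dn Wd.rho a b + dn Wd.rho b a := by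
    apply s2_walk hρ b
    · intro j N hN
      obtain ⟨u, hu⟩ := hb (j :: N) (by simp) hN
      exact adj_old P hm' hA' π j N u hu
    · intro j N hN
      obtain ⟨u, hu⟩ := ha (j :: N) (by simp) hN
      exact adj_old P hm hA π j N u hu
  have h3 := dist_triangle (loc Wd x a) (loc Wd xd a) (loc Wd x' b)
  rw [← h1] at h3 ⊢
  (clear * - h2 h3; linarith)

/-- static version (used for the jumps of the real servers) -/
theorem place_le_static (P : LPar η Wd.k J) (x : Fin Wd.n → Conf X J)
    (π : Dyn.Ord (GG Wd.n J P.B)) (a b : List J)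
    (ha : ∀ N, N ≠ [] → N <:+ a → ∃ u, N <:+ ad P x π u)
    (hb : ∀ N, N ≠ [] → N <:+ b → ∃ u, N <:+ ad P x π u) :
    dist (loc Wd x a) (loc Wd x b) ≤ dn Wd.rho a b + dn Wd.rho b a := by
  have hm : Moved Wd x x := fun l j => Or.inl rfl
  have hA : ∀ l, Adm (x l) (x l) := fun l j => Or.inl rfl
  have h := place_le P hm hA π a b ha hb
  rw [dist_self, zero_add] at h
  exact h

end Vale.Agent.P304.Stp
end
end

section

section

/-! S3: the cost of following the dragged tokens (section 6). -/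

open Finset

namespace Vale.Agent.P304.Stp

open Vale.Agent.P304.Dyn

variable [StP]

variable {X J : Type} [MetricSpace X] [Fintype X] [DecidableEq X] [Fintype J] [DecidableEq J]
  {Wd : World X} {η : ℝ}

/-- expected number of tracks sitting at a node of level `l` whose last label is `j` -/
noncomputable def om (P : LPar η Wd.k J) (s : St Wd J P.B) (l : Fin Wd.n) (j : J) : ℝ :=
  EE fun π => ((univ.filter fun i => (s.y π i).head? = some j ∧ Wd.lv (s.y π i).length = l).card : ℝ)

theorem s3_lv (Wd : World X) {m : ℕ} (h1 : 1 ≤ m) : ((Wd.lv m : Fin Wd.n) : ℕ) = Wd.n - m := by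
  have := Wd.hn
  exact Nat.mod_eq_of_lt (by (clear * - h1 this; omega))

theorem s3_r_pos (Wd : World X) (l : ℕ) : 0 < Wd.r l := by
  have := Wd.hr0
  unfold World.r
  (clear * - this; positivity)

theorem s3_r_mono (Wd : World X) {l l' : ℕ} (h : l ≤ l') : Wd.r l ≤ Wd.r l' := by
  have := Wd.hr0
  unfold World.r
  exact mul_le_mul_of_nonneg_left (pow_le_pow_right₀ (by norm_num) h) this.le

theorem s3_dist (Wd : World X) (l : ℕ) (u v : X) : dist u v = Wd.r l * Dl Wd.r0 l u v := by
  have h := s3_r_pos Wd l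
  unfold Dl
  rw [mul_div_assoc', mul_comm, World.r, mul_div_assoc, div_self, mul_one]
  unfold World.r at h
  exact h.ne'

/-- counting of tracks through their nodes of depth `d` -/
theorem s3_count (P : LPar η Wd.k J) {p : X → ℝ} {s : St Wd J P.B} (h : Inv P p s)
    (hp : ∀ u, 0 ≤ p u) (π : Dyn.Ord (GG Wd.n J P.B)) {d : ℕ} (hd : 1 ≤ d) (S : Finset (Fin Wd.M))
    (g : Fin Wd.M → List J) (hg : ∀ i ∈ S, g i <:+ s.y π i) (hgl : ∀ i ∈ S, (g i).length = d)
    (q : X → Prop) [DecidablePred q] (hq : ∀ i ∈ S, ∀ x, g i <:+ ad P s.x π x → q x) :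
    (S.card : ℝ) ≤ 1 / Wd.lam * ∑ x ∈ univ.filter q, p x := by
  have hlam := lam_pos Wd
  have h1 : (S.card : ℝ) ≤ ∑ N ∈ S.image g, (cnt (s.y π) N : ℝ) := by
    rw [Finset.card_eq_sum_card_image g S]
    push_cast
    refine sum_le_sum fun N _ => ?_
    norm_cast
    refine card_le_card fun i hi => ?_
    rw [mem_filter] at hi ⊢
    refine ⟨mem_univ _, ?_⟩
    rw [← hi.2]
    exact hg i hi.1
  have hlen : ∀ N ∈ S.image g, N.length = d := by
    intro N hN
    obtain ⟨i, hi, rfl⟩ := mem_image.1 hN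
    exact hgl i hi
  have h2 : Wd.lam * ∑ N ∈ S.image g, (cnt (s.y π) N : ℝ) ≤
      ∑ N ∈ S.image g, pm p (ad P s.x π) N := by
    rw [mul_sum]
    refine sum_le_sum fun N hN => h.dom π N ?_
    intro h0
    have := hlen N hN
    rw [h0, List.length_nil] at this
    omega
  have h3 : ∑ N ∈ S.image g, pm p (ad P s.x π) N ≤ ∑ x ∈ univ.filter q, p x := by
    unfold pm
    rw [sum_comm, sum_filter]
    refine sum_le_sum fun x _ => ?_
    by_cases hx : ∃ N ∈ S.image g, N <:+ ad P s.x π x
    · obtain ⟨N, hN, hNx⟩ := hx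
      have hqx : q x := by
        obtain ⟨i, hi, rfl⟩ := mem_image.1 hN
        exact hq i hi x hNx
      rw [if_pos hqx, sum_eq_single N]
      · rw [if_pos hNx]
      · intro N' hN' hne
        rw [if_neg]
        intro h4
        refine hne ?_
        rcases List.suffix_or_suffix_of_suffix h4 hNx with h5 | h5
        · exact h5.eq_of_length ((hlen _ hN').trans (hlen _ hN).symm)
        · exact (h5.eq_of_length ((hlen _ hN).trans (hlen _ hN').symm)).symm
      · intro h5
        exact absurd hN h5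
    · rw [sum_eq_zero]
      · split_ifs
        · exact hp x
        · exact le_rfl
      · intro N hN
        rw [if_neg]
        exact fun h5 => hx ⟨N, hN, h5⟩
  have h4 : Wd.lam * (S.card : ℝ) ≤ ∑ x ∈ univ.filter q, p x :=
    (mul_le_mul_of_nonneg_left h1 hlam.le).trans (h2.trans h3)
  rw [one_div, ← div_eq_inv_mul, le_div_iff₀ hlam, mul_comm]
  exact h4

theorem om_nonneg (P : LPar η Wd.k J) (s : St Wd J P.B) (l : Fin Wd.n) (j : J) :
    0 ≤ om P s l j := EE_nonneg fun _ => Nat.cast_nonneg _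

/-- rewriting of the expected displacement of the tracks -/
theorem follow_eq (P : LPar η Wd.k J) (s : St Wd J P.B) (hl : ∀ π i, (s.y π i).length ≤ Wd.n)
    (xd : Fin Wd.n → Conf X J) :
    EE (fun π => ∑ i, dist (loc Wd s.x (s.y π i)) (loc Wd xd (s.y π i))) =
      ∑ l : Fin Wd.n, Wd.r l * ∑ j, om P s l j * Dl Wd.r0 l (s.x l j).1 (xd l j).1 := by
  have h1 : ∀ (l : Fin Wd.n) (j : J), om P s l j * Dl Wd.r0 l (s.x l j).1 (xd l j).1 =
      EE (fun π => Dl Wd.r0 l (s.x l j).1 (xd l j).1 *
        ((univ.filter fun i => (s.y π i).head? = some j ∧ Wd.lv (s.y π i).length = l).card : ℝ)) :=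
    fun l j => by rw [EE_mul, mul_comm]; rfl
  simp_rw [h1, ← EE_sum, ← EE_mul]
  rw [← EE_sum]
  congr 1
  funext π
  have h2 : ∀ (l : Fin Wd.n) (j : J),
      ((univ.filter fun i => (s.y π i).head? = some j ∧ Wd.lv (s.y π i).length = l).card : ℝ) =
      ∑ i, if (s.y π i).head? = some j ∧ Wd.lv (s.y π i).length = l then (1 : ℝ) else 0 :=
    fun l j => by rw [sum_boole]
  simp_rw [h2, mul_sum]
  rw [sum_congr rfl fun l _ => sum_comm, sum_comm]
  refine sum_congr rfl fun i _ => ?_
  generalize s.y π i = y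
  cases y with
  | nil =>
    simp only [List.head?_nil, reduceCtorEq, List.length_nil, false_and, ↓reduceIte, mul_zero, sum_const_zero, dist_eq_zero]
    rfl
  | cons j0 N =>
    rw [sum_eq_single (Wd.lv (N.length + 1))]
    · rw [sum_eq_single j0]
      · simp only [List.head?_cons, List.length_cons, and_self, if_true, mul_one]
        exact s3_dist Wd _ _ _
      · intro j _ hj
        rw [if_neg, mul_zero, mul_zero]
        rintro ⟨h3, -⟩
        exact hj (by simpa using h3.symm)
      · intro h3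
        exact absurd (mem_univ _) h3
    · intro l _ hl'
      refine sum_eq_zero fun j _ => ?_
      rw [if_neg, mul_zero, mul_zero]
      rintro ⟨-, h3⟩
      exact hl' h3.symm
    · intro h3
      exact absurd (mem_univ _) h3

/-- number of tracks per token -/
theorem om_le (P : LPar η Wd.k J) {p : X → ℝ} {s : St Wd J P.B} (h : Inv P p s)
    (hpk : ∑ u, p u ≤ Wd.k) (l : Fin Wd.n) (j : J) : om P s l j ≤ 101 / Wd.lam * η := by
  have hp := (h.bal l).hp
  have hlam := lam_pos Wd
  have h1 : ∀ π, ((univ.filter fun i => (s.y π i).head? = some j ∧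
      Wd.lv (s.y π i).length = l).card : ℝ) ≤
      1 / Wd.lam * ∑ x, p x * (if labS P s.x π l x = some j then (1 : ℝ) else 0) := by
    intro π
    have hln := l.2
    have hkey : ∀ i ∈ univ.filter (fun i => (s.y π i).head? = some j ∧
        Wd.lv (s.y π i).length = l), ∃ N, s.y π i = j :: N ∧ (s.y π i).length = Wd.n - l := by
      intro i hi
      obtain ⟨-, hh, hlv⟩ := mem_filter.1 hi
      have hle := h.len π i
      revert hh hlv hle
      generalize s.y π i = y
      intro hh hlv hle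
      cases y with
      | nil => simp at hh
      | cons j0 N =>
        have e : j0 = j := by simpa using hh
        subst e
        refine ⟨N, rfl, ?_⟩
        have h2 := s3_lv Wd (m := (j0 :: N).length) (by simp only [List.length_cons, le_add_iff_nonneg_left, zero_le])
        rw [hlv] at h2
        omega
    have h2 := s3_count P h hp π (d := Wd.n - l) (by omega)
      (univ.filter fun i => (s.y π i).head? = some j ∧ Wd.lv (s.y π i).length = l) (s.y π)
      (fun i _ => List.suffix_rfl) (fun i hi => (hkey i hi).choose_spec.2)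
      (fun x => labS P s.x π l x = some j) (fun i hi x hx => by
        obtain ⟨N, hN, hlen⟩ := hkey i hi
        rw [hN] at hx hlen
        have h3 := lab_of_suffix P s.x π x j N hx
        have h4 : Wd.lv (N.length + 1) = l := by
          apply Fin.ext
          rw [s3_lv Wd (by omega)]
          rw [List.length_cons] at hlen
          omega
        rwa [h4] at h3)
    refine h2.trans (le_of_eq ?_)
    rw [sum_filter]
    congr 1
    refine sum_congr rfl fun x _ => ?_
    split_ifs
    · rw [mul_one]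
    · rw [mul_zero]
  have h2 := EE_mono h1
  have h3 := label_mass (Dl_pm Wd.hr0 l) P l (s.x l) (h.bal l) hpk j
  unfold om
  refine h2.trans ?_
  rw [EE_mul, EE_sum]
  have h4 : ∑ x, EE (fun π => p x * (if labS P s.x π l x = some j then (1 : ℝ) else 0)) ≤
      101 * η := by
    refine le_trans (le_of_eq ?_) h3
    refine sum_congr rfl fun x _ => ?_
    rw [EE_mul]
    rfl
  calc 1 / Wd.lam * ∑ x, EE (fun π => p x * (if labS P s.x π l x = some j then (1 : ℝ) else 0))
      ≤ 1 / Wd.lam * (101 * η) := mul_le_mul_of_nonneg_left h4 (by positivity)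
    _ = 101 / Wd.lam * η := by ring

/-- a track is counted at most once -/
theorem s3_once (s : Fin Wd.n → Conf X J) (y : List J) (u : X) (l : Fin Wd.n)
    (q : Prop) [Decidable q]
    (hq : ∀ j N, y = j :: N → Wd.lv (N.length + 1) ≤ l →
      (s (Wd.lv (N.length + 1)) j).2 = true →
      Dl Wd.r0 (Wd.lv (N.length + 1)) u (s (Wd.lv (N.length + 1)) j).1 ≤ 3 → q) :
    ∑ l' ∈ univ.filter (fun l' : Fin Wd.n => l' ≤ l),
      ∑ c ∈ univ.filter (fun c => Dl Wd.r0 l' u c ≤ 3),
        ∑ j ∈ univ.filter (fun j => s l' j = (c, true)),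
          (if y.head? = some j ∧ Wd.lv y.length = l' then (1 : ℝ) else 0) ≤
      if q then 1 else 0 := by
  cases y with
  | nil =>
    rw [sum_eq_zero]
    · split_ifs
      · exact zero_le_one
      · exact le_rfl
    · intro l' _
      refine sum_eq_zero fun c _ => sum_eq_zero fun j _ => ?_
      simp
  | cons j0 N =>
    set L := Wd.lv (N.length + 1) with hL
    have h1 : ∀ l' : Fin Wd.n, ∑ c ∈ univ.filter (fun c => Dl Wd.r0 l' u c ≤ 3),
        ∑ j ∈ univ.filter (fun j => s l' j = (c, true)),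
          (if (j0 :: N).head? = some j ∧ Wd.lv (j0 :: N).length = l' then (1 : ℝ) else 0) =
        if L = l' then (if (s l' j0).2 = true ∧ Dl Wd.r0 l' u (s l' j0).1 ≤ 3
          then (1 : ℝ) else 0) else 0 := by
      intro l'
      by_cases hl : L = l'
      · rw [if_pos hl]
        have h2 : ∀ c, ∑ j ∈ univ.filter (fun j => s l' j = (c, true)),
            (if (j0 :: N).head? = some j ∧ Wd.lv (j0 :: N).length = l' then (1 : ℝ) else 0) =
            if (s l' j0).1 = c then (if (s l' j0).2 = true then (1 : ℝ) else 0) else 0 := by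
          intro c
          have h3 : ∀ j, (if (j0 :: N).head? = some j ∧ Wd.lv (j0 :: N).length = l'
              then (1 : ℝ) else 0) = if j0 = j then 1 else 0 := by
            intro j
            have : Wd.lv (N.length + 1) = l' := hl
            simp [this]
          simp_rw [h3]
          rw [sum_ite_eq]
          have h7 : j0 ∈ univ.filter (fun j => s l' j = (c, true)) ↔ s l' j0 = (c, true) := by
            rw [mem_filter]
            simp only [mem_univ, true_and]
          by_cases h4 : s l' j0 = (c, true)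
          · rw [if_pos (h7.2 h4), h4]
            simp
          · rw [if_neg fun h5 => h4 (h7.1 h5)]
            by_cases h6 : (s l' j0).1 = c
            · rw [if_pos h6, if_neg]
              intro h7
              exact h4 (Prod.ext h6 h7)
            · rw [if_neg h6]
        simp_rw [h2]
        rw [sum_ite_eq]
        have h7 : (s l' j0).1 ∈ univ.filter (fun c => Dl Wd.r0 l' u c ≤ 3) ↔
            Dl Wd.r0 l' u (s l' j0).1 ≤ 3 := by
          rw [mem_filter]
          simp only [mem_univ, true_and]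
        by_cases h4 : Dl Wd.r0 l' u (s l' j0).1 ≤ 3
        · rw [if_pos (h7.2 h4)]
          by_cases h5 : (s l' j0).2 = true
          · rw [if_pos h5, if_pos ⟨h5, h4⟩]
          · rw [if_neg h5, if_neg fun h6 => h5 h6.1]
        · rw [if_neg fun h5 => h4 (h7.1 h5), if_neg fun h6 => h4 h6.2]
      · rw [if_neg hl]
        refine sum_eq_zero fun c _ => sum_eq_zero fun j _ => ?_
        rw [if_neg]
        rintro ⟨-, h2⟩
        exact hl h2
    simp_rw [h1]
    rw [sum_ite_eq]
    split_ifs with h2 h3 h4 h4 h4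
    · exact le_rfl
    · exact absurd (hq j0 N rfl (mem_filter.1 h2).2 h3.1 h3.2) h4
    · exact zero_le_one
    · exact le_rfl
    · exact zero_le_one
    · exact le_rfl

/-- nested counting: tracks at levels `≤ l` near `u` -/
theorem om_cum_le (P : LPar η Wd.k J) {p : X → ℝ} {s : St Wd J P.B} (h : Inv P p s)
    (u : X) (l : Fin Wd.n) :
    ∑ l' ∈ univ.filter (fun l' : Fin Wd.n => l' ≤ l),
      ∑ c ∈ univ.filter (fun c => Dl Wd.r0 l' u c ≤ 3),
        ∑ j ∈ univ.filter (fun j => s.x l' j = (c, true)), om P s l' j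
      ≤ 1 / Wd.lam * ∑ x ∈ univ.filter (fun x => dist u x ≤ (3 + 3 * RR Wd.k) * Wd.r l), p x := by
  classical
  have hp := (h.bal l).hp
  have hlam := lam_pos Wd
  unfold om
  simp_rw [← EE_sum]
  refine EE_le_of_le fun π => ?_
  -- the counted tracks
  set S : Finset (Fin Wd.M) := univ.filter fun i => ∃ j N, s.y π i = j :: N ∧
    Wd.lv (N.length + 1) ≤ l ∧ (s.x (Wd.lv (N.length + 1)) j).2 = true ∧
    Dl Wd.r0 (Wd.lv (N.length + 1)) u (s.x (Wd.lv (N.length + 1)) j).1 ≤ 3 with hS
  have h1 : ∑ l' ∈ univ.filter (fun l' : Fin Wd.n => l' ≤ l),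
      ∑ c ∈ univ.filter (fun c => Dl Wd.r0 l' u c ≤ 3),
        ∑ j ∈ univ.filter (fun j => s.x l' j = (c, true)),
          ((univ.filter fun i => (s.y π i).head? = some j ∧
            Wd.lv (s.y π i).length = l').card : ℝ) ≤ (S.card : ℝ) := by
    have h2 : ∀ (l' : Fin Wd.n) (j : J),
        ((univ.filter fun i => (s.y π i).head? = some j ∧ Wd.lv (s.y π i).length = l').card : ℝ) =
        ∑ i, if (s.y π i).head? = some j ∧ Wd.lv (s.y π i).length = l' then (1 : ℝ) else 0 :=
      fun l' j => by rw [sum_boole]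
    simp_rw [h2]
    have h3 : ∀ (l' : Fin Wd.n) (c : X), ∑ j ∈ univ.filter (fun j => s.x l' j = (c, true)),
        ∑ i, (if (s.y π i).head? = some j ∧ Wd.lv (s.y π i).length = l' then (1 : ℝ) else 0) =
        ∑ i, ∑ j ∈ univ.filter (fun j => s.x l' j = (c, true)),
          (if (s.y π i).head? = some j ∧ Wd.lv (s.y π i).length = l' then (1 : ℝ) else 0) :=
      fun l' c => sum_comm
    simp_rw [h3]
    have h4 : ∀ l' : Fin Wd.n, ∑ c ∈ univ.filter (fun c => Dl Wd.r0 l' u c ≤ 3),
        ∑ i, ∑ j ∈ univ.filter (fun j => s.x l' j = (c, true)),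
          (if (s.y π i).head? = some j ∧ Wd.lv (s.y π i).length = l' then (1 : ℝ) else 0) =
        ∑ i, ∑ c ∈ univ.filter (fun c => Dl Wd.r0 l' u c ≤ 3),
          ∑ j ∈ univ.filter (fun j => s.x l' j = (c, true)),
          (if (s.y π i).head? = some j ∧ Wd.lv (s.y π i).length = l' then (1 : ℝ) else 0) :=
      fun l' => sum_comm
    simp_rw [h4]
    rw [sum_comm, hS, card_filter]
    push_cast
    refine sum_le_sum fun i _ => ?_
    exact s3_once s.x (s.y π i) u l _ fun j N e1 e2 e3 e4 => ⟨j, N, e1, e2, e3, e4⟩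
  refine h1.trans ?_
  have hln := l.2
  -- length of the tracks
  have hlen : ∀ i ∈ S, Wd.n - l ≤ (s.y π i).length := by
    intro i hi
    obtain ⟨-, j, N, e1, e2, -⟩ := mem_filter.1 hi
    have hle := h.len π i
    rw [e1, List.length_cons] at hle ⊢
    have e5 : ((Wd.lv (N.length + 1) : Fin Wd.n) : ℕ) ≤ l := e2
    rw [s3_lv Wd (by (clear * -; omega))] at e5
    (clear * - hln hle e5; omega)
  refine s3_count P h hp π (d := Wd.n - l) (by omega) S
    (fun i => (s.y π i).drop ((s.y π i).length - (Wd.n - l)))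
    (fun i _ => List.drop_suffix _ _) (fun i hi => ?_) _ fun i hi x hx => ?_
  · have := hlen i hi
    rw [List.length_drop]
    (clear * - this; omega)
  · have hli := hlen i hi
    obtain ⟨-, j, N, e1, e2, e3, e4⟩ := mem_filter.1 hi
    have hle := h.len π i
    set N1 : List J := (s.y π i).drop ((s.y π i).length - (Wd.n - l)) with hN1
    have hN1l : N1.length = Wd.n - l := by
      rw [hN1, List.length_drop]
      omega
    have hN1s : N1 <:+ s.y π i := List.drop_suffix _ _
    -- an occupied point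
    have hcnt : (1 : ℝ) ≤ cnt (s.y π) (s.y π i) := by
      have : 0 < cnt (s.y π) (s.y π i) :=
        card_pos.2 ⟨i, mem_filter.2 ⟨mem_univ _, List.suffix_rfl⟩⟩
      exact_mod_cast this
    have hpm : 0 < pm p (ad P s.x π) (s.y π i) := by
      have h5 := h.dom π (s.y π i) (by rw [e1]; simp)
      have h6 : Wd.lam * 1 ≤ Wd.lam * cnt (s.y π) (s.y π i) :=
        mul_le_mul_of_nonneg_left hcnt hlam.le
      linarith only [hlam, h5, h6]
    obtain ⟨w, hw⟩ : ∃ w, s.y π i <:+ ad P s.x π w := by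
      by_contra hcon
      push Not at hcon
      have : pm p (ad P s.x π) (s.y π i) = 0 := by
        unfold pm
        exact sum_eq_zero fun w _ => if_neg (hcon w)
      linarith only [hpm, this]
    obtain ⟨j1, N', hN'⟩ : ∃ j1 N', N1 = j1 :: N' := by
      cases hh : N1 with
      | nil =>
        rw [hh, List.length_nil] at hN1l
        omega
      | cons j1 N' => exact ⟨j1, N', rfl⟩
    have hlv1 : Wd.lv (N'.length + 1) = l := by
      apply Fin.ext
      rw [s3_lv Wd (by omega)]
      rw [hN', List.length_cons] at hN1l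
      (clear * - hln hli hle hN1l; omega)
    have hr2 : Wd.r (Wd.lv (N.length + 1)) ≤ Wd.r l := s3_r_mono Wd e2
    have hRR := RR_ge Wd.hk
    have d1 := (dist_loc_le P s.x π x j1 N' (by rw [← hN']; exact hx)).2
    have d2 := (dist_loc_le P s.x π w j1 N' (by rw [← hN']; exact hN1s.trans hw)).2
    have d3 := (dist_loc_le P s.x π w j N (by rw [← e1]; exact hw)).2
    rw [hlv1] at d1 d2
    have d4 : dist u (loc Wd s.x (j :: N)) ≤ 3 * Wd.r (Wd.lv (N.length + 1)) := by
      rw [s3_dist Wd (Wd.lv (N.length + 1)) u]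
      have := mul_le_mul_of_nonneg_left e4 (s3_r_pos Wd (Wd.lv (N.length + 1))).le
      rw [mul_comm 3]
      exact this
    have d5 : RR Wd.k * Wd.r (Wd.lv (N.length + 1)) ≤ RR Wd.k * Wd.r l :=
      mul_le_mul_of_nonneg_left hr2 (by linarith only [hRR])
    show dist u x ≤ (3 + 3 * RR Wd.k) * Wd.r l
    have t1 := dist_triangle4 u (loc Wd s.x (j :: N)) w (loc Wd s.x (j1 :: N'))
    have t2 := dist_triangle u (loc Wd s.x (j1 :: N')) x
    rw [dist_comm (loc Wd s.x (j :: N)) w] at t1
    rw [dist_comm (loc Wd s.x (j1 :: N')) x] at t2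
    linarith only [hr2, d1, d2, d3, d4, d5, t1, t2]

/-- the follow cost of one level is at most `101 / lam` -/
theorem s3_cost_a (P : LPar η Wd.k J) {p : X → ℝ} {s : St Wd J P.B} (h : Inv P p s)
    (hpk : ∑ u, p u ≤ Wd.k) (u : X) (l : Fin Wd.n) :
    ∑ c ∈ univ.filter (fun c => Dl Wd.r0 l u c ≤ 3),
        kern (Dl Wd.r0 l) u c / SS (Dl Wd.r0 l) (nuC η (s.x l)) u *
          ∑ j ∈ univ.filter (fun j => s.x l j = (c, true)), om P s l j ≤ 101 / Wd.lam := by
  have hlam := lam_pos Wd
  have hν := (h.bal l).hν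
  have hS := SS_pos (D := Dl Wd.r0 l) hν u
  have hA : 0 ≤ 101 / Wd.lam := by (clear * - hlam; positivity)
  have h1 : ∀ c, kern (Dl Wd.r0 l) u c / SS (Dl Wd.r0 l) (nuC η (s.x l)) u *
      ∑ j ∈ univ.filter (fun j => s.x l j = (c, true)), om P s l j ≤
      101 / Wd.lam * QQ (Dl Wd.r0 l) (nuC η (s.x l)) u c := by
    intro c
    have h2 : ∑ j ∈ univ.filter (fun j => s.x l j = (c, true)), om P s l j ≤
        101 / Wd.lam * nuC η (s.x l) c := by
      refine (sum_le_sum fun j _ => om_le P h hpk l j).trans (le_of_eq ?_)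
      rw [sum_const, nsmul_eq_mul]
      unfold nuC
      ring
    have h3 : 0 ≤ kern (Dl Wd.r0 l) u c / SS (Dl Wd.r0 l) (nuC η (s.x l)) u :=
      div_nonneg (kern_pos u c).le hS.le
    refine (mul_le_mul_of_nonneg_left h2 h3).trans (le_of_eq ?_)
    unfold QQ
    ring
  refine (sum_le_sum fun c _ => h1 c).trans ?_
  rw [← mul_sum]
  have h4 : ∑ c ∈ univ.filter (fun c => Dl Wd.r0 l u c ≤ 3),
      QQ (Dl Wd.r0 l) (nuC η (s.x l)) u c ≤ 1 :=
    (sum_le_sum_of_subset_of_nonneg (filter_subset _ _) fun c _ _ => QQ_nonneg hν u c).trans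
      (sum_QQ_le_one hν u)
  calc 101 / Wd.lam * _ ≤ 101 / Wd.lam * 1 := mul_le_mul_of_nonneg_left h4 hA
    _ = 101 / Wd.lam := mul_one _

/-- at a scale without growth the denominator is comparable with the ball -/
theorem ss_inv' {r0 : ℝ} (hr : 0 < r0) (l : ℕ) {p ν : X → ℝ} {k : ℝ} (hk : 1 ≤ k)
    (hsl : Real.log (1 / tau k) ≤ slp) (hpk : ∑ x, p x ≤ k) (h : Bal (Dl r0 l) p ν) (u : X)
    (hgr : ssB p u (r0 / 4 * 2 ^ (l + 6)) ≤ 3 / 2 * ssB p u (r0 / 4 * 2 ^ l)) :
    1 / SS (Dl r0 l) ν u ≤ 8 / ssB p u (r0 / 4 * 2 ^ l) := by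
  have hD := Dl_pm (X := X) hr l
  have hR : 0 < r0 * 2 ^ l := by positivity
  have he : 0 < e0 := by norm_num [e0]
  have hS := SS_pos (D := Dl r0 l) h.hν u
  have hdl : ∀ u' : X, dist u u' / r0 / 2 ^ l = Dl r0 l u u' := fun u' => by
    unfold Dl; rw [div_div]
  set B0 := ssB p u (r0 / 4 * 2 ^ l) with hB0
  set B1 := ssB p u (r0 / 4 * 2 ^ (l + 6)) with hB1
  have hB0p : 0 < B0 := lt_of_lt_of_le he (ssB_ge h.hp u _)
  have i1 : ∀ x, dist u x ≤ r0 / 4 * 2 ^ l ↔ Dl r0 l u x ≤ 1 / 4 := by
    intro x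
    unfold Dl
    rw [div_le_iff₀ hR]
    constructor <;> intro h5 <;> linarith only [h5]
  have i2 : ∀ x, dist u x ≤ r0 / 4 * 2 ^ (l + 6) ↔ Dl r0 l u x ≤ 16 := by
    intro x
    unfold Dl
    rw [div_le_iff₀ hR]
    have : r0 / 4 * 2 ^ (l + 6) = 16 * (r0 * 2 ^ l) := by
      rw [pow_add]; ring
    rw [this]
  have hsum : ∑ u' ∈ univ.filter (fun u' => 1 / 4 < Dl r0 l u u' ∧ Dl r0 l u u' ≤ 16), p u'
      = B1 - B0 := by
    have hb : B1 - B0 = ∑ x, ((if dist u x ≤ r0 / 4 * 2 ^ (l + 6) then p x else 0)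
        - (if dist u x ≤ r0 / 4 * 2 ^ l then p x else 0)) := by
      rw [sum_sub_distrib, ← sum_filter, ← sum_filter, hB1, hB0]
      unfold ssB
      ring
    rw [hb, sum_filter]
    refine sum_congr rfl fun x _ => ?_
    rcases le_or_gt (Dl r0 l u x) (1 / 4) with h1 | h1
    · rw [if_neg (by intro h2; linarith only [h1, h2.1]), if_pos ((i2 x).2 (by linarith only [h1])),
        if_pos ((i1 x).2 h1)]
      ring
    · rcases le_or_gt (Dl r0 l u x) 16 with h2 | h2
      · rw [if_pos ⟨h1, h2⟩, if_pos ((i2 x).2 h2), if_neg (fun h3 => by linarith only [h1, (i1 x).1 h3])]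
        ring
      · rw [if_neg (by intro h3; linarith only [h2, h3.2]), if_neg (fun h3 => by linarith only [h2, (i2 x).1 h3]),
          if_neg (fun h3 => by linarith only [h2, (i1 x).1 h3])]
        ring
  have hball0 : e0 + ∑ u' ∈ univ.filter (fun u' => Dl r0 l u u' ≤ 1 / 4), p u' = B0 := by
    rw [hB0]
    unfold ssB
    congr 1
    refine sum_congr (filter_congr fun x _ => (i1 x).symm) fun _ _ => rfl
  have hball := ball_le' hD h hk hpk hsl u
  rw [hsum, hball0] at hball
  rw [div_le_div_iff₀ hS hB0p, one_mul]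
  linarith only [hball, hgr, hS]

/-- the follow cost of one level without growth in terms of the number of tracks -/
theorem s3_cost_b (P : LPar η Wd.k J) {p : X → ℝ} {s : St Wd J P.B} (h : Inv P p s)
    (hpk : ∑ u, p u ≤ Wd.k) (u : X) (l : Fin Wd.n)
    (hgr : ssB p u (Wd.r (l + 6) / 4) ≤ 3 / 2 * ssB p u (Wd.r l / 4)) :
    ∑ c ∈ univ.filter (fun c => Dl Wd.r0 l u c ≤ 3),
        kern (Dl Wd.r0 l) u c / SS (Dl Wd.r0 l) (nuC η (s.x l)) u *
          ∑ j ∈ univ.filter (fun j => s.x l j = (c, true)), om P s l j ≤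
      4 * (2 * (∑ c ∈ univ.filter (fun c => Dl Wd.r0 l u c ≤ 3),
          ∑ j ∈ univ.filter (fun j => s.x l j = (c, true)), om P s l j)) /
        ssB p u (Wd.r l / 4) := by
  have hν := (h.bal l).hν
  have hD := Dl_pm (X := X) Wd.hr0 l
  have hS := SS_pos (D := Dl Wd.r0 l) hν u
  have he : 0 < e0 := by norm_num [e0]
  have hB := ssB_ge (h.bal l).hp u (Wd.r l / 4)
  have hB0 : 0 < ssB p u (Wd.r l / 4) := he.trans_le hB
  have hr1 : Wd.r l / 4 = Wd.r0 / 4 * 2 ^ (l : ℕ) := by unfold World.r; ring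
  have hr2 : Wd.r (l + 6) / 4 = Wd.r0 / 4 * 2 ^ ((l : ℕ) + 6) := by unfold World.r; ring
  have h2 : 1 / SS (Dl Wd.r0 l) (nuC η (s.x l)) u ≤ 8 / ssB p u (Wd.r l / 4) := by
    rw [hr1]
    rw [hr1, hr2] at hgr
    exact ss_inv' Wd.hr0 l Wd.hk Wd.hsl hpk (h.bal l) u hgr
  have h3 : 4 * (2 * (∑ c ∈ univ.filter (fun c => Dl Wd.r0 l u c ≤ 3),
          ∑ j ∈ univ.filter (fun j => s.x l j = (c, true)), om P s l j)) /
        ssB p u (Wd.r l / 4) = 8 / ssB p u (Wd.r l / 4) *
        (∑ c ∈ univ.filter (fun c => Dl Wd.r0 l u c ≤ 3),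
          ∑ j ∈ univ.filter (fun j => s.x l j = (c, true)), om P s l j) := by ring
  rw [h3, mul_sum]
  refine sum_le_sum fun c _ => ?_
  refine mul_le_mul_of_nonneg_right ?_ (sum_nonneg fun j _ => om_nonneg P s l j)
  refine le_trans ?_ h2
  exact div_le_div_of_nonneg_right (kern_le_one hD u c) hS.le

/-- the sum over the scales -/
theorem follow_sum_le (P : LPar η Wd.k J) {p : X → ℝ} {s : St Wd J P.B} (h : Inv P p s)
    (hpk : ∑ u, p u ≤ Wd.k) (u : X) :
    ∑ l : Fin Wd.n, ∑ c ∈ univ.filter (fun c => Dl Wd.r0 l u c ≤ 3),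
        kern (Dl Wd.r0 l) u c / SS (Dl Wd.r0 l) (nuC η (s.x l)) u *
          ∑ j ∈ univ.filter (fun j => s.x l j = (c, true)), om P s l j ≤ Wd.G2 := by
  have hlam := lam_pos Wd
  have he : 0 < e0 := by norm_num [e0]
  have hk := Wd.hk
  have hRR := RR_ge Wd.hk
  have hn := Wd.hn
  have hp : ∀ x, 0 ≤ p x := (h.bal ⟨0, hn⟩).hp
  set m : ℕ := ⌈12 + 12 * RR Wd.k⌉₊ with hm
  have hm1 : 12 + 12 * RR Wd.k ≤ (m : ℝ) := Nat.le_ceil _
  have hm2 : (m : ℝ) ≤ 14 + 12 * RR Wd.k := by
    have := Nat.ceil_lt_add_one (show 0 ≤ 12 + 12 * RR Wd.k by linarith only [hRR])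
    linarith only [this]
  have hm3 : 12 + 12 * RR Wd.k ≤ (2 : ℝ) ^ m := by
    have : (m : ℝ) ≤ (2 : ℝ) ^ m := by exact_mod_cast (Nat.lt_two_pow_self (n := m)).le
    linarith only [hm1, this]
  -- the terms
  set T : Fin Wd.n → ℝ := fun l => ∑ c ∈ univ.filter (fun c => Dl Wd.r0 l u c ≤ 3),
    kern (Dl Wd.r0 l) u c / SS (Dl Wd.r0 l) (nuC η (s.x l)) u *
      ∑ j ∈ univ.filter (fun j => s.x l j = (c, true)), om P s l j with hT
  set U : Fin Wd.n → ℝ := fun l => ∑ c ∈ univ.filter (fun c => Dl Wd.r0 l u c ≤ 3),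
      ∑ j ∈ univ.filter (fun j => s.x l j = (c, true)), om P s l j with hU
  have hU0 : ∀ l, 0 ≤ U l := fun l =>
    sum_nonneg fun c _ => sum_nonneg fun j _ => om_nonneg P s l j
  have hTa : ∀ l, T l ≤ 101 / Wd.lam := fun l => s3_cost_a P h hpk u l
  set T1 : Fin Wd.n → ℝ := fun l =>
    if ssB p u (Wd.r (l + 6) / 4) ≤ 3 / 2 * ssB p u (Wd.r l / 4) then T l else 0 with hT1
  have hT1a : ∀ l, T1 l ≤ 101 / Wd.lam := fun l => by
    rw [hT1]
    show (if ssB p u (Wd.r (l + 6) / 4) ≤ 3 / 2 * ssB p u (Wd.r l / 4) then T l else 0) ≤ _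
    split_ifs
    · exact hTa l
    · positivity
  have hTb : ∀ l : Fin Wd.n, T1 l ≤ 4 * (2 * U l) / ssB p u (Wd.r l / 4) := fun l => by
    rw [hT1]
    show (if ssB p u (Wd.r (l + 6) / 4) ≤ 3 / 2 * ssB p u (Wd.r l / 4) then T l else 0) ≤ _
    split_ifs with hg
    · exact s3_cost_b P h hpk u l hg
    · have h1 := he.trans_le (ssB_ge hp u (Wd.r l / 4))
      have h2 := hU0 l
      exact div_nonneg (by linarith only [h2]) h1.le
  have hb : ∀ i : ℕ, Real.log e0 ≤ Real.log (ssB p u (Wd.r i / 4)) := fun i =>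
    Real.log_le_log he (ssB_ge hp u _)
  have hb' : ∀ i : ℕ, Real.log (ssB p u (Wd.r i / 4)) ≤ Real.log (Wd.k + e0) := fun i =>
    Real.log_le_log (he.trans_le (ssB_ge hp u _)) (ssB_le hp hpk u _)
  have hTc : ∀ l : Fin Wd.n, T l ≤ T1 l + 3 * (101 / Wd.lam) *
      (Real.log (ssB p u (Wd.r (l + 6) / 4)) - Real.log (ssB p u (Wd.r l / 4))) := fun l => by
    have hf0 := he.trans_le (ssB_ge hp u (Wd.r l / 4))
    have hf1 := he.trans_le (ssB_ge hp u (Wd.r (l + 6) / 4))
    have hA : 0 ≤ 101 / Wd.lam := by positivity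
    rw [hT1]
    show T l ≤ (if ssB p u (Wd.r (l + 6) / 4) ≤ 3 / 2 * ssB p u (Wd.r l / 4) then T l else 0) + _
    split_ifs with hg
    · have h1 : ssB p u (Wd.r l / 4) ≤ ssB p u (Wd.r (l + 6) / 4) :=
        ssB_mono hp u (by have := s3_r_mono Wd (Nat.le_add_right (l : ℕ) 6); linarith only [this])
      have h2 := Real.log_le_log hf0 h1
      have h3 := mul_nonneg hA (sub_nonneg.2 h2)
      linarith only [h3]
    · have h1 := (not_le.1 hg).le
      have h2 := Real.log_le_log (by linarith only [hf0] : 0 < 3 / 2 * ssB p u (Wd.r l / 4)) h1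
      rw [Real.log_mul (by norm_num) hf0.ne'] at h2
      have h3 := Real.one_sub_inv_le_log_of_pos (show (0 : ℝ) < 3 / 2 by norm_num)
      have h4 : (1 : ℝ) / 3 ≤ Real.log (3 / 2) := le_trans (by norm_num) h3
      have h5 := mul_le_mul_of_nonneg_left (show 1 / 3 ≤
        Real.log (ssB p u (Wd.r (l + 6) / 4)) - Real.log (ssB p u (Wd.r l / 4)) by
          linarith only [h2, h4]) hA
      have h6 := hTa l
      linarith only [h5, h6]
  have hUc : ∀ l : Fin Wd.n, ∑ l' ∈ univ.filter (fun l' : Fin Wd.n => l' ≤ l), U l' ≤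
      1 / Wd.lam * ssB p u (Wd.r (l + m) / 4) := by
    intro l
    refine (om_cum_le P h u l).trans ?_
    refine mul_le_mul_of_nonneg_left ?_ (by positivity)
    have h1 : (3 + 3 * RR Wd.k) * Wd.r l ≤ Wd.r (l + m) / 4 := by
      have h2 : Wd.r (l + m) = Wd.r l * 2 ^ m := by
        unfold World.r
        rw [pow_add]
        ring
      rw [h2]
      have h3 := mul_le_mul_of_nonneg_left hm3 (s3_r_pos Wd l).le
      linarith only [h3]
    refine le_trans ?_ (ssB_mono hp u h1)
    unfold ssB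
    linarith only [he]
  have hcum0 : ∀ l : ℕ, ∑ l' ∈ range (l + 1), (if h : l' < Wd.n then U ⟨l', h⟩ else 0) ≤
      1 / Wd.lam * ssB p u (Wd.r (l + m) / 4) := by
    -- levels below `n`
    have hlt : ∀ l : Fin Wd.n, ∑ l' ∈ range (l + 1), (if h : l' < Wd.n then U ⟨l', h⟩ else 0) =
        ∑ l' ∈ univ.filter (fun l' : Fin Wd.n => l' ≤ l), U l' := by
      intro l
      symm
      refine sum_bij (fun l' _ => (l' : ℕ)) ?_ ?_ ?_ ?_
      · intro l' hl'
        have := (mem_filter.1 hl').2
        rw [mem_range]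
        exact Nat.lt_succ_of_le this
      · intro a _ b _ hab
        exact Fin.ext hab
      · intro b hb
        rw [mem_range] at hb
        have hl := l.2
        refine ⟨⟨b, by omega⟩, mem_filter.2 ⟨mem_univ _, ?_⟩, rfl⟩
        exact Nat.le_of_lt_succ hb
      · intro l' _
        rw [dif_pos l'.2]
    intro l
    by_cases hl : l < Wd.n
    · have := hlt ⟨l, hl⟩
      simp only at this
      rw [this]
      exact hUc ⟨l, hl⟩
    · push Not at hl
      have h1 : ∑ l' ∈ range (l + 1), (if h : l' < Wd.n then U ⟨l', h⟩ else 0) =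
          ∑ l' ∈ range (Wd.n - 1 + 1), (if h : l' < Wd.n then U ⟨l', h⟩ else 0) := by
        symm
        refine sum_subset (fun x hx => ?_) fun x _ hx => ?_
        · rw [mem_range] at hx ⊢
          omega
        · rw [mem_range] at hx
          rw [dif_neg (by omega)]
      have h2 := hlt ⟨Wd.n - 1, by omega⟩
      simp only at h2
      rw [h1, h2]
      refine (hUc _).trans (mul_le_mul_of_nonneg_left (ssB_mono hp u ?_) (by (clear * - hlam; positivity)))
      have h3 : Wd.r (Wd.n - 1 + m) ≤ Wd.r (l + m) := s3_r_mono Wd (by (clear * - hn hl; omega))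
      show Wd.r (Wd.n - 1 + m) / 4 ≤ Wd.r (l + m) / 4
      linarith only [h3]
  have hcum : ∀ l : ℕ, ∑ l' ∈ range (l + 1), (if h : l' < Wd.n then 2 * U ⟨l', h⟩ else 0) ≤
      2 * (1 / Wd.lam) * ssB p u (Wd.r (l + m) / 4) := by
    intro l
    have h1 : ∑ l' ∈ range (l + 1), (if h : l' < Wd.n then 2 * U ⟨l', h⟩ else 0) =
        2 * ∑ l' ∈ range (l + 1), (if h : l' < Wd.n then U ⟨l', h⟩ else 0) := by
      rw [mul_sum]
      refine sum_congr rfl fun l' _ => ?_
      split_ifs
      · rfl
      · rw [mul_zero]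
    rw [h1]
    have h2 := hcum0 l
    linarith only [h2]
  have key := follow_sum (n := Wd.n) (m := m) (f := fun l => ssB p u (Wd.r l / 4))
    (N := fun l => if h : l < Wd.n then 2 * U ⟨l, h⟩ else 0)
    (cost := fun l => if h : l < Wd.n then T1 ⟨l, h⟩ else 0)
    (e := e0) (b := Wd.k + e0) (A := 101 / Wd.lam) (K := 2 * (1 / Wd.lam)) he
    (fun l => ssB_ge hp u _) (fun l => ssB_le hp hpk u _)
    (fun a b hab => ssB_mono hp u (by have := s3_r_mono Wd hab; linarith only [this]))
    (fun l => by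
      show 0 ≤ (if h : l < Wd.n then 2 * U ⟨l, h⟩ else 0)
      split_ifs with hl
      · have := hU0 ⟨l, hl⟩
        linarith only [this]
      · exact le_rfl)
    (by positivity) (by positivity)
    (fun l => by
      show (if h : l < Wd.n then T1 ⟨l, h⟩ else 0) ≤ 101 / Wd.lam
      split_ifs
      · exact hT1a _
      · positivity)
    (fun l => by
      show (if h : l < Wd.n then T1 ⟨l, h⟩ else 0) ≤
        4 * (if h : l < Wd.n then 2 * U ⟨l, h⟩ else 0) / ssB p u (Wd.r l / 4)
      split_ifs with hl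
      · exact hTb ⟨l, hl⟩
      · rw [mul_zero, zero_div])
    hcum
  have h1 : ∑ l : Fin Wd.n, T1 l =
      ∑ l ∈ range Wd.n, (if h : l < Wd.n then T1 ⟨l, h⟩ else 0) := by
    rw [Finset.sum_range]
    refine sum_congr rfl fun l _ => ?_
    rw [dif_pos l.2]
  rw [← h1] at key
  have hlog : 0 ≤ Real.log ((Wd.k + e0) / e0) := by
    refine Real.log_nonneg ?_
    rw [one_le_div he]
    linarith only [hk]
  have hsh := ss_shift (fun i => Real.log (ssB p u (Wd.r i / 4))) (Real.log e0)
    (Real.log (Wd.k + e0)) hb hb' Wd.n 6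
  have hsh2 : ∑ l : Fin Wd.n,
      (Real.log (ssB p u (Wd.r (l + 6) / 4)) - Real.log (ssB p u (Wd.r l / 4))) =
      ∑ l ∈ range Wd.n,
        (Real.log (ssB p u (Wd.r (l + 6) / 4)) - Real.log (ssB p u (Wd.r l / 4))) := by
    rw [Finset.sum_range]
  have hd : Real.log (Wd.k + e0) - Real.log e0 = Real.log ((Wd.k + e0) / e0) := by
    rw [Real.log_div (by linarith only [he, hk]) he.ne']
  have h3 : ∑ l : Fin Wd.n, T l ≤ ∑ l : Fin Wd.n, T1 l + 3 * (101 / Wd.lam) *
      ∑ l : Fin Wd.n,
      (Real.log (ssB p u (Wd.r (l + 6) / 4)) - Real.log (ssB p u (Wd.r l / 4))) := by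
    rw [mul_sum, ← sum_add_distrib]
    exact sum_le_sum fun l _ => hTc l
  have h4 : ∑ l : Fin Wd.n,
      (Real.log (ssB p u (Wd.r (l + 6) / 4)) - Real.log (ssB p u (Wd.r l / 4))) ≤
      6 * Real.log ((Wd.k + e0) / e0) := by
    rw [hsh2, ← hd]
    exact_mod_cast hsh
  have hA : 0 ≤ 101 / Wd.lam := by positivity
  have h5 := mul_le_mul_of_nonneg_left h4 hA
  have h6 := mul_nonneg hA hlog
  unfold World.G2
  have h2 : 2 * (101 / Wd.lam) * m * Real.log ((Wd.k + e0) / e0) ≤
      2 * (101 / Wd.lam) * (14 + 12 * RR Wd.k) * Real.log ((Wd.k + e0) / e0) :=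
    mul_le_mul_of_nonneg_right (mul_le_mul_of_nonneg_left hm2 (by positivity)) hlog
  refine h3.trans ?_
  linarith only [key, h2, h5, h6]

end Vale.Agent.P304.Stp
end
end

section

section

/-! S4: the tree part of a step: tokens move `x → xd → x'`, the posterior becomes `p'`,
the tracks make a proximal step. -/

open Finset

set_option linter.unusedSectionVars false

namespace Vale.Agent.P304.Stp

open Vale.Agent.P304.Dyn

variable [StP]

variable {X J : Type} [MetricSpace X] [Fintype X] [DecidableEq X] [Fintype J] [DecidableEq J]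
  {Wd : World X} {η : ℝ}

theorem s4_M (Wd : World X) : (8 : ℝ) ≤ Wd.M := by
  have h1 := Wd.hM
  have h2 := Wd.hk
  linarith

theorem s4_log (Wd : World X) : 0 < Real.log ((Wd.M : ℝ) + 2) := by
  apply Real.log_pos
  have := s4_M Wd
  linarith only []

theorem s4_four_div (Wd : World X) : 4 / Wd.lam = 64 * Real.log ((Wd.M : ℝ) + 2) := by
  have := s4_log Wd
  unfold World.lam
  field_simp
  norm_num

theorem par_ok (Wd : World X) :
    Wd.k / (Wd.M + 2) + (Wd.lam + Wd.lam) * Real.log ((Wd.M + 2) / 2) < 1 / 2 := by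
  have hM := s4_M Wd
  have hlog := s4_log Wd
  have h1 : Wd.k / ((Wd.M : ℝ) + 2) ≤ 1 / 8 := by
    rw [div_le_div_iff₀ (by linarith only []) (by norm_num)]
    have := Wd.hM
    linarith
  have h2 : Real.log (((Wd.M : ℝ) + 2) / 2) ≤ Real.log ((Wd.M : ℝ) + 2) := by
    apply Real.log_le_log (by linarith only [hM])
    linarith only []
  have h3 : 0 < Wd.lam := lam_pos Wd
  have h4 : (Wd.lam + Wd.lam) * Real.log ((Wd.M : ℝ) + 2) = 1 / 8 := by
    unfold World.lam
    field_simp
    norm_num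
  have h5 := mul_le_mul_of_nonneg_left h2 (by linarith only [h3] : 0 ≤ Wd.lam + Wd.lam)
  (clear * - h1 h4 h5; linarith)

/-- existence of the new tracks -/
theorem exists_tracks (P : LPar η Wd.k J) {s : St Wd J P.B}
    (hl : ∀ π i, (s.y π i).length ≤ Wd.n) {p' : X → ℝ} (hp' : ∀ u, 0 ≤ p' u)
    (hpk : ∑ u, p' u ≤ Wd.k) (x' : Fin Wd.n → Conf X J)
    (hb : ∀ l : Fin Wd.n, Bal (Dl Wd.r0 l) p' (nuC η (x' l))) :
    ∃ s' : St Wd J P.B, s'.x = x' ∧ Inv P p' s' ∧
      ∀ π, Wd.lam * ∑ i, dn Wd.rho (s.y π i) (s'.y π i) ≤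
        pot Wd.rho Wd.lam p' (ad P x' π) (s.y π) - pot Wd.rho Wd.lam p' (ad P x' π) (s'.y π) := by
  choose y' hy' using fun π => exists_isStep Wd.n Wd.rho Wd.lam Wd.lam p' (ad P x' π) (s.y π)
  have hlam := lam_pos Wd
  refine ⟨⟨x', y'⟩, rfl, ⟨hb, fun π i => (hy' π).1 i, ?_, ?_⟩, fun π => (hy' π).cost_le (hl π)⟩
  · intro π N hN
    exact (hy' π).cnt_le_pm (rho_pos Wd) hlam.le hp' N hN
  · intro π u hu
    have hlen : (ad P x' π u).length = Wd.n := by
      apply ad_length_eq
      intro l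
      exact lab_ne_none (Dl_pm Wd.hr0 l) P π l (x' l) (hb l) hpk u hu
    refine ⟨hlen, ?_⟩
    have h1 := (hy' π).one_le_cnt_of (rho_pos Wd) hlam.le hlam.le hp' hpk (par_ok Wd) hlen
      Wd.hn hu
    unfold cnt at h1
    obtain ⟨i, hi⟩ := card_pos.mp h1
    rw [mem_filter] at hi
    refine ⟨i, ?_⟩
    have h2 := hi.2.length_le
    have h3 := (hy' π).1 i
    exact (hi.2.eq_of_length (by omega)).symm

/-- a node below a track carries the address of some point -/
theorem s4_alive (P : LPar η Wd.k J) {p : X → ℝ} {s : St Wd J P.B} (hI : Inv P p s)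
    (π : Dyn.Ord (GG Wd.n J P.B)) (i : Fin Wd.M) (N : List J) (hN : N ≠ []) (h : N <:+ s.y π i) :
    ∃ u, N <:+ ad P s.x π u := by
  by_contra hcon
  push Not at hcon
  have h1 := hI.dom π N hN
  have h2 : pm p (ad P s.x π) N = 0 := by
    unfold pm
    apply sum_eq_zero
    intro u _
    rw [if_neg (hcon u)]
  have h3 : 1 ≤ cnt (s.y π) N := by
    unfold cnt
    exact card_pos.mpr ⟨i, by simp only [mem_filter, mem_univ, h, and_self]⟩
  have h4 : (1 : ℝ) ≤ cnt (s.y π) N := by exact_mod_cast h3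
  have h5 := lam_pos Wd
  rw [h2] at h1
  nlinarith only [h1, h5, h4]

/-- all costs of the tracks are paid by the tree potential and the relabellings -/
theorem tracks_cost_le (P : LPar η Wd.k J) {p p' : X → ℝ} {s s' : St Wd J P.B}
    (hI : Inv P p s) (hI' : Inv P p' s') {xd : Fin Wd.n → Conf X J} (hm : Moved Wd s.x xd)
    (hA : ∀ l, Adm (xd l) (s'.x l))
    (hs : ∀ π, Wd.lam * ∑ i, dn Wd.rho (s.y π i) (s'.y π i) ≤
        pot Wd.rho Wd.lam p' (ad P s'.x π) (s.y π) - pot Wd.rho Wd.lam p' (ad P s'.x π) (s'.y π)) :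
    PhC s s' + TrC s s' + (4 / Wd.lam * EE (fun π => pot Wd.rho Wd.lam p' (ad P s'.x π) (s'.y π))
        + 2 * EE (fun π => ∑ i, hgt Wd.rho (s'.y π i)))
      ≤ EE (fun π => ∑ i, dist (loc Wd s.x (s.y π i)) (loc Wd xd (s.y π i)))
        + (4 / Wd.lam * EE (fun π => pot Wd.rho Wd.lam p' (ad P s'.x π) (s.y π))
        + 2 * EE (fun π => ∑ i, hgt Wd.rho (s.y π i))) := by
  unfold PhC TrC
  rw [← EE_mul, ← EE_mul, ← EE_mul, ← EE_mul, ← EE_add, ← EE_add, ← EE_add, ← EE_add, ← EE_add]
  apply EE_mono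
  intro π
  have hlam := lam_pos Wd
  have h1 : ∑ i, dist (loc Wd s.x (s.y π i)) (loc Wd s'.x (s'.y π i)) ≤
      ∑ i, dist (loc Wd s.x (s.y π i)) (loc Wd xd (s.y π i)) +
        ∑ i, (dn Wd.rho (s.y π i) (s'.y π i) + dn Wd.rho (s'.y π i) (s.y π i)) := by
    rw [← sum_add_distrib]
    apply sum_le_sum
    intro i _
    exact place_le P hm hA π _ _ (fun N hN h => s4_alive P hI π i N hN h)
      (fun N hN h => s4_alive P hI' π i N hN h)
  have h2 : ∑ i, hgt Wd.rho (s'.y π i) - ∑ i, hgt Wd.rho (s.y π i) =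
      ∑ i, dn Wd.rho (s.y π i) (s'.y π i) - ∑ i, dn Wd.rho (s'.y π i) (s.y π i) := by
    rw [← sum_sub_distrib, ← sum_sub_distrib]
    apply sum_congr rfl
    intro i _
    exact hgt_sub_hgt _ _ _
  have h3 : 4 * ∑ i, dn Wd.rho (s.y π i) (s'.y π i) ≤
      4 / Wd.lam * pot Wd.rho Wd.lam p' (ad P s'.x π) (s.y π) -
        4 / Wd.lam * pot Wd.rho Wd.lam p' (ad P s'.x π) (s'.y π) := by
    have h4 := mul_le_mul_of_nonneg_left (hs π) (by (clear * - hlam; positivity) : 0 ≤ 4 / Wd.lam)
    have h5 : 4 / Wd.lam * (Wd.lam * ∑ i, dn Wd.rho (s.y π i) (s'.y π i)) =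
        4 * ∑ i, dn Wd.rho (s.y π i) (s'.y π i) := by (clear * - hlam; field_simp)
    rw [h5, mul_sub] at h4
    exact h4
  rw [sum_add_distrib] at h1 ⊢
  linarith only [h1, h2, h3]

theorem s4_wt_nonneg (Wd : World X) (l : ℕ) : 0 ≤ Wd.wt l := by
  unfold World.wt World.r
  have h1 := RR_ge Wd.hk
  have h2 := Wd.hr0
  positivity

theorem s4_XC_nonneg (P : LPar η Wd.k J) (x x' : Fin Wd.n → Conf X J) (u v : X) :
    0 ≤ XC P x x' u v := by
  unfold XC
  apply EE_nonneg
  intro π
  apply sum_nonneg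
  intro l _
  have := s4_wt_nonneg Wd l
  split_ifs
  · simp
  · simpa only [mul_one, ge_iff_le] using this

/-- the common estimate: a plan `a` and a change of addresses -/
theorem s4_EE_le (P : LPar η Wd.k J) {a : X → X → ℝ} (ha : ∀ u v, 0 ≤ a u v)
    (x x' : Fin Wd.n → Conf X J) :
    4 / Wd.lam * EE (fun π => Real.log ((Wd.M : ℝ) + 1) * ∑ u, ∑ v, a u v *
        dn Wd.rho (ad P x' π v) (ad P x π u)) ≤
      32 * Real.log (Wd.M + 2) ^ 2 * ∑ u, ∑ v, a u v * XC P x x' u v := by
  have hM := s4_M Wd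
  have hlog := s4_log Wd
  have hl1 : 0 ≤ Real.log ((Wd.M : ℝ) + 1) := Real.log_nonneg (by linarith only [])
  have hl2 : Real.log ((Wd.M : ℝ) + 1) ≤ Real.log ((Wd.M : ℝ) + 2) :=
    Real.log_le_log (by linarith only []) (by linarith only [])
  have h1 : EE (fun π => ∑ u, ∑ v, a u v * dn Wd.rho (ad P x' π v) (ad P x π u)) ≤
      1 / 2 * ∑ u, ∑ v, a u v * XC P x x' u v := by
    have e1 : (1 / 2 : ℝ) * ∑ u, ∑ v, a u v * XC P x x' u v =
        EE (fun π : Dyn.Ord (GG Wd.n J P.B) => ∑ u, ∑ v, a u v * (1 / 2 * ∑ l : Fin Wd.n, Wd.wt l *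
          (if labS P x π l u = labS P x' π l v then (0 : ℝ) else 1))) := by
      rw [EE_sum, mul_sum]
      apply sum_congr rfl
      intro u _
      rw [EE_sum, mul_sum]
      apply sum_congr rfl
      intro v _
      rw [EE_mul, EE_mul]
      unfold XC
      ring
    rw [e1]
    apply EE_mono
    intro π
    apply sum_le_sum
    intro u _
    apply sum_le_sum
    intro v _
    apply mul_le_mul_of_nonneg_left _ (ha u v)
    have := dn_ad_le P x x' π u v
    linarith only [this]
  have h2 : 0 ≤ ∑ u, ∑ v, a u v * XC P x x' u v :=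
    sum_nonneg fun u _ => sum_nonneg fun v _ => mul_nonneg (ha u v) (s4_XC_nonneg P x x' u v)
  rw [EE_mul, s4_four_div]
  calc 64 * Real.log ((Wd.M : ℝ) + 2) * (Real.log ((Wd.M : ℝ) + 1) *
        EE (fun π => ∑ u, ∑ v, a u v * dn Wd.rho (ad P x' π v) (ad P x π u)))
      ≤ 64 * Real.log ((Wd.M : ℝ) + 2) * (Real.log ((Wd.M : ℝ) + 1) *
        (1 / 2 * ∑ u, ∑ v, a u v * XC P x x' u v)) := by gcongr
    _ ≤ 64 * Real.log ((Wd.M : ℝ) + 2) * (Real.log ((Wd.M : ℝ) + 2) *
        (1 / 2 * ∑ u, ∑ v, a u v * XC P x x' u v)) := by gcongr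
    _ = _ := by ring

/-- change of the tree potential by relabellings -/
theorem pot_relabel_le (P : LPar η Wd.k J) {p : X → ℝ} (hp : ∀ u, 0 ≤ p u)
    (x x' : Fin Wd.n → Conf X J) (y : Dyn.Ord (GG Wd.n J P.B) → Fin Wd.M → List J) :
    4 / Wd.lam * EE (fun π => pot Wd.rho Wd.lam p (ad P x' π) (y π)) ≤
      4 / Wd.lam * EE (fun π => pot Wd.rho Wd.lam p (ad P x π) (y π))
        + 32 * Real.log (Wd.M + 2) ^ 2 * ∑ u, p u * XC P x x' u u := by
  have hlam := lam_pos Wd
  have hd : ∀ (h : X → X → ℝ), ∑ u, ∑ v, (if u = v then p u else 0) * h u v =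
      ∑ u, p u * h u u := by
    intro h
    apply sum_congr rfl
    intro u _
    simp only [ite_mul, zero_mul, sum_ite_eq, mem_univ, ↓reduceIte]
  have h1 := s4_EE_le P (a := fun u v => if u = v then p u else 0)
    (fun u v => by split_ifs <;> [exact hp u; exact le_rfl]) x x'
  simp only [hd] at h1
  have h2 : EE (fun π => pot Wd.rho Wd.lam p (ad P x' π) (y π)) ≤
      EE (fun π => pot Wd.rho Wd.lam p (ad P x π) (y π)) +
        EE (fun π => Real.log ((Wd.M : ℝ) + 1) * ∑ u, p u *
          dn Wd.rho (ad P x' π u) (ad P x π u)) := by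
    rw [← EE_add]
    apply EE_mono
    intro π
    exact pot_addr_le (fun m => (rho_pos Wd m).le) Wd.lam hp (ad P x π) (ad P x' π) (y π)
  have h3 := mul_le_mul_of_nonneg_left h2 (by (clear * - hlam; positivity) : 0 ≤ 4 / Wd.lam)
  rw [mul_add] at h3
  linarith only [h1, h3]

/-- the potential after a push -/
theorem s4_pot_push {M : ℕ} {ρ : ℕ → ℝ} (hρ : ∀ m, 0 ≤ ρ m) (lam : ℝ) {p : X → ℝ}
    {a : X → X → ℝ} (ha : ∀ u v, 0 ≤ a u v) (ad : X → List J) (y : Fin M → List J) :
    pot ρ lam (push p a) ad y ≤ pot ρ lam p ad y +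
      Real.log (M + 1) * ∑ u, ∑ v, a u v * dn ρ (ad v) (ad u) := by
  unfold pot push
  set L : X → ℝ := fun u => ∑ N ∈ sf (ad u), ρ N.length * Real.log (cnt y N + 1) with hL
  have h1 : ∑ x, (p x + ∑ u, a u x - ∑ v, a x v) * L x =
      ∑ x, p x * L x - ∑ u, ∑ v, a u v * (L u - L v) := by
    have e1 : ∑ x, (∑ u, a u x) * L x = ∑ u, ∑ v, a u v * L v := by
      rw [sum_comm]
      apply sum_congr rfl
      intro x _
      rw [sum_mul]
    have e2 : ∑ x, (∑ v, a x v) * L x = ∑ u, ∑ v, a u v * L u := by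
      apply sum_congr rfl
      intro x _
      rw [sum_mul]
    have e3 : ∑ u, ∑ v, a u v * (L u - L v) =
        ∑ u, ∑ v, a u v * L u - ∑ u, ∑ v, a u v * L v := by
      rw [← sum_sub_distrib]
      apply sum_congr rfl
      intro x _
      rw [← sum_sub_distrib]
      apply sum_congr rfl
      intro v _
      ring
    rw [e3, ← e1, ← e2, ← sum_sub_distrib, ← sum_sub_distrib]
    apply sum_congr rfl
    intro x _
    ring
  have h2 : ∑ u, ∑ v, a u v * (L u - L v) ≤
      Real.log (M + 1) * ∑ u, ∑ v, a u v * dn ρ (ad v) (ad u) := by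
    rw [mul_sum]
    apply sum_le_sum
    intro u _
    rw [mul_sum]
    apply sum_le_sum
    intro v _
    have h3 := mul_le_mul_of_nonneg_left (addr_change hρ y (ad u) (ad v)) (ha u v)
    calc a u v * (L u - L v) ≤ a u v * (Real.log (M + 1) * dn ρ (ad v) (ad u)) := h3
      _ = _ := by ring
  rw [h1]
  linarith

/-- change of the tree potential by transport of mass -/
theorem pot_push_le (P : LPar η Wd.k J) {p : X → ℝ} {a : X → X → ℝ} (ha : ∀ u v, 0 ≤ a u v)
    (x : Fin Wd.n → Conf X J) (y : Dyn.Ord (GG Wd.n J P.B) → Fin Wd.M → List J) :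
    4 / Wd.lam * EE (fun π => pot Wd.rho Wd.lam (push p a) (ad P x π) (y π)) ≤
      4 / Wd.lam * EE (fun π => pot Wd.rho Wd.lam p (ad P x π) (y π))
        + 32 * Real.log (Wd.M + 2) ^ 2 * ∑ u, ∑ v, a u v * XC P x x u v := by
  have hlam := lam_pos Wd
  have h1 := s4_EE_le P ha x x
  have h2 : EE (fun π => pot Wd.rho Wd.lam (push p a) (ad P x π) (y π)) ≤
      EE (fun π => pot Wd.rho Wd.lam p (ad P x π) (y π)) +
        EE (fun π => Real.log ((Wd.M : ℝ) + 1) * ∑ u, ∑ v, a u v *
          dn Wd.rho (ad P x π v) (ad P x π u)) := by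
    rw [← EE_add]
    apply EE_mono
    intro π
    exact s4_pot_push (fun m => (rho_pos Wd m).le) Wd.lam ha (ad P x π) (y π)
  have h3 := mul_le_mul_of_nonneg_left h2 (by positivity : 0 ≤ 4 / Wd.lam)
  rw [mul_add] at h3
  linarith

end Vale.Agent.P304.Stp
end
end
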