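import Vale.Agent.P304.Stp.S5

set_option linter.all false

section

section

set_option linter.all false

/-! S5: the info step and the `T`-step. -/

open Finset

namespace Vale.Agent.P304.Stp

open Vale.Agent.P304.Dyn

variable [StP]

variable {X J : Type} [MetricSpace X] [Fintype X] [DecidableEq X] [Fintype J] [DecidableEq J]
  {Wd : World X} {η : ℝ}

/-! ### auxiliary facts -/

theorem s5_r_pos (Wd : World X) (l : ℕ) : 0 < Wd.r l := by
  unfold World.r
  have := Wd.hr0
  positivity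

theorem s5_r_Dl (Wd : World X) (l : ℕ) (u v : X) : Wd.r l * Dl Wd.r0 l u v = dist u v := by
  have h := s5_r_pos Wd l
  have h0 := Wd.hr0
  have h2 : (0:ℝ) < 2 ^ l := by positivity
  unfold World.r at h
  unfold Dl World.r
  rw [mul_div_assoc', mul_comm, mul_div_assoc, div_self h.ne', mul_one]

theorem s5_Gk {k : ℝ} (hk : 1 ≤ k) : 0 ≤ Gk k := by
  have h1 : 0 ≤ Real.log k := Real.log_nonneg hk
  have h2 := slp_pos
  unfold Gk
  positivity

theorem s5_RR (Wd : World X) : 0 < RR Wd.k := by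
  have := RR_ge Wd.hk
  linarith

/-- probability that the labels differ -/
noncomputable def EL (P : LPar η Wd.k J) (l : Fin Wd.n) (x x' : Conf X J) (u v : X) : ℝ :=
  EE (fun π : Dyn.Ord (GG Wd.n J P.B) =>
    if lab Wd.k P.Q P.Ne (Dl Wd.r0 l) π l x u = lab Wd.k P.Q P.Ne (Dl Wd.r0 l) π l x' v
      then (0 : ℝ) else 1)

theorem EL_le_one (P : LPar η Wd.k J) (l : Fin Wd.n) (x x' : Conf X J) (u v : X) :
    EL P l x x' u v ≤ 1 := by
  unfold EL
  apply EE_le_of_le
  intro π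
  split_ifs
  · exact zero_le_one
  · exact le_rfl

theorem EL_tri (P : LPar η Wd.k J) (l : Fin Wd.n) (x xd x' : Conf X J) (u v w : X) :
    EL P l x x' u w ≤ EL P l x xd u v + EL P l xd x' v w := by
  unfold EL
  rw [← EE_add]
  apply EE_mono
  intro π
  split_ifs with h1 h2 h3 h3 h2 h3 h3
  · norm_num
  · norm_num
  · norm_num
  · norm_num
  · exact absurd (h2.trans h3) h1
  · norm_num
  · norm_num
  · norm_num

theorem XC_eq (P : LPar η Wd.k J) (x x' : Fin Wd.n → Conf X J) (u v : X) :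
    XC P x x' u v = ∑ l : Fin Wd.n, Wd.wt l * EL P l (x l) (x' l) u v := by
  unfold XC EL
  rw [EE_sum]
  refine Finset.sum_congr rfl fun l _ => ?_
  exact EE_mul _ _

theorem s5_sum_XC (P : LPar η Wd.k J) (x x' : Fin Wd.n → Conf X J) (q : X → ℝ) :
    ∑ u, q u * XC P x x' u u =
      24 * RR Wd.k * ∑ l : Fin Wd.n, Wd.r l * ∑ u, q u * EL P l (x l) (x' l) u u := by
  simp only [XC_eq, mul_sum]
  rw [Finset.sum_comm]
  refine Finset.sum_congr rfl fun l _ => Finset.sum_congr rfl fun u _ => ?_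
  unfold World.wt
  ring

theorem s5_alive {x xd : Conf X J} (h : ∀ j, (x j).2 = (xd j).2) :
    ∑ c, nuC η xd c = ∑ c, nuC η x c := by
  rw [sum_nuC, sum_nuC]
  congr 3
  ext j
  simp only [mem_filter, mem_univ, true_and, h j]

theorem s5_dragged {D : X → X → ℝ} (hD : PM D) {ν : X → ℝ} (hν : ∀ c, 0 ≤ ν c)
    {a : X → X → ℝ} (ha : ∀ u v, 0 ≤ a u v) (hα : ∑ u, ∑ v, a u v ≤ e0) (c : X) :
    0 ≤ dragged D ν a c := by
  unfold dragged
  have h1 := sum_dragm_le hD hν ha c
  have h2 : 0 ≤ ∑ c', dragm D ν a c' c := Finset.sum_nonneg fun c' _ => dragm_nonneg hD hν ha c' c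
  have h3 : (∑ u, ∑ v, a u v) / e0 * ν c ≤ 1 * ν c :=
    mul_le_mul_of_nonneg_right ((div_le_one k5_e0_pos).2 hα) (hν c)
  linarith only [h1, h2, h3]

/-- the token part of a step at one level -/
theorem s5_level {D : X → X → ℝ} (hD : PM D) {k : ℝ} (P : LPar η k J) [Nonempty X] {p : X → ℝ}
    {x : Conf X J} (h : Bal D p (nuC η x)) (hpk : ∑ u, p u ≤ k) {a : X → X → ℝ}
    (ha : ∀ u v, 0 ≤ a u v) (hap : ∀ u, ∑ v, a u v ≤ p u) (hα : ∑ u, ∑ v, a u v ≤ e0 / 8)
    (ω : J → ℝ) (hω : ∀ j, 0 ≤ ω j) :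
    ∃ xd x' : Conf X J, DragMove D η a x xd ∧ Adm xd x' ∧ Bal D (push p a) (nuC η x') ∧
      FF D (push p a) (nuC η x')
        + 1 / 2 * (η * chg xd x' + ∑ u, ∑ v, a u v * GP D p (nuC η x) u v) ≤ FF D p (nuC η x)
        + ∑ u, ∑ v, a u v * (if slp * D u v ≤ 1 / 32 then
            600 * (D u v * gs D p (nuC η x) u) + 8000 * slp * D u v ^ 2 else Real.log (60 * k))
        + 4000 * k * (∑ u, ∑ v, a u v) ^ 2
        + (1 + k / e0) * (2 * η * (Fintype.card X : ℝ) ^ 2) ∧
      ∑ j, ω j * D (x j).1 (xd j).1 ≤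
        130 * ∑ u, ∑ v, a u v * ((if slp * D u v ≤ 1 / 32 then D u v else 0) *
          ∑ c ∈ univ.filter (fun c => D u c ≤ 3), kern D u c / SS D (nuC η x) u *
            ∑ j ∈ univ.filter (fun j => x j = (c, true)), ω j) := by
  have he0 := k5_e0_pos
  have hη := P.hη
  have hα2 : ∑ u, ∑ v, a u v ≤ e0 / 2 := by linarith only [hα, he0]
  have hα1 : ∑ u, ∑ v, a u v ≤ e0 := by linarith
  obtain ⟨xd, hd, h1, h2⟩ := exists_drag hD P x h ha hα2 ω hω
  have hpn : ∀ u, 0 ≤ push p a u := k5_push_nonneg ha hap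
  have hps : ∑ u, push p a u ≤ k := by
    rw [k5_sum_push]
    exact hpk
  have hν := h.hν
  have hal : ∑ c, nuC η xd c = ∑ c, nuC η x c := by
    apply s5_alive
    intro j
    rcases hd.mv j with h3 | ⟨h3, h4, -⟩
    · rw [h3]
    · rw [h3, h4]
  have hxd : ∑ c, nuC η xd c ≤ 5 / 2 * k := by
    rw [hal]
    have := sum_nu_le h
    linarith only [hpk, this]
  obtain ⟨x', hA, hB, hF⟩ := exists_tokprox hD P hpn hps xd hxd
  refine ⟨xd, x', hd, hA, hB, ?_, h2.trans (follow_le hD x hη ha ω hω)⟩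
  have g1 := FF_lip hD hpn (ν := dragged D (nuC η x) a) (ν' := nuC η xd)
    (s5_dragged hD hν ha hα1) (nuC_nonneg hη.le xd)
  have g2 := FF_plan_le hD h P.hk hpk ha hap hα
  have g3 : (1 + (∑ x, push p a x) / e0) * ∑ c, |nuC η xd c - dragged D (nuC η x) a c| ≤
      (1 + k / e0) * (2 * η * (Fintype.card X : ℝ) ^ 2) := by
    apply mul_le_mul _ h1 (Finset.sum_nonneg fun c _ => abs_nonneg _)
    · have := P.hk
      (clear * - this he0; positivity)
    · have : (∑ x, push p a x) / e0 ≤ k / e0 := div_le_div_of_nonneg_right hps he0.le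
      linarith only [this]
  have g4 : ∑ u, ∑ v, a u v * drift D p (nuC η x) u v
        + 1 / 2 * ∑ u, ∑ v, a u v * GP D p (nuC η x) u v ≤
      ∑ u, ∑ v, a u v * (if slp * D u v ≤ 1 / 32 then
            600 * (D u v * gs D p (nuC η x) u) + 8000 * slp * D u v ^ 2 else Real.log (60 * k)) := by
    have g5 : 1 / 2 * ∑ u, ∑ v, a u v * GP D p (nuC η x) u v =
        ∑ u, ∑ v, a u v * (1 / 2 * GP D p (nuC η x) u v) := by
      simp only [mul_sum]
      refine Finset.sum_congr rfl fun u _ => Finset.sum_congr rfl fun v _ => ?_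
      ring
    rw [g5, ← Finset.sum_add_distrib]
    refine Finset.sum_le_sum fun u _ => ?_
    rw [← Finset.sum_add_distrib]
    refine Finset.sum_le_sum fun v _ => ?_
    rw [← mul_add]
    apply mul_le_mul_of_nonneg_left _ (ha u v)
    split_ifs with huv
    · have := drift_le hD h u v huv
      refine this.trans (le_of_eq ?_)
      ring
    · have g6 := GP_eq_zero (p := p) (ν := nuC η x) u v (not_le.1 huv)
      rw [g6, mul_zero, add_zero]
      exact drift_le_of_large hD h P.hk hpk u v (not_le.1 huv)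
  linarith

/-- the token part of a step at all levels: drags along the plan, then proximal steps -/
theorem exists_tokens (P : LPar η Wd.k J) {p : X → ℝ} {s : St Wd J P.B} (hI : Inv P p s)
    (hpk : ∑ u, p u ≤ Wd.k) {a : X → X → ℝ} (ha : ∀ u v, 0 ≤ a u v)
    (hap : ∀ u, ∑ v, a u v ≤ p u) (hα : ∑ u, ∑ v, a u v ≤ e0 / 8) :
    ∃ xd x' : Fin Wd.n → Conf X J, Moved Wd s.x xd ∧ (∀ l, Adm (xd l) (x' l)) ∧
      (∀ l : Fin Wd.n, Bal (Dl Wd.r0 l) (push p a) (nuC η (x' l))) ∧
      (∀ l : Fin Wd.n, DragMove (Dl Wd.r0 l) η a (s.x l) (xd l)) ∧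
      (∀ l : Fin Wd.n, FF (Dl Wd.r0 l) (push p a) (nuC η (x' l))
          + 1 / 2 * (η * chg (xd l) (x' l)
            + ∑ u, ∑ v, a u v * GP (Dl Wd.r0 l) p (nuC η (s.x l)) u v) ≤
        FF (Dl Wd.r0 l) p (nuC η (s.x l))
        + ∑ u, ∑ v, a u v * (if slp * Dl Wd.r0 l u v ≤ 1 / 32 then
            600 * (Dl Wd.r0 l u v * gs (Dl Wd.r0 l) p (nuC η (s.x l)) u)
              + 8000 * slp * Dl Wd.r0 l u v ^ 2
            else Real.log (60 * Wd.k))
        + 4000 * Wd.k * (∑ u, ∑ v, a u v) ^ 2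
        + (1 + Wd.k / e0) * (2 * η * (Fintype.card X : ℝ) ^ 2)) ∧
      EE (fun π => ∑ i, dist (loc Wd s.x (s.y π i)) (loc Wd xd (s.y π i)))
        ≤ 130 * Wd.G2 * ∑ u, ∑ v, a u v * dist u v := by
  have hX : Nonempty X := ⟨Wd.x0⟩
  have key := fun l : Fin Wd.n => s5_level (Dl_pm (X := X) Wd.hr0 l) P (hI.bal l) hpk ha hap hα
    (om P s l) (om_nonneg P s l)
  choose xd x' hd hA hB hF hfo using key
  refine ⟨xd, x', fun l j => (hd l).mv j, hA, hB, hd, hF, ?_⟩
  rw [follow_eq P s hI.len xd]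
  have h1 : ∀ l : Fin Wd.n, Wd.r l * ∑ j, om P s l j * Dl Wd.r0 l (s.x l j).1 (xd l j).1 ≤
      ∑ u, ∑ v, 130 * (a u v * dist u v * ∑ c ∈ univ.filter (fun c => Dl Wd.r0 l u c ≤ 3),
        kern (Dl Wd.r0 l) u c / SS (Dl Wd.r0 l) (nuC η (s.x l)) u *
          ∑ j ∈ univ.filter (fun j => s.x l j = (c, true)), om P s l j) := by
    intro l
    have hr := s5_r_pos Wd l
    refine (mul_le_mul_of_nonneg_left (hfo l) hr.le).trans ?_
    rw [Finset.mul_sum, Finset.mul_sum]
    refine Finset.sum_le_sum fun u _ => ?_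
    rw [Finset.mul_sum, Finset.mul_sum]
    refine Finset.sum_le_sum fun v _ => ?_
    set N := ∑ c ∈ univ.filter (fun c => Dl Wd.r0 l u c ≤ 3),
        kern (Dl Wd.r0 l) u c / SS (Dl Wd.r0 l) (nuC η (s.x l)) u *
          ∑ j ∈ univ.filter (fun j => s.x l j = (c, true)), om P s l j with hN
    have hN0 : 0 ≤ N := Finset.sum_nonneg fun c _ => mul_nonneg
      (div_nonneg (kern_pos u c).le (SS_pos (hI.bal l).hν u).le)
      (Finset.sum_nonneg fun j _ => om_nonneg P s l j)
    have e1 : Wd.r l * (if slp * Dl Wd.r0 l u v ≤ 1 / 32 then Dl Wd.r0 l u v else 0) ≤ dist u v := by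
      split_ifs
      · exact (s5_r_Dl Wd l u v).le
      · rw [mul_zero]
        exact dist_nonneg
    have e2 : (a u v * N) * (Wd.r l * (if slp * Dl Wd.r0 l u v ≤ 1 / 32 then Dl Wd.r0 l u v else 0)) ≤
        (a u v * N) * dist u v := mul_le_mul_of_nonneg_left e1 (mul_nonneg (ha u v) hN0)
    linarith only [e2]
  refine (Finset.sum_le_sum fun l _ => h1 l).trans ?_
  rw [Finset.sum_comm, Finset.mul_sum]
  refine Finset.sum_le_sum fun u _ => ?_
  rw [Finset.sum_comm, Finset.mul_sum]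
  refine Finset.sum_le_sum fun v _ => ?_
  rw [← Finset.mul_sum, ← Finset.mul_sum]
  have e3 := follow_sum_le P hI hpk u
  have e4 : (a u v * dist u v) * (∑ l : Fin Wd.n, ∑ c ∈ univ.filter (fun c => Dl Wd.r0 l u c ≤ 3),
        kern (Dl Wd.r0 l) u c / SS (Dl Wd.r0 l) (nuC η (s.x l)) u *
          ∑ j ∈ univ.filter (fun j => s.x l j = (c, true)), om P s l j) ≤
      (a u v * dist u v) * Wd.G2 := mul_le_mul_of_nonneg_left e3 (mul_nonneg (ha u v) dist_nonneg)
  linarith

/-- mass-weighted relabelling cost of the whole token step -/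
theorem relabel_total (P : LPar η Wd.k J) {p : X → ℝ} {x xd x' : Fin Wd.n → Conf X J}
    (hb : ∀ l : Fin Wd.n, Bal (Dl Wd.r0 l) p (nuC η (x l)))
    (hpk : ∑ u, p u ≤ Wd.k) {a : X → X → ℝ} (ha : ∀ u v, 0 ≤ a u v)
    (hap : ∀ u, ∑ v, a u v ≤ p u)
    (hd : ∀ l : Fin Wd.n, DragMove (Dl Wd.r0 l) η a (x l) (xd l))
    (hA : ∀ l, Adm (xd l) (x' l))
    (hb' : ∀ l : Fin Wd.n, Bal (Dl Wd.r0 l) (push p a) (nuC η (x' l))) :
    ∑ u, push p a u * XC P x x' u u ≤
      24 * RR Wd.k * (∑ l : Fin Wd.n, Wd.r l * (200 * (η * chg (xd l) (x' l)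
          + ∑ u, ∑ v, a u v * GP (Dl Wd.r0 l) p (nuC η (x l)) u v))
        + 1200000 * Gk Wd.k * ∑ u, ∑ v, a u v * dist u v
        + ∑ l : Fin Wd.n, Wd.r l * (200 * (∑ u, ∑ v, a u v) ^ 2
            + 200 * Wd.k * (η * Fintype.card J / P.Q))) := by
  have hpn : ∀ u, 0 ≤ push p a u := k5_push_nonneg ha hap
  have hps : ∑ u, push p a u ≤ Wd.k := by
    rw [k5_sum_push]
    exact hpk
  rw [s5_sum_XC]
  have hRR : 0 ≤ 24 * RR Wd.k := by
    have := s5_RR Wd
    (clear * - this; positivity)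
  apply mul_le_mul_of_nonneg_left _ hRR
  set C := 200 * (∑ u, ∑ v, a u v) ^ 2 + 200 * Wd.k * (η * Fintype.card J / P.Q) with hC
  have h1 : ∀ l : Fin Wd.n, ∑ u, push p a u * EL P l (x l) (x' l) u u ≤
      200 * (η * chg (xd l) (x' l) + ∑ u, ∑ v, a u v * GP (Dl Wd.r0 l) p (nuC η (x l)) u v) +
        1200000 * ∑ u, ∑ v, a u v * sg (Dl Wd.r0 l) p (nuC η (x l)) u v + C := by
    intro l
    have e1 := relabel_drag (Dl_pm (X := X) Wd.hr0 l) P l (x l) (xd l) (hb l) hpk ha hap (hd l)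
    have e2 := relabel_prox (Dl_pm (X := X) Wd.hr0 l) P l (xd l) (x' l) (hb' l) hps (hA l)
    have e3 : ∑ u, push p a u * EL P l (x l) (x' l) u u ≤
        ∑ u, push p a u * EL P l (x l) (xd l) u u + ∑ u, push p a u * EL P l (xd l) (x' l) u u := by
      rw [← Finset.sum_add_distrib]
      refine Finset.sum_le_sum fun u _ => ?_
      rw [← mul_add]
      exact mul_le_mul_of_nonneg_left (EL_tri P l _ _ _ u u u) (hpn u)
    have e4 : ∑ u, push p a u * EL P l (x l) (xd l) u u ≤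
        1200000 * ∑ u, ∑ v, a u v * sg (Dl Wd.r0 l) p (nuC η (x l)) u v
          + 200 * ∑ u, ∑ v, a u v * GP (Dl Wd.r0 l) p (nuC η (x l)) u v
          + 200 * (∑ u, ∑ v, a u v) ^ 2 + 200 * Wd.k * (η * Fintype.card J / P.Q) := e1
    have e5 : ∑ u, push p a u * EL P l (xd l) (x' l) u u ≤ 200 * η * chg (xd l) (x' l) := e2
    linarith only [e3, e4, e5]
  have h2 : ∑ l : Fin Wd.n, Wd.r l * ∑ u, push p a u * EL P l (x l) (x' l) u u ≤
      ∑ l : Fin Wd.n, (Wd.r l * (200 * (η * chg (xd l) (x' l)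
          + ∑ u, ∑ v, a u v * GP (Dl Wd.r0 l) p (nuC η (x l)) u v)) +
        1200000 * (Wd.r l * ∑ u, ∑ v, a u v * sg (Dl Wd.r0 l) p (nuC η (x l)) u v)
          + Wd.r l * C) := by
    refine Finset.sum_le_sum fun l _ => ?_
    refine (mul_le_mul_of_nonneg_left (h1 l) (s5_r_pos Wd l).le).trans (le_of_eq ?_)
    ring
  rw [Finset.sum_add_distrib, Finset.sum_add_distrib, ← Finset.mul_sum] at h2
  have h3 : ∑ l : Fin Wd.n, Wd.r l * ∑ u, ∑ v, a u v * sg (Dl Wd.r0 l) p (nuC η (x l)) u v ≤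
      Gk Wd.k * ∑ u, ∑ v, a u v * dist u v := by
    have e1 : ∀ l : Fin Wd.n, Wd.r l * ∑ u, ∑ v, a u v * sg (Dl Wd.r0 l) p (nuC η (x l)) u v ≤
        ∑ u, ∑ v, a u v * dist u v * gs (Dl Wd.r0 l) p (nuC η (x l)) u := by
      intro l
      rw [Finset.mul_sum]
      refine Finset.sum_le_sum fun u _ => ?_
      rw [Finset.mul_sum]
      refine Finset.sum_le_sum fun v _ => ?_
      have hg := gs_nonneg (Dl_pm (X := X) Wd.hr0 l) (hb l) u
      have e2 : Wd.r l * sg (Dl Wd.r0 l) p (nuC η (x l)) u v ≤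
          dist u v * gs (Dl Wd.r0 l) p (nuC η (x l)) u := by
        unfold sg
        split_ifs
        · rw [← mul_assoc, s5_r_Dl]
        · rw [mul_zero]
          exact mul_nonneg dist_nonneg hg
      have e3 := mul_le_mul_of_nonneg_left e2 (ha u v)
      linarith only [e3]
    refine (Finset.sum_le_sum fun l _ => e1 l).trans ?_
    rw [Finset.sum_comm, Finset.mul_sum]
    refine Finset.sum_le_sum fun u _ => ?_
    rw [Finset.sum_comm, Finset.mul_sum]
    refine Finset.sum_le_sum fun v _ => ?_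
    rw [← Finset.mul_sum]
    have e4 := sum_gs_le Wd.hr0 Wd.n (ν := fun l => nuC η (x l)) Wd.hk Wd.hsl hpk hb u
    have e5 := mul_le_mul_of_nonneg_left e4 (mul_nonneg (ha u v) (dist_nonneg (x := u) (y := v)))
    linarith only [e5]
  linarith only [h2, h3]

/-- own cuts -/
theorem cut_total (P : LPar η Wd.k J) {p : X → ℝ} {x : Fin Wd.n → Conf X J}
    (hb : ∀ l : Fin Wd.n, Bal (Dl Wd.r0 l) p (nuC η (x l)))
    (hpk : ∑ u, p u ≤ Wd.k) (u v : X) :
    XC P x x u v ≤ 24 * RR Wd.k * ((3000 * Gk Wd.k + 64 * slp) * dist u v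
      + ∑ l : Fin Wd.n, Wd.r l * (200 * (η * Fintype.card J / P.Q))) := by
  have hη := P.hη
  have hRR : 0 ≤ 24 * RR Wd.k := by
    have := s5_RR Wd
    positivity
  set q := 200 * (η * Fintype.card J / P.Q) with hq
  have hq0 : 0 ≤ q := by (clear * - hη; positivity)
  have e0' : XC P x x u v = 24 * RR Wd.k * ∑ l : Fin Wd.n, Wd.r l * EL P l (x l) (x l) u v := by
    rw [XC_eq, Finset.mul_sum]
    refine Finset.sum_congr rfl fun l _ => ?_
    unfold World.wt
    ring
  rw [e0']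
  apply mul_le_mul_of_nonneg_left _ hRR
  have h1 : ∀ l : Fin Wd.n, Wd.r l * EL P l (x l) (x l) u v ≤
      3000 * (dist u v * gs (Dl Wd.r0 l) p (nuC η (x l)) u)
        + (if slp * (dist u v / (Wd.r0 * 2 ^ (l : ℕ))) ≤ 1 / 32 then 0 else Wd.r0 * 2 ^ (l : ℕ))
        + Wd.r l * q := by
    intro l
    have hr := s5_r_pos Wd l
    have hg := gs_nonneg (Dl_pm (X := X) Wd.hr0 l) (hb l) u
    have hrq : 0 ≤ Wd.r l * q := mul_nonneg hr.le hq0
    split_ifs with h
    · have e1 := own_cut (Dl_pm (X := X) Wd.hr0 l) P l (x l) (hb l) hpk u v h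
      have e2 : EL P l (x l) (x l) u v ≤
          3000 * (Dl Wd.r0 l u v * gs (Dl Wd.r0 l) p (nuC η (x l)) u) + q := e1
      have e3 := mul_le_mul_of_nonneg_left e2 hr.le
      have e4 : Wd.r l * (3000 * (Dl Wd.r0 l u v * gs (Dl Wd.r0 l) p (nuC η (x l)) u) + q) =
          3000 * ((Wd.r l * Dl Wd.r0 l u v) * gs (Dl Wd.r0 l) p (nuC η (x l)) u)
            + Wd.r l * q := by ring
      rw [e4, s5_r_Dl] at e3
      linarith only [e3]
    · have e1 := mul_le_mul_of_nonneg_left (EL_le_one P l (x l) (x l) u v) hr.le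
      have e2 : Wd.r0 * 2 ^ (l : ℕ) = Wd.r l := rfl
      rw [e2]
      have e3 : 0 ≤ 3000 * (dist u v * gs (Dl Wd.r0 l) p (nuC η (x l)) u) := by
        have : 0 ≤ dist u v := dist_nonneg
        (clear * - hg; positivity)
      linarith only [hrq, e1, e3]
  refine (Finset.sum_le_sum fun l _ => h1 l).trans ?_
  rw [Finset.sum_add_distrib, Finset.sum_add_distrib, ← Finset.mul_sum, ← Finset.mul_sum]
  have h2 := sum_gs_le Wd.hr0 Wd.n (ν := fun l => nuC η (x l)) Wd.hk Wd.hsl hpk hb u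
  have h3 := mul_le_mul_of_nonneg_left h2 (dist_nonneg (x := u) (y := v))
  have h4 := sum_scale_small_le' Wd.hr0 (dist_nonneg (x := u) (y := v)) Wd.n
  have h5 : (3000 * Gk Wd.k + 64 * slp) * dist u v =
      3000 * (dist u v * Gk Wd.k) + 64 * (slp * dist u v) := by
    ring
  rw [h5]
  linarith

theorem s5_Gam (Wd : World X) : 0 ≤ Wd.Gam := by
  unfold World.Gam
  (clear * -; positivity)

theorem s5_A1_nonneg (Wd : World X) : 0 ≤ Wd.A1 := by
  unfold World.A1
  have := s5_RR Wd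
  have := s5_Gam Wd
  positivity

/-- INFO STEP -/
theorem info_step [Nonempty X] (P : LPar η Wd.k J) {p p' : X → ℝ} {s : St Wd J P.B}
    (hI : Inv P p s) (hpk : ∑ u, p u ≤ Wd.k) (hp' : ∀ u, 0 ≤ p' u) (hpk' : ∑ u, p' u ≤ Wd.k) :
    ∃ s' : St Wd J P.B, Inv P p' s' ∧
      PhC s s' + TrC s s' + ∑ u, p' u * XC P s.x s'.x u u + Pot P p' s' ≤ Pot P p' s := by
  have hη := P.hη
  have key := fun l : Fin Wd.n => exists_tokprox (Dl_pm (X := X) Wd.hr0 l) P hp' hpk' (s.x l) (by
    have := sum_nu_le (hI.bal l)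
    linarith only [hpk, this])
  choose x' hA hB hF using key
  obtain ⟨s', hs'x, hI', hst⟩ := exists_tracks P hI.len hp' hpk' x' hB
  refine ⟨s', hI', ?_⟩
  have t1 := tracks_cost_le P hI hI' (xd := s.x) (fun l j => Or.inl rfl)
    (fun l => by rw [hs'x]; exact hA l) (fun π => by rw [hs'x]; exact hst π)
  have t0 : EE (fun π => ∑ i, dist (loc Wd s.x (s.y π i)) (loc Wd s.x (s.y π i))) = 0 := by
    simp only [EE, dist_self, sum_const_zero, Fintype.card_numbering, Fintype.card_prod, Fintype.card_fin, Fintype.card_option, zero_div]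
  rw [t0, zero_add] at t1
  have t2 := pot_relabel_le P hp' s.x s'.x s.y
  -- relabelling
  set S := ∑ l : Fin Wd.n, Wd.r l * (η * chg (s.x l) (x' l)) with hS
  have t3 : ∑ u, p' u * XC P s.x s'.x u u ≤ 24 * RR Wd.k * (200 * S) := by
    rw [s5_sum_XC, hs'x]
    have hRR : 0 ≤ 24 * RR Wd.k := by
      have := s5_RR Wd
      (clear * - this; positivity)
    apply mul_le_mul_of_nonneg_left _ hRR
    rw [hS, Finset.mul_sum]
    refine Finset.sum_le_sum fun l _ => ?_
    have e1 := relabel_prox (Dl_pm (X := X) Wd.hr0 l) P l (s.x l) (x' l) (hB l) hpk' (hA l)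
    have e2 : ∑ u, p' u * EL P l (s.x l) (x' l) u u ≤ 200 * η * chg (s.x l) (x' l) := e1
    refine (mul_le_mul_of_nonneg_left e2 (s5_r_pos Wd l).le).trans (le_of_eq ?_)
    ring
  have t4 : ∑ l : Fin Wd.n, Wd.r l * FF (Dl Wd.r0 l) p' (nuC η (x' l)) + S / 2 ≤
      ∑ l : Fin Wd.n, Wd.r l * FF (Dl Wd.r0 l) p' (nuC η (s.x l)) := by
    rw [hS, Finset.sum_div, ← Finset.sum_add_distrib]
    refine Finset.sum_le_sum fun l _ => ?_
    refine le_trans (le_of_eq ?_) (mul_le_mul_of_nonneg_left (hF l) (s5_r_pos Wd l).le)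
    ring
  have t5 := mul_le_mul_of_nonneg_left t4 (s5_A1_nonneg Wd)
  have t6 := mul_le_mul_of_nonneg_left t3 (s5_Gam Wd)
  have t7 : Wd.Gam * (24 * RR Wd.k * (200 * S)) = Wd.A1 * (S / 2) := by
    unfold World.A1
    ring
  rw [t7] at t6
  have t8 : Wd.Gam * ∑ u, p' u * XC P s.x s'.x u u = ∑ u, p' u * XC P s.x s'.x u u
      + 32 * Real.log (Wd.M + 2) ^ 2 * ∑ u, p' u * XC P s.x s'.x u u := by
    unfold World.Gam
    ring
  rw [t8] at t6
  unfold Pot
  rw [hs'x] at t1 t2 t6 ⊢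
  rw [mul_add] at t5
  linarith only [t1, t2, t5, t6]

/-- TRANSPORT STEP -/
theorem transport_step (P : LPar η Wd.k J) {p : X → ℝ} {s : St Wd J P.B} (hI : Inv P p s)
    (hpk : ∑ u, p u ≤ Wd.k) {a : X → X → ℝ} (ha : ∀ u v, 0 ≤ a u v)
    (hap : ∀ u, ∑ v, a u v ≤ p u) (hα : ∑ u, ∑ v, a u v ≤ e0 / 8) :
    ∃ s' : St Wd J P.B, Inv P (push p a) s' ∧
      PhC s s' + TrC s s' + ∑ u, push p a u * XC P s.x s'.x u u
        + ∑ u, ∑ v, a u v * XC P s.x s.x u v + Pot P (push p a) s'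
      ≤ Pot P p s + Wd.CT * ∑ u, ∑ v, a u v * dist u v
        + Wd.err (∑ u, ∑ v, a u v) η (η * Fintype.card J / P.Q) := by
  have hη := P.hη
  have hX : Nonempty X := ⟨Wd.x0⟩
  have hpn : ∀ u, 0 ≤ push p a u := k5_push_nonneg ha hap
  have hps : ∑ u, push p a u ≤ Wd.k := by
    rw [k5_sum_push]
    exact hpk
  obtain ⟨xd, x', hm, hA, hB, hd, hF, hfo⟩ := exists_tokens P hI hpk ha hap hα
  obtain ⟨s', hs'x, hI', hst⟩ := exists_tracks P hI.len hpn hps x' hB
  refine ⟨s', hI', ?_⟩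
  have t1 := tracks_cost_le P hI hI' (xd := xd) hm
    (fun l => by rw [hs'x]; exact hA l) (fun π => by rw [hs'x]; exact hst π)
  have t2 := pot_relabel_le P hpn s.x s'.x s.y
  have t3 := pot_push_le P (p := p) ha s.x s.y
  set α := ∑ u, ∑ v, a u v with hαd
  set Δ := ∑ u, ∑ v, a u v * dist u v with hΔ
  set q := η * Fintype.card J / P.Q with hq
  have hα0 : 0 ≤ α := Finset.sum_nonneg fun u _ => Finset.sum_nonneg fun v _ => ha u v
  have hΔ0 : 0 ≤ Δ := Finset.sum_nonneg fun u _ => Finset.sum_nonneg fun v _ =>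
    mul_nonneg (ha u v) dist_nonneg
  have hq0 : 0 ≤ q := by (clear * - hη; positivity)
  have hk := Wd.hk
  have hα1 : α ≤ 1 := by
    refine hα.trans ?_
    unfold e0
    norm_num
  set S := ∑ l : Fin Wd.n, Wd.r l * (η * chg (xd l) (x' l)
    + ∑ u, ∑ v, a u v * GP (Dl Wd.r0 l) p (nuC η (s.x l)) u v) with hS
  set R := ∑ l : Fin Wd.n, Wd.r l with hR
  have hR0 : 0 ≤ R := Finset.sum_nonneg fun l _ => (s5_r_pos Wd l).le
  have hRR : 0 ≤ 24 * RR Wd.k := by
    have := s5_RR Wd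
    (clear * - this; positivity)
  -- relabellings
  have r1 : ∑ u, push p a u * XC P s.x s'.x u u ≤
      24 * RR Wd.k * (200 * S + 1200000 * Gk Wd.k * Δ + R * (200 * α ^ 2 + 200 * Wd.k * q)) := by
    have e1 := relabel_total P (x := s.x) (xd := xd) (x' := x') hI.bal hpk ha hap hd hA hB
    rw [hs'x]
    refine e1.trans (le_of_eq ?_)
    have e3 : ∑ l : Fin Wd.n, Wd.r l * (200 * (η * chg (xd l) (x' l)
        + ∑ u, ∑ v, a u v * GP (Dl Wd.r0 l) p (nuC η (s.x l)) u v)) = 200 * S := by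
      rw [hS, Finset.mul_sum]
      refine Finset.sum_congr rfl fun l _ => ?_
      ring
    rw [hR, Finset.sum_mul, e3]
  have r2 : ∑ u, ∑ v, a u v * XC P s.x s.x u v ≤
      24 * RR Wd.k * ((3000 * Gk Wd.k + 64 * slp) * Δ + α * (R * (200 * q))) := by
    have e1 : ∀ u v, a u v * XC P s.x s.x u v ≤
        (24 * RR Wd.k * (3000 * Gk Wd.k + 64 * slp)) * (a u v * dist u v)
          + (24 * RR Wd.k * (R * (200 * q))) * a u v := by
      intro u v
      have e2 := mul_le_mul_of_nonneg_left (cut_total P hI.bal hpk u v) (ha u v)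
      refine e2.trans (le_of_eq ?_)
      rw [hR, Finset.sum_mul]
      ring
    calc ∑ u, ∑ v, a u v * XC P s.x s.x u v ≤ ∑ u, ∑ v,
          ((24 * RR Wd.k * (3000 * Gk Wd.k + 64 * slp)) * (a u v * dist u v)
          + (24 * RR Wd.k * (R * (200 * q))) * a u v) :=
          Finset.sum_le_sum fun u _ => Finset.sum_le_sum fun v _ => e1 u v
      _ = _ := by
          simp only [Finset.sum_add_distrib, ← Finset.mul_sum]
          rw [← hΔ, ← hαd]
          ring
  -- tokens
  have f1 : ∑ l : Fin Wd.n, Wd.r l * FF (Dl Wd.r0 l) (push p a) (nuC η (x' l)) + S / 2 ≤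
      ∑ l : Fin Wd.n, Wd.r l * FF (Dl Wd.r0 l) p (nuC η (s.x l))
        + (600 * Gk Wd.k + 1000 * slp + 64 * slp * Real.log (60 * Wd.k)) * Δ
        + R * (4000 * Wd.k * α ^ 2 + (1 + Wd.k / e0) * (2 * η * (Fintype.card X : ℝ) ^ 2)) := by
    set E := 4000 * Wd.k * α ^ 2 + (1 + Wd.k / e0) * (2 * η * (Fintype.card X : ℝ) ^ 2) with hE
    have e1 : ∑ l : Fin Wd.n, Wd.r l * FF (Dl Wd.r0 l) (push p a) (nuC η (x' l)) + S / 2 ≤
        ∑ l : Fin Wd.n, (Wd.r l * FF (Dl Wd.r0 l) p (nuC η (s.x l))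
          + Wd.r l * (∑ u, ∑ v, a u v * (if slp * Dl Wd.r0 l u v ≤ 1 / 32 then
            600 * (Dl Wd.r0 l u v * gs (Dl Wd.r0 l) p (nuC η (s.x l)) u)
              + 8000 * slp * Dl Wd.r0 l u v ^ 2
            else Real.log (60 * Wd.k))) + Wd.r l * E) := by
      rw [hS, Finset.sum_div, ← Finset.sum_add_distrib]
      refine Finset.sum_le_sum fun l _ => ?_
      refine le_trans (le_of_eq ?_) ((mul_le_mul_of_nonneg_left (hF l) (s5_r_pos Wd l).le).trans
        (le_of_eq ?_))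
      · ring
      · rw [hE]
        ring
    rw [Finset.sum_add_distrib, Finset.sum_add_distrib, ← Finset.sum_mul] at e1
    have e2 : ∑ l : Fin Wd.n, Wd.r l * (∑ u, ∑ v, a u v * (if slp * Dl Wd.r0 l u v ≤ 1 / 32 then
            600 * (Dl Wd.r0 l u v * gs (Dl Wd.r0 l) p (nuC η (s.x l)) u)
              + 8000 * slp * Dl Wd.r0 l u v ^ 2
            else Real.log (60 * Wd.k))) ≤
        (600 * Gk Wd.k + 1000 * slp + 64 * slp * Real.log (60 * Wd.k)) * Δ := by
      have e3 : ∑ l : Fin Wd.n, Wd.r l * (∑ u, ∑ v, a u v * (if slp * Dl Wd.r0 l u v ≤ 1 / 32 then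
            600 * (Dl Wd.r0 l u v * gs (Dl Wd.r0 l) p (nuC η (s.x l)) u)
              + 8000 * slp * Dl Wd.r0 l u v ^ 2
            else Real.log (60 * Wd.k))) = ∑ u, ∑ v, a u v * ∑ l : Fin Wd.n,
          Wd.r l * (if slp * Dl Wd.r0 l u v ≤ 1 / 32 then
            600 * (Dl Wd.r0 l u v * gs (Dl Wd.r0 l) p (nuC η (s.x l)) u)
              + 8000 * slp * Dl Wd.r0 l u v ^ 2
            else Real.log (60 * Wd.k)) := by
        simp only [mul_sum]
        rw [Finset.sum_comm]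
        refine Finset.sum_congr rfl fun u _ => ?_
        rw [Finset.sum_comm]
        refine Finset.sum_congr rfl fun v _ => Finset.sum_congr rfl fun l _ => ?_
        ring
      rw [e3, hΔ, Finset.mul_sum]
      refine Finset.sum_le_sum fun u _ => ?_
      rw [Finset.mul_sum]
      refine Finset.sum_le_sum fun v _ => ?_
      have hd0 : 0 ≤ dist u v := dist_nonneg
      have hlog : 0 ≤ Real.log (60 * Wd.k) := Real.log_nonneg (by linarith only [hk])
      have e4 : ∀ l : Fin Wd.n, Wd.r l * (if slp * Dl Wd.r0 l u v ≤ 1 / 32 then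
            600 * (Dl Wd.r0 l u v * gs (Dl Wd.r0 l) p (nuC η (s.x l)) u)
              + 8000 * slp * Dl Wd.r0 l u v ^ 2
            else Real.log (60 * Wd.k)) ≤
          600 * (dist u v * gs (Dl Wd.r0 l) p (nuC η (s.x l)) u)
          + 8000 * ((Wd.r0 * 2 ^ (l : ℕ)) *
              (if slp * (dist u v / (Wd.r0 * 2 ^ (l : ℕ))) ≤ 1 / 32 then
                slp * (dist u v / (Wd.r0 * 2 ^ (l : ℕ))) ^ 2 else 0))
          + Real.log (60 * Wd.k) *
            (if slp * (dist u v / (Wd.r0 * 2 ^ (l : ℕ))) ≤ 1 / 32 then 0 else Wd.r0 * 2 ^ (l : ℕ)) := by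
        intro l
        have hg := gs_nonneg (Dl_pm (X := X) Wd.hr0 l) (hI.bal l) u
        have hDd : dist u v / (Wd.r0 * 2 ^ (l : ℕ)) = Dl Wd.r0 l u v := rfl
        have hrd : Wd.r0 * 2 ^ (l : ℕ) = Wd.r l := rfl
        rw [hDd, hrd]
        split_ifs with h
        · have e5 : Wd.r l * (600 * (Dl Wd.r0 l u v * gs (Dl Wd.r0 l) p (nuC η (s.x l)) u)
              + 8000 * slp * Dl Wd.r0 l u v ^ 2) =
              600 * ((Wd.r l * Dl Wd.r0 l u v) * gs (Dl Wd.r0 l) p (nuC η (s.x l)) u)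
              + 8000 * (Wd.r l * (slp * Dl Wd.r0 l u v ^ 2)) := by ring
          rw [e5, s5_r_Dl]
          linarith only []
        · have e6 : 0 ≤ 600 * (dist u v * gs (Dl Wd.r0 l) p (nuC η (s.x l)) u) := by (clear * - hg; positivity)
          linarith only [e6]
      have e7 := Finset.sum_le_sum fun (l : Fin Wd.n) (_ : l ∈ univ) => e4 l
      rw [Finset.sum_add_distrib, Finset.sum_add_distrib, ← Finset.mul_sum, ← Finset.mul_sum,
        ← Finset.mul_sum, ← Finset.mul_sum] at e7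
      have g1 := sum_gs_le Wd.hr0 Wd.n (ν := fun l => nuC η (s.x l)) Wd.hk Wd.hsl hpk hI.bal u
      have g2 := mul_le_mul_of_nonneg_left g1 hd0
      have g3 := sum_scale_sq_le' Wd.hr0 hd0 Wd.n
      have g4 := mul_le_mul_of_nonneg_left (sum_scale_small_le' Wd.hr0 hd0 Wd.n) hlog
      have g5 : ∑ l : Fin Wd.n, Wd.r l * (if slp * Dl Wd.r0 l u v ≤ 1 / 32 then
            600 * (Dl Wd.r0 l u v * gs (Dl Wd.r0 l) p (nuC η (s.x l)) u)
              + 8000 * slp * Dl Wd.r0 l u v ^ 2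
            else Real.log (60 * Wd.k)) ≤
          (600 * Gk Wd.k + 1000 * slp + 64 * slp * Real.log (60 * Wd.k)) * dist u v := by
        have hsd : 0 ≤ slp * dist u v := mul_nonneg slp_pos.le hd0
        linarith only [e7, g2, g3, g4, hsd]
      refine (mul_le_mul_of_nonneg_left g5 (ha u v)).trans (le_of_eq ?_)
      ring
    linarith only [e1, e2]
  have f2 := mul_le_mul_of_nonneg_left f1 (s5_A1_nonneg Wd)
  have hGam := s5_Gam Wd
  have r3 := mul_le_mul_of_nonneg_left (add_le_add r1 r2) hGam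
  have r4 : Wd.Gam * (∑ u, push p a u * XC P s.x s'.x u u + ∑ u, ∑ v, a u v * XC P s.x s.x u v) =
      ∑ u, push p a u * XC P s.x s'.x u u + ∑ u, ∑ v, a u v * XC P s.x s.x u v
      + 32 * Real.log (Wd.M + 2) ^ 2 * ∑ u, push p a u * XC P s.x s'.x u u
      + 32 * Real.log (Wd.M + 2) ^ 2 * ∑ u, ∑ v, a u v * XC P s.x s.x u v := by
    unfold World.Gam
    ring
  rw [r4] at r3
  have r5 : Wd.Gam * (24 * RR Wd.k * (200 * S + 1200000 * Gk Wd.k * Δ
        + R * (200 * α ^ 2 + 200 * Wd.k * q))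
      + 24 * RR Wd.k * ((3000 * Gk Wd.k + 64 * slp) * Δ + α * (R * (200 * q)))) ≤
      Wd.A1 * (S / 2) + 24 * RR Wd.k * Wd.Gam * (1300000 * Gk Wd.k + 64 * slp) * Δ
        + R * (24 * RR Wd.k * Wd.Gam * (200 * α ^ 2 + 400 * Wd.k * q)) := by
    have e1 : Wd.A1 * (S / 2) = 24 * RR Wd.k * Wd.Gam * (200 * S) := by
      unfold World.A1
      ring
    have hc : 0 ≤ 24 * RR Wd.k * Wd.Gam := mul_nonneg hRR hGam
    have e2 : 200 * S + 1200000 * Gk Wd.k * Δ + R * (200 * α ^ 2 + 200 * Wd.k * q)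
        + ((3000 * Gk Wd.k + 64 * slp) * Δ + α * (R * (200 * q))) ≤
        200 * S + (1300000 * Gk Wd.k + 64 * slp) * Δ + R * (200 * α ^ 2 + 400 * Wd.k * q) := by
      have g1 : 0 ≤ Gk Wd.k * Δ := mul_nonneg (s5_Gk hk) hΔ0
      have g2 : α * (R * (200 * q)) ≤ Wd.k * (R * (200 * q)) :=
        mul_le_mul_of_nonneg_right (hα1.trans hk) (by (clear * - hR0 hη; positivity))
      linarith only [g1, g2]
    have e3 := mul_le_mul_of_nonneg_left e2 hc
    rw [e1]
    linarith only [e3]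
  have herr : Wd.err α η q = Wd.A1 * (R * (4000 * Wd.k * α ^ 2
        + (1 + Wd.k / e0) * (2 * η * (Fintype.card X : ℝ) ^ 2)))
      + R * (24 * RR Wd.k * Wd.Gam * (200 * α ^ 2 + 400 * Wd.k * q)) := by
    unfold World.err
    rw [← Finset.sum_mul, ← hR]
    ring
  rw [herr]
  have hCT : Wd.CT * Δ = Wd.A1 * ((600 * Gk Wd.k + 1000 * slp + 64 * slp * Real.log (60 * Wd.k)) * Δ)
      + 24 * RR Wd.k * Wd.Gam * (1300000 * Gk Wd.k + 64 * slp) * Δ + 130 * Wd.G2 * Δ := by
    unfold World.CT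
    ring
  rw [hCT]
  unfold Pot
  rw [hs'x] at t1 t2 r3 ⊢
  rw [mul_add, mul_add, mul_add] at f2
  linarith

end Vale.Agent.P304.Stp
end
end

section

section

/-! S6: request step = info step + `S` transport substeps; initial state; bounds. -/

set_option linter.all false

open Finset

namespace Vale.Agent.P304.Stp

open Vale.Agent.P304.Dyn

variable [StP]

variable {X J : Type} [MetricSpace X] [Fintype X] [DecidableEq X] [Fintype J] [DecidableEq J]
  {Wd : World X} {η : ℝ}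

theorem XC_triangle (P : LPar η Wd.k J) (x x' x'' : Fin Wd.n → Conf X J) (u v w : X) :
    XC P x x'' u w ≤ XC P x x' u v + XC P x' x'' v w := by
  rw [XC_eq, XC_eq, XC_eq, ← sum_add_distrib]
  refine sum_le_sum fun l _ => ?_
  rw [← mul_add]
  exact mul_le_mul_of_nonneg_left (EL_tri P l _ _ _ u v w) (s4_wt_nonneg Wd l)

theorem XC_nonneg (P : LPar η Wd.k J) (x x' : Fin Wd.n → Conf X J) (u v : X) :
    0 ≤ XC P x x' u v := s4_XC_nonneg P x x' u v

theorem s6_XC_self (P : LPar η Wd.k J) (x : Fin Wd.n → Conf X J) (u : X) : XC P x x u u = 0 := by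
  simp only [XC, EE, ↓reduceIte, mul_zero, sum_const_zero, Fintype.card_numbering, Fintype.card_prod, Fintype.card_fin, Fintype.card_option, zero_div]

theorem PhC_triangle {B : ℕ} (s s' s'' : St Wd J B) : PhC s s'' ≤ PhC s s' + PhC s' s'' := by
  unfold PhC
  rw [← EE_add]
  apply EE_mono
  intro π
  rw [← sum_add_distrib]
  exact sum_le_sum fun i _ => dist_triangle _ _ _

theorem TrC_triangle {B : ℕ} (s s' s'' : St Wd J B) : TrC s s'' ≤ TrC s s' + TrC s' s'' := by
  unfold TrC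
  rw [← EE_add]
  apply EE_mono
  intro π
  rw [← sum_add_distrib]
  refine sum_le_sum fun i _ => ?_
  have h1 := dn_triangle (fun m => (rho_pos Wd m).le) (s.y π i) (s'.y π i) (s''.y π i)
  have h2 := dn_triangle (fun m => (rho_pos Wd m).le) (s''.y π i) (s'.y π i) (s.y π i)
  linarith

theorem s6_PhC_self {B : ℕ} (s : St Wd J B) : PhC s s = 0 := by
  simp only [PhC, EE, dist_self, sum_const_zero, Fintype.card_numbering, Fintype.card_prod, Fintype.card_fin, Fintype.card_option, zero_div]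

theorem s6_TrC_self {B : ℕ} (s : St Wd J B) : TrC s s = 0 := by
  simp only [TrC, EE, dn_self, add_zero, sum_const_zero, Fintype.card_numbering, Fintype.card_prod, Fintype.card_fin, Fintype.card_option, zero_div]

theorem s6_PhC_nonneg {B : ℕ} (s s' : St Wd J B) : 0 ≤ PhC s s' :=
  EE_nonneg fun π => sum_nonneg fun i _ => dist_nonneg

theorem s6_TrC_nonneg {B : ℕ} (s s' : St Wd J B) : 0 ≤ TrC s s' :=
  EE_nonneg fun π => sum_nonneg fun i _ => add_nonneg
    (dn_nonneg (fun m => (rho_pos Wd m).le) _ _) (dn_nonneg (fun m => (rho_pos Wd m).le) _ _)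

/-- the error is monotone in the mass of the plan -/
theorem s6_err_mono {α α' η q : ℝ} (h0 : 0 ≤ α) (h : α ≤ α') :
    Wd.err α η q ≤ Wd.err α' η q := by
  unfold World.err
  refine sum_le_sum fun l _ => ?_
  have hr := s5_r_pos Wd l
  have hA := s5_A1_nonneg Wd
  have hG := s5_Gam Wd
  have hR := s5_RR Wd
  have hk := Wd.hk
  have h1 : α ^ 2 ≤ α' ^ 2 := pow_le_pow_left₀ h0 h 2
  apply mul_le_mul_of_nonneg_left _ hr.le
  apply add_le_add
  · apply mul_le_mul_of_nonneg_left _ hA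
    have : 4000 * Wd.k * α ^ 2 ≤ 4000 * Wd.k * α' ^ 2 :=
      mul_le_mul_of_nonneg_left h1 (by positivity)
    linarith
  · apply mul_le_mul_of_nonneg_left _ (by (clear * - hR hG; positivity))
    linarith only [h1]

/-- `S` substeps with the plan `b / S`.  The averaging over the (uniformly random) substep at which
a server moves from `u` to `v` is hidden in the triangle inequality. -/
theorem transport_iter (P : LPar η Wd.k J) {p : X → ℝ} {s : St Wd J P.B} (hI : Inv P p s)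
    (hpk : ∑ u, p u ≤ Wd.k) {b : X → X → ℝ} (hb : ∀ u v, 0 ≤ b u v)
    (hbp : ∀ u, ∑ v, b u v = p u) {S : ℕ} (hS : 1 ≤ S) (hS2 : Wd.k / S ≤ e0 / 8) :
    ∃ s' : St Wd J P.B, Inv P (push p b) s' ∧
      PhC s s' + TrC s s' + ∑ u, ∑ v, b u v * XC P s.x s'.x u v + Pot P (push p b) s'
      ≤ Pot P p s + Wd.CT * ∑ u, ∑ v, b u v * dist u v
        + S * Wd.err (Wd.k / S) η (η * Fintype.card J / P.Q) := by
  have hS0 : (0 : ℝ) < S := by exact_mod_cast hS
  have hSi : (S : ℝ) * (1 / S) = 1 := by (clear * - hS; field_simp)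
  set E := Wd.err (Wd.k / S) η (η * Fintype.card J / P.Q) with hE
  set Δ := ∑ u, ∑ v, b u v * dist u v with hΔ
  -- the distributions of the substeps
  set pt : ℕ → X → ℝ := fun t x => p x + (t / S : ℝ) * (∑ u, b u x - ∑ v, b x v) with hpt
  have hp0 : ∀ u, 0 ≤ p u := fun u => by
    rw [← hbp u]
    exact sum_nonneg fun v _ => hb u v
  have hsum : ∀ t, ∑ x, pt t x = ∑ x, p x := by
    intro t
    simp only [hpt]
    rw [sum_add_distrib, ← mul_sum, sum_sub_distrib, sum_comm (f := fun x u => b u x)]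
    simp only [sub_self, mul_zero, add_zero]
  have hcol : ∀ f : X → ℝ, ∑ u, ∑ v, b u v * f v = ∑ v, (∑ u, b u v) * f v := by
    intro f
    rw [sum_comm]
    exact sum_congr rfl fun v _ => (sum_mul _ _ _).symm
  have hrow : ∀ f : X → ℝ, ∑ u, ∑ v, b u v * f u = ∑ u, p u * f u := by
    intro f
    refine sum_congr rfl fun u _ => ?_
    rw [← sum_mul, hbp u]
  have main : ∀ t : ℕ, t ≤ S → ∃ s' : St Wd J P.B, Inv P (pt t) s' ∧
      PhC s s' + TrC s s' + (∑ u, ∑ v, b u v * ((t / S : ℝ) * XC P s.x s'.x u v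
        + (1 - t / S) * XC P s.x s'.x u u)) + Pot P (pt t) s'
      ≤ Pot P p s + t * (Wd.CT * (Δ / S) + E) := by
    intro t
    induction t with
    | zero =>
      intro _
      have h1 : pt 0 = p := by
        funext x
        simp only [hpt, CharP.cast_eq_zero, zero_div, zero_mul, add_zero]
      refine ⟨s, by rw [h1]; exact hI, ?_⟩
      rw [h1, s6_PhC_self, s6_TrC_self]
      simp only [add_zero, CharP.cast_eq_zero, zero_div, zero_mul, sub_zero, s6_XC_self, mul_zero, sum_const_zero, zero_add, Std.le_refl]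
    | succ t ih =>
      intro ht
      obtain ⟨s₁, hI₁, h₁⟩ := ih (by omega)
      have htS : (t : ℝ) + 1 ≤ S := by exact_mod_cast ht
      have ht0 : (0 : ℝ) ≤ t := Nat.cast_nonneg t
      set a : X → X → ℝ := fun u v => b u v / S with ha
      have ha0 : ∀ u v, 0 ≤ a u v := fun u v => div_nonneg (hb u v) hS0.le
      have harow : ∀ u, ∑ v, a u v = p u / S := by
        intro u
        simp only [ha]
        rw [← sum_div, hbp u]
      have hap : ∀ u, ∑ v, a u v ≤ pt t u := by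
        intro u
        rw [harow u]
        simp only [hpt]
        rw [hbp u]
        have e1 : 0 ≤ (t / S : ℝ) * ∑ v, b v u :=
          mul_nonneg (by (clear * - hS; positivity)) (sum_nonneg fun v _ => hb v u)
        have e2 : p u / S ≤ p u - (t / S : ℝ) * p u := by
          rw [show p u - (t / S : ℝ) * p u = (p u * (S - t)) / S by field_simp]
          apply div_le_div_of_nonneg_right _ hS0.le
          have := mul_le_mul_of_nonneg_left (by linarith only [htS] : (1 : ℝ) ≤ S - t) (hp0 u)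
          linarith only [this]
        have e3 : (t / S : ℝ) * (∑ v, b v u - p u) =
          (t / S : ℝ) * ∑ v, b v u - (t / S : ℝ) * p u := by ring
        rw [e3]
        linarith only [e1, e2]
      have hatot : ∑ u, ∑ v, a u v = (∑ u, p u) / S := by
        rw [sum_div]
        exact sum_congr rfl fun u _ => harow u
      have hα1 : ∑ u, ∑ v, a u v ≤ Wd.k / S := by
        rw [hatot]
        exact div_le_div_of_nonneg_right hpk hS0.le
      have hα0 : 0 ≤ ∑ u, ∑ v, a u v := sum_nonneg fun u _ => sum_nonneg fun v _ => ha0 u v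
      obtain ⟨s₂, hI₂, h₂⟩ := transport_step P hI₁ (by rw [hsum t]; exact hpk) ha0 hap
        (hα1.trans hS2)
      have hpush : push (pt t) a = pt (t + 1) := by
        funext x
        simp only [push, hpt, ha]
        rw [← sum_div, ← sum_div]
        push_cast
        field_simp
        ring
      rw [hpush] at hI₂ h₂
      refine ⟨s₂, hI₂, ?_⟩
      have herr := s6_err_mono (Wd := Wd) (η := η) (q := η * Fintype.card J / P.Q) hα0 hα1
      have hΔS : ∑ u, ∑ v, a u v * dist u v = Δ / S := by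
        rw [hΔ, sum_div]
        refine sum_congr rfl fun u _ => ?_
        rw [sum_div]
        refine sum_congr rfl fun v _ => ?_
        simp only [ha]
        ring
      rw [hΔS] at h₂
      have f1 := PhC_triangle s s₁ s₂
      have f2 := TrC_triangle s s₁ s₂
      -- pointwise inequality of the address terms
      have hc1 : (0 : ℝ) ≤ t / S := by (clear * - hS; positivity)
      have hc2 : (0 : ℝ) ≤ 1 / S := by positivity
      have hc3 : (0 : ℝ) ≤ 1 - (t / S + 1 / S) := by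
        rw [← add_div, sub_nonneg, div_le_one hS0]
        exact htS
      have hpt1 : ∀ w, pt (t + 1) w = (1 - (t / S + 1 / S)) * p w
          + (t / S + 1 / S) * ∑ u, b u w := by
        intro w
        simp only [hpt]
        rw [hbp w]
        push_cast
        ring
      have key : ∑ u, ∑ v, b u v * (((t + 1 : ℕ) / S : ℝ) * XC P s.x s₂.x u v
          + (1 - ((t + 1 : ℕ) / S : ℝ)) * XC P s.x s₂.x u u) ≤
          (∑ u, ∑ v, b u v * ((t / S : ℝ) * XC P s.x s₁.x u v
            + (1 - t / S) * XC P s.x s₁.x u u))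
          + ∑ u, pt (t + 1) u * XC P s₁.x s₂.x u u
          + ∑ u, ∑ v, a u v * XC P s₁.x s₁.x u v := by
        have e1 : ∑ u, pt (t + 1) u * XC P s₁.x s₂.x u u =
            ∑ u, ∑ v, b u v * ((1 - (t / S + 1 / S)) * XC P s₁.x s₂.x u u
              + (t / S + 1 / S) * XC P s₁.x s₂.x v v) := by
          have e2 := hrow fun u => (1 - (t / S + 1 / S : ℝ)) * XC P s₁.x s₂.x u u
          have e3 := hcol fun v => (t / S + 1 / S : ℝ) * XC P s₁.x s₂.x v v
          simp only [mul_add, sum_add_distrib] at e2 e3 ⊢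
          rw [e2, e3, ← sum_add_distrib]
          refine sum_congr rfl fun u _ => ?_
          rw [hpt1 u]
          ring
        rw [e1, ← sum_add_distrib, ← sum_add_distrib]
        refine sum_le_sum fun u _ => ?_
        rw [← sum_add_distrib, ← sum_add_distrib]
        refine sum_le_sum fun v _ => ?_
        have g1 := XC_triangle P s.x s₁.x s₂.x u v v
        have g2 := XC_triangle P s.x s₁.x s₂.x u u v
        have g3 := XC_triangle P s₁.x s₁.x s₂.x u v v
        have g4 := XC_triangle P s.x s₁.x s₂.x u u u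
        have g5 : ((t + 1 : ℕ) / S : ℝ) = t / S + 1 / S := by
          push_cast
          rw [add_div]
        rw [g5]
        have g6 : (t / S + 1 / S : ℝ) * XC P s.x s₂.x u v
            + (1 - (t / S + 1 / S)) * XC P s.x s₂.x u u ≤
            ((t / S : ℝ) * XC P s.x s₁.x u v + (1 - t / S) * XC P s.x s₁.x u u)
            + ((1 - (t / S + 1 / S)) * XC P s₁.x s₂.x u u
              + (t / S + 1 / S) * XC P s₁.x s₂.x v v)
            + 1 / S * XC P s₁.x s₁.x u v := by
          have k1 := mul_le_mul_of_nonneg_left g1 hc1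
          have k2 := mul_le_mul_of_nonneg_left (g2.trans (add_le_add_right g3 _)) hc2
          have k3 := mul_le_mul_of_nonneg_left g4 hc3
          linarith only [k1, k2, k3]
        have g7 := mul_le_mul_of_nonneg_left g6 (hb u v)
        have g8 : a u v * XC P s₁.x s₁.x u v = b u v * (1 / S * XC P s₁.x s₁.x u v) := by
          simp only [ha]
          ring
        rw [g8]
        linarith only [g7]
      have g9 : ((t + 1 : ℕ) : ℝ) * (Wd.CT * (Δ / S) + E) =
          t * (Wd.CT * (Δ / S) + E) + (Wd.CT * (Δ / S) + E) := by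
        push_cast
        ring
      rw [g9]
      linarith only [h₁, h₂, herr, f1, f2, key]
  obtain ⟨s', hI', h'⟩ := main S le_rfl
  have hend : pt S = push p b := by
    funext x
    simp only [hpt, push]
    rw [div_self hS0.ne']
    ring
  rw [hend] at hI' h'
  refine ⟨s', hI', ?_⟩
  rw [div_self hS0.ne'] at h'
  have h2 : ∑ u, ∑ v, b u v * (1 * XC P s.x s'.x u v + (1 - 1) * XC P s.x s'.x u u) =
      ∑ u, ∑ v, b u v * XC P s.x s'.x u v := by
    refine sum_congr rfl fun u _ => sum_congr rfl fun v _ => ?_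
    ring
  rw [h2] at h'
  have h3 : (S : ℝ) * (Wd.CT * (Δ / S) + E) = Wd.CT * Δ + S * E := by
    (clear * - hS; field_simp)
  rw [h3] at h'
  linarith only [h']

/-- REQUEST STEP -/
theorem request_step [Nonempty X] (P : LPar η Wd.k J) {p p' : X → ℝ} {s : St Wd J P.B}
    (hI : Inv P p s) (hpk : ∑ u, p u ≤ Wd.k) (hp' : ∀ u, 0 ≤ p' u) (hpk' : ∑ u, p' u ≤ Wd.k)
    {b : X → X → ℝ} (hb : ∀ u v, 0 ≤ b u v)
    (hbp : ∀ u, ∑ v, b u v = p' u) {S : ℕ} (hS : 1 ≤ S) (hS2 : Wd.k / S ≤ e0 / 8) :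
    ∃ s' : St Wd J P.B, Inv P (push p' b) s' ∧
      PhC s s' + TrC s s' + ∑ u, ∑ v, b u v * XC P s.x s'.x u v + Pot P (push p' b) s'
      ≤ Pot P p' s + Wd.CT * ∑ u, ∑ v, b u v * dist u v
        + S * Wd.err (Wd.k / S) η (η * Fintype.card J / P.Q) := by
  obtain ⟨s₁, hI₁, h₁⟩ := info_step P hI hpk hp' hpk'
  obtain ⟨s₂, hI₂, h₂⟩ := transport_iter P hI₁ hpk' hb hbp hS hS2
  refine ⟨s₂, hI₂, ?_⟩
  have f1 := PhC_triangle s s₁ s₂
  have f2 := TrC_triangle s s₁ s₂
  have f3 : ∑ u, ∑ v, b u v * XC P s.x s₂.x u v ≤ ∑ u, p' u * XC P s.x s₁.x u u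
      + ∑ u, ∑ v, b u v * XC P s₁.x s₂.x u v := by
    rw [← sum_add_distrib]
    refine sum_le_sum fun u _ => ?_
    rw [← hbp u, sum_mul, ← sum_add_distrib]
    refine sum_le_sum fun v _ => ?_
    rw [← mul_add]
    exact mul_le_mul_of_nonneg_left (XC_triangle P _ _ _ u u v) (hb u v)
  linarith only [h₁, h₂, f1, f2, f3]

theorem s6_hgt_eq (ρ : ℕ → ℝ) (b : List J) : hgt ρ b = ∑ m ∈ range b.length, ρ (m + 1) := by
  induction b with
  | nil => simp [hgt, sf_nil]
  | cons j T ih =>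
    unfold hgt at ih ⊢
    rw [sf_cons, sum_insert (cons_notMem_sf j T), ih, List.length_cons, sum_range_succ]
    ring

theorem s6_hgt_le (Wd : World X) {b : List J} (hb : b.length ≤ Wd.n) :
    hgt Wd.rho b ≤ ∑ m ∈ range Wd.n, Wd.rho (m + 1) := by
  rw [s6_hgt_eq]
  exact sum_le_sum_of_subset_of_nonneg (range_subset_range.2 hb) fun m _ _ => (rho_pos Wd _).le

/-- lower bound of the potential, uniform in all discretisation parameters -/
theorem s6_Pot_lower (P : LPar η Wd.k J) {p : X → ℝ} {s : St Wd J P.B} (hp : ∀ u, 0 ≤ p u)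
    (hpk : ∑ u, p u ≤ Wd.k) :
    -(Wd.A1 * Wd.k ^ 2 * ∑ l : Fin Wd.n, Wd.r l
      + 4 / Wd.lam * (Wd.k * Real.log (Wd.M + 1) * ∑ m ∈ range Wd.n, Wd.rho (m + 1)))
      ≤ Pot P p s := by
  have hη := P.hη
  have hk := Wd.hk
  have hA := s5_A1_nonneg Wd
  have hlam := lam_pos Wd
  have hM : (0 : ℝ) ≤ Wd.M := Nat.cast_nonneg _
  have hsum0 : 0 ≤ ∑ u, p u := sum_nonneg fun u _ => hp u
  -- token part
  have h1 : ∀ l : Fin Wd.n, -(Wd.k ^ 2) ≤ FF (Dl Wd.r0 l) p (nuC η (s.x l)) := by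
    intro l
    have hν : ∀ c, 0 ≤ nuC η (s.x l) c := nuC_nonneg hη.le _
    have hD := Dl_pm (X := X) Wd.hr0 l
    set N := ∑ c, nuC η (s.x l) c with hN
    have hN0 : 0 ≤ N := sum_nonneg fun c _ => hν c
    have e1 : ∑ u, p u * Real.log (SS (Dl Wd.r0 l) (nuC η (s.x l)) u) ≤
        Wd.k * Real.log (1 + N) := by
      have e2 : ∑ u, p u * Real.log (SS (Dl Wd.r0 l) (nuC η (s.x l)) u) ≤
          ∑ u, p u * Real.log (1 + N) := by
        refine sum_le_sum fun u _ => mul_le_mul_of_nonneg_left ?_ (hp u)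
        apply Real.log_le_log (SS_pos hν u)
        have := SS_le hD hν u
        have h0 : e0 ≤ 1 := by
          unfold e0
          norm_num
        linarith only [this, h0]
      rw [← sum_mul] at e2
      refine e2.trans (mul_le_mul_of_nonneg_right hpk ?_)
      exact Real.log_nonneg (by linarith only [hN0])
    have e3 : Wd.k * Real.log (1 + N) ≤ 1 + N - Wd.k + Wd.k * Real.log Wd.k := by
      have hk0 : 0 < Wd.k := by linarith only [hk]
      have e4 : Real.log (1 + N) = Real.log ((1 + N) / Wd.k) + Real.log Wd.k := by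
        rw [← Real.log_mul (by (clear * - hN0 hk; positivity)) hk0.ne']
        congr 1
        (clear * - hk hN0; field_simp)
      have e5 : Real.log ((1 + N) / Wd.k) ≤ (1 + N) / Wd.k - 1 :=
        Real.log_le_sub_one_of_pos (by (clear * - hN0 hk; positivity))
      rw [e4, mul_add]
      have e6 := mul_le_mul_of_nonneg_left e5 hk0.le
      have e7 : Wd.k * ((1 + N) / Wd.k - 1) = 1 + N - Wd.k := by
        field_simp
      linarith only [e6, e7]
    have e8 : Real.log Wd.k ≤ Wd.k - 1 := Real.log_le_sub_one_of_pos (by linarith only [hk])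
    have e9 := mul_le_mul_of_nonneg_left e8 (by linarith only [hk] : 0 ≤ Wd.k)
    unfold FF
    linarith
  have h2 : -(Wd.A1 * Wd.k ^ 2 * ∑ l : Fin Wd.n, Wd.r l) ≤
      Wd.A1 * ∑ l : Fin Wd.n, Wd.r l * FF (Dl Wd.r0 l) p (nuC η (s.x l)) := by
    have e1 : ∑ l : Fin Wd.n, Wd.r l * (-(Wd.k ^ 2)) ≤
        ∑ l : Fin Wd.n, Wd.r l * FF (Dl Wd.r0 l) p (nuC η (s.x l)) :=
      sum_le_sum fun l _ => mul_le_mul_of_nonneg_left (h1 l) (s5_r_pos Wd l).le
    rw [← sum_mul] at e1
    have e2 := mul_le_mul_of_nonneg_left e1 hA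
    refine le_trans (le_of_eq ?_) e2
    ring
  -- tree part
  have h3 : ∀ π, -(Wd.k * Real.log (Wd.M + 1) * ∑ m ∈ range Wd.n, Wd.rho (m + 1)) ≤
      pot Wd.rho Wd.lam p (ad P s.x π) (s.y π) := by
    intro π
    unfold pot
    have e1 : 0 ≤ Wd.lam * ∑ i, hgt Wd.rho (s.y π i) :=
      mul_nonneg hlam.le (sum_nonneg fun i _ => hgt_nonneg (fun m => (rho_pos Wd m).le) _)
    have hlog : 0 ≤ Real.log ((Wd.M : ℝ) + 1) := Real.log_nonneg (by linarith only [])
    have e2 : ∑ u, p u * ∑ N ∈ sf (ad P s.x π u), Wd.rho N.length *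
        Real.log (cnt (s.y π) N + 1) ≤
        Wd.k * Real.log (Wd.M + 1) * ∑ m ∈ range Wd.n, Wd.rho (m + 1) := by
      have e3 : ∀ u, ∑ N ∈ sf (ad P s.x π u), Wd.rho N.length * Real.log (cnt (s.y π) N + 1) ≤
          Real.log (Wd.M + 1) * ∑ m ∈ range Wd.n, Wd.rho (m + 1) := by
        intro u
        refine le_trans ?_ (mul_le_mul_of_nonneg_left (s6_hgt_le Wd (ad_length_le P s.x π u)) hlog)
        unfold hgt
        rw [mul_sum]
        refine sum_le_sum fun N _ => ?_
        rw [mul_comm]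
        refine mul_le_mul_of_nonneg_right ?_ (rho_pos Wd _).le
        apply Real.log_le_log (by positivity)
        have : (cnt (s.y π) N : ℝ) ≤ Wd.M := by exact_mod_cast cnt_le (s.y π) N
        linarith only [this]
      have hr0 : 0 ≤ ∑ m ∈ range Wd.n, Wd.rho (m + 1) := sum_nonneg fun m _ => (rho_pos Wd _).le
      calc ∑ u, p u * ∑ N ∈ sf (ad P s.x π u), Wd.rho N.length * Real.log (cnt (s.y π) N + 1)
          ≤ ∑ u, p u * (Real.log (Wd.M + 1) * ∑ m ∈ range Wd.n, Wd.rho (m + 1)) :=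
            sum_le_sum fun u _ => mul_le_mul_of_nonneg_left (e3 u) (hp u)
        _ = (∑ u, p u) * (Real.log (Wd.M + 1) * ∑ m ∈ range Wd.n, Wd.rho (m + 1)) := by
            rw [sum_mul]
        _ ≤ Wd.k * (Real.log (Wd.M + 1) * ∑ m ∈ range Wd.n, Wd.rho (m + 1)) :=
            mul_le_mul_of_nonneg_right hpk (mul_nonneg hlog hr0)
        _ = _ := by ring
    linarith only [e1, e2]
  have h4 : -(Wd.k * Real.log (Wd.M + 1) * ∑ m ∈ range Wd.n, Wd.rho (m + 1)) ≤
      EE (fun π => pot Wd.rho Wd.lam p (ad P s.x π) (s.y π)) := by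
    refine le_trans (le_of_eq (EE_const _).symm) (EE_mono h3)
  have h5 := mul_le_mul_of_nonneg_left h4 (by positivity : 0 ≤ 4 / Wd.lam)
  have h6 : 0 ≤ EE (fun π => ∑ i, hgt Wd.rho (s.y π i)) :=
    EE_nonneg fun π => sum_nonneg fun i _ => hgt_nonneg (fun m => (rho_pos Wd m).le) _
  unfold Pot
  linarith

theorem s6_log20 : Real.log 20 ≤ 3 := by
  rw [Real.log_le_iff_le_exp (by norm_num)]
  have h1 := Real.exp_one_gt_d9
  have h2 : Real.exp 3 = Real.exp 1 ^ 3 := by
    rw [← Real.exp_nat_mul]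
    norm_num
  rw [h2]
  have h3 : (2.7182818283 : ℝ) ^ 3 ≤ Real.exp 1 ^ 3 := pow_le_pow_left₀ (by norm_num) h1.le 3
  refine le_trans ?_ h3
  norm_num

/-- initial state -/
theorem exists_init [Nonempty X] (P : LPar η Wd.k J) {p : X → ℝ} (hp : ∀ u, 0 ≤ p u)
    (hpk : ∑ u, p u ≤ Wd.k) :
    ∃ s : St Wd J P.B, Inv P p s ∧ Pot P p s ≤ 3 * Wd.k * Wd.A1 * ∑ l : Fin Wd.n, Wd.r l ∧
      EE (fun π => ∑ i, dist (loc Wd s.x (s.y π i)) Wd.x0) ≤
        3 * Wd.k * Wd.A1 * ∑ l : Fin Wd.n, Wd.r l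
          + Wd.A1 * Wd.k ^ 2 * ∑ l : Fin Wd.n, Wd.r l
          + 4 / Wd.lam * (Wd.k * Real.log (Wd.M + 1) * ∑ m ∈ range Wd.n, Wd.rho (m + 1)) := by
  have hk := Wd.hk
  have hA := s5_A1_nonneg Wd
  set s0 : St Wd J P.B := ⟨fun _ _ => (Wd.x0, false), fun _ _ => []⟩ with hs0
  have hν : ∀ (l : Fin Wd.n) c, nuC η (s0.x l) c = 0 := by
    intro l c
    simp [nuC, hs0]
  have hI0 : Inv P (fun _ => 0) s0 := by
    refine ⟨fun l => ⟨fun u => le_rfl, fun c => (hν l c).ge, fun c => ?_, fun c hc => ?_⟩,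
      fun π i => by simp only [hs0, List.length_nil, zero_le], fun π N hN => ?_, fun π u hu => ?_⟩
    · simp only [col, zero_mul, zero_div, sum_const_zero]
      norm_num
    · rw [hν l c] at hc
      exact absurd hc (lt_irrefl _)
    · have h1 : cnt (s0.y π) N = 0 := by
        unfold cnt
        rw [card_eq_zero, filter_eq_empty_iff]
        intro i _ h
        simp only [hs0] at h
        exact hN (List.suffix_nil.1 h)
      rw [h1]
      simp [pm]
    · exact absurd hu (by norm_num)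
  obtain ⟨s, hI, hs⟩ := info_step P hI0 (p := fun _ => 0) (by simp only [sum_const_zero]; linarith only [hk]) hp hpk
  have hX : 0 ≤ ∑ u, p u * XC P s0.x s.x u u :=
    sum_nonneg fun u _ => mul_nonneg (hp u) (XC_nonneg P _ _ _ _)
  have hPh := s6_PhC_nonneg s0 s
  have hTr := s6_TrC_nonneg s0 s
  have hr : 0 ≤ ∑ l : Fin Wd.n, Wd.r l := sum_nonneg fun l _ => (s5_r_pos Wd l).le
  have hPot0 : Pot P p s0 ≤ 3 * Wd.k * Wd.A1 * ∑ l : Fin Wd.n, Wd.r l := by
    have e1 : ∀ π : Dyn.Ord (GG Wd.n J P.B), pot Wd.rho Wd.lam p (ad P s0.x π) (s0.y π) = 0 := by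
      intro π
      unfold pot
      have g1 : ∑ i, hgt Wd.rho (s0.y π i) = 0 := by
        simp only [hgt, hs0, sf_nil, sum_empty, sum_const_zero]
      have g2 : ∑ u, p u * ∑ N ∈ sf (ad P s0.x π u), Wd.rho N.length *
          Real.log (cnt (s0.y π) N + 1) = 0 := by
        refine sum_eq_zero fun u _ => ?_
        rw [sum_eq_zero, mul_zero]
        intro N hN
        have g3 : cnt (s0.y π) N = 0 := by
          unfold cnt
          rw [card_eq_zero, filter_eq_empty_iff]
          intro i _ h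
          simp only [hs0] at h
          exact (mem_sf.1 hN).2 (List.suffix_nil.1 h)
        rw [g3]
        simp
      rw [g1, g2]
      simp
    have e2 : EE (fun π => pot Wd.rho Wd.lam p (ad P s0.x π) (s0.y π)) = 0 := by
      simp only [e1]
      exact EE_const 0
    have e3 : EE (fun π : Dyn.Ord (GG Wd.n J P.B) => ∑ i, hgt Wd.rho (s0.y π i)) = 0 := by
      have g1 : ∀ π : Dyn.Ord (GG Wd.n J P.B), ∑ i, hgt Wd.rho (s0.y π i) = 0 := by
        intro π
        simp only [hgt, hs0, sf_nil, sum_empty, sum_const_zero]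
      simp only [g1]
      exact EE_const 0
    have e4 : ∀ l : Fin Wd.n, FF (Dl Wd.r0 l) p (nuC η (s0.x l)) ≤ 3 * Wd.k := by
      intro l
      unfold FF SS
      simp only [hν, mul_zero, sum_const_zero, add_zero, zero_sub]
      rw [← sum_mul]
      have g1 : Real.log e0 = -Real.log 20 := by
        unfold e0
        rw [one_div, Real.log_inv]
      rw [g1]
      have g2 := s6_log20
      have g3 : 0 ≤ Real.log 20 := Real.log_nonneg (by norm_num)
      have g4 : 0 ≤ ∑ u, p u := sum_nonneg fun u _ => hp u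
      have g5 : (∑ u, p u) * Real.log 20 ≤ Wd.k * 3 := mul_le_mul hpk g2 g3 (by linarith only [hk])
      linarith only [g5]
    unfold Pot
    rw [e2, e3, mul_zero, mul_zero, add_zero, add_zero]
    have e5 : ∑ l : Fin Wd.n, Wd.r l * FF (Dl Wd.r0 l) p (nuC η (s0.x l)) ≤
        ∑ l : Fin Wd.n, Wd.r l * (3 * Wd.k) :=
      sum_le_sum fun l _ => mul_le_mul_of_nonneg_left (e4 l) (s5_r_pos Wd l).le
    rw [← sum_mul] at e5
    refine (mul_le_mul_of_nonneg_left e5 hA).trans (le_of_eq ?_)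
    ring
  refine ⟨s, hI, by linarith only [hs, hX, hPh, hTr, hPot0], ?_⟩
  have hlow := s6_Pot_lower P (s := s) hp hpk
  have hE : EE (fun π => ∑ i, dist (loc Wd s.x (s.y π i)) Wd.x0) = PhC s0 s := by
    unfold PhC
    congr 1
    funext π
    refine sum_congr rfl fun i _ => ?_
    rw [dist_comm]
    rfl
  rw [hE]
  linarith

end Vale.Agent.P304.Stp
end
end
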