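import Vale.Agent.P304.Stp.S6

set_option linter.all false

section

section

/-! S7: choice of the parameters; the constant is polylogarithmic. -/

open Finset

namespace Vale.Agent.P304.Stp

open Vale.Agent.P304.Dyn

variable [StP]

theorem s7_RR_pos {k : ℝ} (hk : 1 ≤ k) : 0 < RR k := by
  unfold RR
  norm_num

/-- existence of the world -/
theorem exists_world (X : Type) [MetricSpace X] [Fintype X] (k : ℕ) (hk : 1 ≤ k) (x0 : X)
    (hsl : Real.log (1 / tau (k : ℝ)) ≤ slp) :
    ∃ Wd : World X, Wd.k = k ∧ Wd.M = 8 * k ∧ Wd.x0 = x0 := by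
  classical
  have hkR : (1 : ℝ) ≤ (k : ℝ) := by exact_mod_cast hk
  have hR := s7_RR_pos hkR
  -- a lower bound for the distances
  obtain ⟨d, hd, hd2⟩ : ∃ d : ℝ, 0 < d ∧ ∀ u v : X, u ≠ v → d ≤ dist u v := by
    by_cases hne : (univ : Finset X).offDiag.Nonempty
    · obtain ⟨q, hq, hq2⟩ := Finset.exists_min_image _ (fun q : X × X => dist q.1 q.2) hne
      refine ⟨dist q.1 q.2, dist_pos.2 (Finset.mem_offDiag.1 hq).2.2, fun u v huv => ?_⟩
      exact hq2 (u, v) (Finset.mem_offDiag.2 ⟨mem_univ _, mem_univ _, huv⟩)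
    · refine ⟨1, one_pos, fun u v huv => ?_⟩
      exact absurd ⟨(u, v), Finset.mem_offDiag.2 ⟨mem_univ _, mem_univ _, huv⟩⟩ hne
  -- an upper bound
  obtain ⟨D, hD⟩ : ∃ D : ℝ, ∀ u v : X, dist u v ≤ D := by
    refine ⟨∑ u : X, ∑ v : X, dist u v, fun u v => ?_⟩
    calc dist u v ≤ ∑ v' : X, dist u v' :=
          Finset.single_le_sum (f := fun v' => dist u v') (fun _ _ => dist_nonneg) (mem_univ v)
      _ ≤ ∑ u' : X, ∑ v' : X, dist u' v' :=
          Finset.single_le_sum (f := fun u' => ∑ v' : X, dist u' v')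
            (fun _ _ => Finset.sum_nonneg fun _ _ => dist_nonneg) (mem_univ u)
  set r0 : ℝ := d / (2 * RR k) with hr0
  have hr0p : 0 < r0 := by positivity
  obtain ⟨N, hN⟩ := pow_unbounded_of_one_lt (D / r0) (by norm_num : (1 : ℝ) < 2)
  refine ⟨{ k := k, hk := hkR, n := N + 1, hn := Nat.succ_le_succ (Nat.zero_le _), r0 := r0,
            hr0 := hr0p, x0 := x0, M := 8 * k, hM := by push_cast; exact le_rfl,
            hM2 := by push_cast; linarith only [], bot := ?_, hsl := hsl, top := ?_ }, rfl, rfl, rfl⟩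
  · intro u v huv
    have h1 := hd2 u v huv
    have h2 : RR k * r0 = d / 2 := by
      rw [hr0]; field_simp
    rw [h2]
    linarith only [hd, h1]
  · intro u v
    have h1 := hD u v
    have h2 : D < r0 * 2 ^ N := by
      have := (div_lt_iff₀ hr0p).1 hN
      linarith only [this]
    have h3 : (2 : ℝ) ^ N ≤ 2 ^ (N + 1) := pow_le_pow_right₀ (by norm_num) (Nat.le_succ N)
    have h4 : r0 * 2 ^ N ≤ r0 * 2 ^ (N + 1) := mul_le_mul_of_nonneg_left h3 hr0p.le
    linarith only [h1, h2, h4]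

/-- existence of the discretisation parameters with total error at most `ε` per request -/
theorem exists_params {X : Type} [MetricSpace X] [Fintype X] (Wd : World X) {ε : ℝ} (hε : 0 < ε) :
    ∃ (η : ℝ) (m : ℕ) (P : LPar η Wd.k (Fin m)) (S : ℕ), 1 ≤ S ∧ Wd.k / S ≤ e0 / 8 ∧
      S * Wd.err (Wd.k / S) η (η * Fintype.card (Fin m) / P.Q) ≤ ε := by
  have hk := Wd.hk
  have he0 : (0 : ℝ) < e0 := by unfold e0; norm_num
  set R : ℝ := ∑ l : Fin Wd.n, Wd.r l with hR
  set K1 : ℝ := Wd.A1 * (4000 * Wd.k ^ 3) + 24 * RR Wd.k * Wd.Gam * (200 * Wd.k ^ 2) with hK1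
  set K2 : ℝ := Wd.A1 * ((1 + Wd.k / e0) * (2 * (Fintype.card X : ℝ) ^ 2)) with hK2
  set K3 : ℝ := 24 * RR Wd.k * Wd.Gam * (400 * Wd.k) with hK3
  -- the total error
  have herr : ∀ (S : ℕ) (η q : ℝ), 1 ≤ S →
      S * Wd.err (Wd.k / S) η q = R * K1 / S + S * η * (R * K2) + S * q * (R * K3) := by
    intro S η q hS
    have hS0 : (S : ℝ) ≠ 0 := by
      have : 0 < S := hS
      positivity
    unfold World.err
    rw [← Finset.sum_mul, ← hR, hK1, hK2, hK3]
    field_simp
    ring
  obtain ⟨S, hS⟩ := exists_nat_gt (max 1 (max (8 * Wd.k / e0) (|R * K1| * (3 / ε))))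
  have hS1 : (1 : ℝ) < S := lt_of_le_of_lt (le_max_left _ _) hS
  have hS2 : 8 * Wd.k / e0 < S :=
    lt_of_le_of_lt ((le_max_left _ _).trans (le_max_right _ _)) hS
  have hS3 : |R * K1| * (3 / ε) < S :=
    lt_of_le_of_lt ((le_max_right _ _).trans (le_max_right _ _)) hS
  have hSpos : (0 : ℝ) < S := by linarith only [hS1]
  have hS1' : 1 ≤ S := by exact_mod_cast hS1.le
  set η : ℝ := min (e0 ^ 2 / (100 * Wd.k)) (ε / (3 * S * (|R * K2| + 1))) with hη
  have hη0 : 0 < η := by
    rw [hη]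
    apply lt_min
    · positivity
    · (clear * - hε hS1'; positivity)
  have hη1 : η ≤ e0 ^ 2 / (100 * Wd.k) := min_le_left _ _
  have hη2 : η ≤ ε / (3 * S * (|R * K2| + 1)) := min_le_right _ _
  obtain ⟨m, hm⟩ := exists_nat_gt ((6 * Wd.k + 1) / η)
  have hm' : 6 * Wd.k + 1 ≤ η * m := by
    have := (div_lt_iff₀ hη0).1 hm
    linarith only [this]
  have hηm : 0 < η * m := by linarith only [hk, hm']
  obtain ⟨Q, hQ⟩ := exists_nat_gt (max 1 (max (40 / e0 * (η * m))
    (η * m * (3 * S * (|R * K3| + 1) / ε))))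
  have hQ1 : (1 : ℝ) < Q := lt_of_le_of_lt (le_max_left _ _) hQ
  have hQ2 : 40 / e0 * (η * m) < Q :=
    lt_of_le_of_lt ((le_max_left _ _).trans (le_max_right _ _)) hQ
  have hQ3 : η * m * (3 * S * (|R * K3| + 1) / ε) < Q :=
    lt_of_le_of_lt ((le_max_right _ _).trans (le_max_right _ _)) hQ
  have hQpos : (0 : ℝ) < Q := by linarith only [hQ1]
  have hQ1' : 1 ≤ Q := by exact_mod_cast hQ1.le
  set Ne : ℕ := ⌈e0 * Q / η⌉₊ with hNe
  have hNe1 : e0 * Q ≤ η * Ne := by
    have := Nat.le_ceil (e0 * Q / η)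
    have h2 := (div_le_iff₀ hη0).1 this
    linarith only [h2]
  have hNe2 : η * Ne ≤ e0 * Q + η := by
    have h1 : (Ne : ℝ) < e0 * Q / η + 1 := Nat.ceil_lt_add_one (by (clear * - he0 hQ1' hk hε hS1'; positivity))
    have h2 : η * Ne ≤ η * (e0 * Q / η + 1) := mul_le_mul_of_nonneg_left h1.le hη0.le
    have h3 : η * (e0 * Q / η + 1) = e0 * Q + η := by field_simp
    linarith only [h2, h3]
  refine ⟨η, m, ⟨Q, Ne, max Q Ne, hQ1', hNe1, hNe2, le_max_left _ _, le_max_right _ _, hη0, ?_, ?_,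
    ?_, hk⟩, S, hS1', ?_, ?_⟩
  · have h1 : η * Wd.k ≤ e0 ^ 2 / (100 * Wd.k) * Wd.k :=
      mul_le_mul_of_nonneg_right hη1 (by linarith only [hk])
    have h2 : e0 ^ 2 / (100 * Wd.k) * Wd.k = e0 ^ 2 / 100 := by field_simp
    linarith only [h1, h2]
  · rw [Fintype.card_fin]
    have h1 : e0 / 40 * (40 / e0 * (η * m)) ≤ e0 / 40 * Q :=
      mul_le_mul_of_nonneg_left hQ2.le (by positivity)
    have h2 : e0 / 40 * (40 / e0 * (η * m)) = η * m := by (clear * - he0 hη0; field_simp)
    linarith only [h1, h2]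
  · rw [Fintype.card_fin]; exact hm'
  · rw [div_le_iff₀ hSpos]
    have h1 := (div_lt_iff₀ he0).1 hS2
    linarith only [h1]
  · have hcard : ((Fintype.card (Fin m) : ℕ) : ℝ) = m := by rw [Fintype.card_fin]
    rw [herr S η _ hS1']
    show R * K1 / S + S * η * (R * K2) +
      S * (η * ((Fintype.card (Fin m) : ℕ) : ℝ) / (Q : ℝ)) * (R * K3) ≤ ε
    rw [hcard]
    have h1 : R * K1 / S ≤ ε / 3 := by
      rw [div_le_iff₀ hSpos]
      have ha := le_abs_self (R * K1)
      have hb : |R * K1| = |R * K1| * (3 / ε) * (ε / 3) := by (clear * - hε; field_simp)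
      have hc : |R * K1| * (3 / ε) * (ε / 3) ≤ S * (ε / 3) :=
        mul_le_mul_of_nonneg_right hS3.le (by positivity)
      (clear * - ha hb hc; linarith [mul_comm (S : ℝ) (ε / 3)])
    have h2 : S * η * (R * K2) ≤ ε / 3 := by
      have ha : R * K2 ≤ |R * K2| + 1 := by linarith only [le_abs_self (R * K2)]
      have hb : S * η * (R * K2) ≤ S * η * (|R * K2| + 1) :=
        mul_le_mul_of_nonneg_left ha (by (clear * - hS1' he0 hk hε; positivity))
      have hc : S * η * (|R * K2| + 1) ≤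
          S * (ε / (3 * S * (|R * K2| + 1))) * (|R * K2| + 1) := by (clear * - hη2 hS1'; gcongr)
      have hd : S * (ε / (3 * S * (|R * K2| + 1))) * (|R * K2| + 1) = ε / 3 := by
        (clear * - hS1' hε; field_simp)
      linarith only [hb, hc, hd]
    have h3 : S * (η * m / Q) * (R * K3) ≤ ε / 3 := by
      have ha : R * K3 ≤ |R * K3| + 1 := by linarith only [le_abs_self (R * K3)]
      have hb : S * (η * m / Q) * (R * K3) ≤ S * (η * m / Q) * (|R * K3| + 1) :=
        mul_le_mul_of_nonneg_left ha (by (clear * - hS1' hηm hQ1'; positivity))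
      have hc : S * (η * m / Q) * (|R * K3| + 1) ≤ ε / 3 := by
        have h5 : S * (η * m / Q) * (|R * K3| + 1) =
            (η * m * (3 * S * (|R * K3| + 1) / ε)) / Q * (ε / 3) := by
          (clear * - hε hQ1' hη0 hS1'; field_simp)
        have h6 : (η * m * (3 * S * (|R * K3| + 1) / ε)) / Q ≤ 1 := by
          rw [div_le_one hQpos]; exact hQ3.le
        rw [h5]
        exact (mul_le_mul_of_nonneg_right h6 (by positivity)).trans (one_mul _).le
      linarith only [hb, hc]
    linarith only [h1, h2, h3]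

/-- the constant of the step is polylogarithmic in `k` -/
theorem CT_le4 (X : Type) [MetricSpace X] [Fintype X] (Wd : World X)
    (hs10 : slp ≤ 10 * (1 + Real.log Wd.k)) :
    Wd.CT ≤ 1000000000000000 * (1 + Real.log Wd.k) ^ 4 := by
  have hk := Wd.hk
  have hk0 : 0 < Wd.k := by linarith only [hk]
  set L : ℝ := 1 + Real.log Wd.k with hL
  have hlk : 0 ≤ Real.log Wd.k := Real.log_nonneg hk
  have hL1 : 1 ≤ L := by linarith only [hlk]
  have hlog : ∀ c : ℝ, 0 < c → Real.log (c * Wd.k) = Real.log c + (L - 1) := by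
    intro c hc
    rw [Real.log_mul hc.ne' hk0.ne']
    ring
  -- RR
  have ha : RR Wd.k = 11 := rfl
  have ha0 : 0 ≤ RR Wd.k := (s7_RR_pos hk).le
  -- log (M + 2)
  set b : ℝ := Real.log (Wd.M + 2) with hb
  have hMk : (1 : ℝ) ≤ (Wd.M : ℝ) := by
    have := Wd.hM
    linarith only [hk, this]
  have hb0 : 0 < b := Real.log_pos (by linarith only [])
  have hb1 : b ≤ 3 * L := by
    have h1 : b ≤ Real.log (11 * Wd.k) := by
      apply Real.log_le_log (by linarith)
      have := Wd.hM2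
      linarith only [hk, this]
    rw [hlog 11 (by norm_num)] at h1
    have h2 : Real.log 11 ≤ 3 := by
      rw [Real.log_le_iff_le_exp (by norm_num)]
      have h3 : (2.7 : ℝ) < Real.exp 1 := by
        have := Real.exp_one_gt_d9
        linarith only [this]
      have h4 : Real.exp 3 = Real.exp 1 ^ 3 := by
        rw [← Real.exp_nat_mul]; norm_num
      have h5 : (2.7 : ℝ) ^ 3 ≤ Real.exp 1 ^ 3 := pow_le_pow_left₀ (by norm_num) h3.le 3
      rw [h4]
      have h6 : (11 : ℝ) ≤ 2.7 ^ 3 := by norm_num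
      linarith only [h5]
    linarith only [hlk, h1, h2]
  -- log (60 k)
  set c : ℝ := Real.log (60 * Wd.k) with hc
  have hc1 : c ≤ 5 * L := by
    rw [hc, hlog 60 (by norm_num)]
    have h2 : Real.log 60 ≤ 5 := by
      rw [Real.log_le_iff_le_exp (by norm_num)]
      have h3 : (2.7 : ℝ) < Real.exp 1 := by
        have := Real.exp_one_gt_d9
        linarith only [this]
      have h4 : Real.exp 5 = Real.exp 1 ^ 5 := by
        rw [← Real.exp_nat_mul]; norm_num
      have h5 : (2.7 : ℝ) ^ 5 ≤ Real.exp 1 ^ 5 := pow_le_pow_left₀ (by norm_num) h3.le 5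
      rw [h4]
      have h6 : (60 : ℝ) ≤ 2.7 ^ 5 := by norm_num
      linarith only [h5]
    linarith only [hlk, h2]
  have hc0 : 0 ≤ c := Real.log_nonneg (by linarith only [hk])
  -- log ((k + e0) / e0)
  set d : ℝ := Real.log ((Wd.k + e0) / e0) with hd
  have hd1 : d ≤ 4 * L := by
    have h1 : d ≤ Real.log (21 * Wd.k) := by
      apply Real.log_le_log
      · unfold e0; (clear * - hk; positivity)
      · unfold e0
        have : (Wd.k + 1 / 20) / (1 / 20) = 20 * Wd.k + 1 := by ring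
        rw [this]; linarith only [hk]
    rw [hlog 21 (by norm_num)] at h1
    have h2 : Real.log 21 ≤ 4 := by
      rw [Real.log_le_iff_le_exp (by norm_num)]
      have h3 : (2.7 : ℝ) < Real.exp 1 := by
        have := Real.exp_one_gt_d9
        linarith only [this]
      have h4 : Real.exp 4 = Real.exp 1 ^ 4 := by
        rw [← Real.exp_nat_mul]; norm_num
      have h5 : (2.7 : ℝ) ^ 4 ≤ Real.exp 1 ^ 4 := pow_le_pow_left₀ (by norm_num) h3.le 4
      rw [h4]
      have h6 : (21 : ℝ) ≤ 2.7 ^ 4 := by norm_num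
      linarith only [h5]
    linarith only [hlk, h1, h2]
  have hd0 : 0 ≤ d := by
    apply Real.log_nonneg
    unfold e0
    have : (Wd.k + 1 / 20) / (1 / 20) = 20 * Wd.k + 1 := by ring
    rw [this]; linarith only [hk]
  have hL0 : 0 ≤ L := by linarith only [hlk]
  have hL2 : 1 ≤ L ^ 2 := one_le_pow₀ hL1
  have hL3 : L ≤ L ^ 2 := by nlinarith only [hlk]
  have hs0 := slp_pos
  have hs : slp ≤ 10 * L := hs10
  set E : ℝ := L ^ 2 with hE
  have hE1 : 1 ≤ E := by linarith only [hL2]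
  have hE0 : 0 ≤ E := by linarith only [hL2]
  -- Gam
  have hG : Wd.Gam ≤ 289 * E := by
    unfold World.Gam
    rw [← hb]
    have : b ^ 2 ≤ (3 * L) ^ 2 := pow_le_pow_left₀ hb0.le hb1 2
    linarith
  have hG0 : 0 ≤ Wd.Gam := by
    unfold World.Gam; positivity
  have hsL : slp * L ≤ 10 * E := by
    have := mul_le_mul_of_nonneg_right hs hL0
    rw [hE]
    linarith only [this]
  have hsc : slp * c ≤ 50 * E := by
    have e1 : slp * c ≤ slp * (5 * L) := mul_le_mul_of_nonneg_left hc1 hs0.le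
    linarith only [e1, hsL]
  have hsc0 : 0 ≤ slp * c := mul_nonneg hs0.le hc0
  have hs1 : slp ≤ 10 * E := by linarith only [hs, hL3]
  have hGk : Gk Wd.k = 500 * (slp * L) := by unfold Gk; rw [← hL]; ring
  have hsL0 : 0 ≤ slp * L := mul_nonneg hs0.le hL0
  -- 1 / lam
  have hlam : 1 / Wd.lam = 16 * b := by
    unfold World.lam
    rw [← hb]
    field_simp
  have hlam' : 101 / Wd.lam = 101 * (16 * b) := by rw [← hlam]; ring
  have hG2 : Wd.G2 ≤ 10000000 * E := by
    unfold World.G2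
    rw [hlam, hlam', ← hd, ha]
    have h1 : 2 * (101 * (16 * b)) * (24 + 12 * (11 : ℝ)) * d ≤
        2 * (101 * (16 * (3 * L))) * (24 + 12 * (11 : ℝ)) * (4 * L) := by
      (clear * - hb1 hb0 hlk hd1 hd0; gcongr)
    have h2 : 16 * (16 * b) * (1 + d) ≤ 16 * (16 * (3 * L)) * (1 + 4 * L) := by
      (clear * - hb1 hb0 hd1 hd0 hlk; gcongr)
    linarith
  have hE2 : E ≤ E * E := le_mul_of_one_le_left hE0 hE1
  have hT1 : Wd.A1 * (600 * Gk Wd.k + 1000 * slp + 64 * slp * c)
      ≤ 100000000000000 * (E * E) := by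
    have h1 : Wd.A1 = 105600 * Wd.Gam := by unfold World.A1; rw [ha]; ring
    have h2 : 600 * Gk Wd.k + 1000 * slp + 64 * slp * c ≤ 3013200 * E := by
      rw [hGk]; linarith only [hsL, hsc, hs1]
    have h3 : 0 ≤ 600 * Gk Wd.k + 1000 * slp + 64 * slp * c := by
      rw [hGk]; linarith only [hsL0, hsc0, hs0]
    rw [h1]
    calc 105600 * Wd.Gam * (600 * Gk Wd.k + 1000 * slp + 64 * slp * c)
        ≤ 105600 * (289 * E) * (3013200 * E) := by
          apply mul_le_mul (by linarith only [hG]) h2 h3 (by (clear * - hE0; positivity))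
      _ = (105600 * 289 * 3013200) * (E * E) := by ring
      _ ≤ 100000000000000 * (E * E) := by
          apply mul_le_mul_of_nonneg_right (by norm_num) (by (clear * - hE0; positivity))
  have hT2 : 24 * RR Wd.k * Wd.Gam * (1300000 * Gk Wd.k + 64 * slp)
      ≤ 600000000000000 * (E * E) := by
    have h2 : 1300000 * Gk Wd.k + 64 * slp ≤ 6500000640 * E := by
      rw [hGk]; linarith only [hsL, hs1]
    have h3 : 0 ≤ 1300000 * Gk Wd.k + 64 * slp := by
      rw [hGk]; linarith only [hsL0, hs0]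
    rw [ha]
    calc 24 * 11 * Wd.Gam * (1300000 * Gk Wd.k + 64 * slp)
        ≤ 24 * 11 * (289 * E) * (6500000640 * E) := by
          apply mul_le_mul (by linarith only [hG]) h2 h3 (by (clear * - hE0; positivity))
      _ = (24 * 11 * 289 * 6500000640) * (E * E) := by ring
      _ ≤ 600000000000000 * (E * E) := by
          apply mul_le_mul_of_nonneg_right (by norm_num) (by (clear * - hE0; positivity))
  have hfin : L ^ 4 = E * E := by rw [hE]; ring
  rw [hfin]
  unfold World.CT
  rw [← hc]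
  have hE3 : 0 ≤ E * E := mul_nonneg hE0 hE0
  linarith only [hG2, hE2, hT1, hT2, hE3]

end Vale.Agent.P304.Stp
end
end
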