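import Vale.Agent.P304.Stp.S7

set_option linter.all false

section

section

/-! # P304-Dyn: the engine, and `R(k) ≤ polylog(k) * R_ult(k)` -/

set_option linter.all false

open Finset
open scoped NNReal ENNReal

namespace Vale.Agent.P304.Stp

open Vale.Agent.P304.Dyn

variable [StP]

open Vale.Agent.P304

section addresses

variable {X J : Type} [MetricSpace X] [Fintype X] [DecidableEq X] [Fintype J] [DecidableEq J]
  {Wd : World X} {η : ℝ}

/-- labels by depth -/
noncomputable def labF (P : LPar η Wd.k J) (x : Fin Wd.n → Conf X J) (π : Dyn.Ord (GG Wd.n J P.B))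
    (u : X) (i : ℕ) : Option J := labS P x π (Wd.lv (i + 1)) u

theorem adAux_eq_adrN (P : LPar η Wd.k J) (x : Fin Wd.n → Conf X J)
    (π : Dyn.Ord (GG Wd.n J P.B)) (u : X) (d : ℕ) :
    adAux P x π u d = adrN (labF P x π u) d := by
  induction d with
  | zero => rfl
  | succ d ih =>
    rw [adAux, ih]
    by_cases hl : (adrN (labF P x π u) d).length = d
    · rw [if_pos hl]
      cases h : labF P x π u d with
      | none =>
        rw [adrN_succ_none h]
        unfold labF at h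
        rw [h]
      | some j =>
        rw [adrN_succ_some h hl]
        unfold labF at h
        rw [h]
    · rw [if_neg hl, adrN_succ_of_ne hl]

theorem ad_eq_adrN (P : LPar η Wd.k J) (x : Fin Wd.n → Conf X J)
    (π : Dyn.Ord (GG Wd.n J P.B)) (u : X) : ad P x π u = adrN (labF P x π u) Wd.n :=
  adAux_eq_adrN P x π u Wd.n

/-- the weights of the ultrametric space -/
noncomputable def World.WW (Wd : World X) (i : Fin Wd.n) : {x : ℝ≥0 // 0 < x} :=
  ⟨Real.toNNReal (Wd.rho (i + 1)), Real.toNNReal_pos.2 (rho_pos Wd _)⟩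

theorem coe_WW (Wd : World X) (i : Fin Wd.n) : ((Wd.WW i).1 : ℝ) = Wd.rho (i + 1) :=
  Real.coe_toNNReal _ (rho_pos Wd _).le

theorem RR_pos' (Wd : World X) : 0 < RR Wd.k := by
  have := RR_ge Wd.hk
  linarith

theorem r_pos (Wd : World X) (l : ℕ) : 0 < Wd.r l := by
  unfold World.r
  have := Wd.hr0
  positivity

theorem rho_anti (Wd : World X) {i j : ℕ} (h : i ≤ j) : Wd.rho (j + 1) ≤ Wd.rho (i + 1) := by
  unfold World.rho World.r
  have h1 := RR_pos' Wd
  have h2 := Wd.hr0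
  have h3 : (2 : ℝ) ^ (Wd.n - (j + 1)) ≤ 2 ^ (Wd.n - (i + 1)) :=
    pow_le_pow_right₀ (by norm_num) (by omega)
  have h4 := mul_le_mul_of_nonneg_left h3 h2.le
  exact mul_le_mul_of_nonneg_left h4 (by positivity)

/-- geometric growth of the weights -/
theorem sum_rho_le (Wd : World X) {i : ℕ} (hi : i < Wd.n) :
    ∑ m ∈ Ico (i + 1) (Wd.n + 1), Wd.rho m ≤ 2 * Wd.rho (i + 1) := by
  have key : ∀ d i : ℕ, i + d + 1 = Wd.n →
      ∑ m ∈ Ico (i + 1) (Wd.n + 1), Wd.rho m ≤ 2 * Wd.rho (i + 1) := by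
    intro d
    induction d with
    | zero =>
      intro i hi
      have h1 : Ico (i + 1) (Wd.n + 1) = {i + 1} := by
        ext m
        simp only [mem_Ico, mem_singleton]
        omega
      rw [h1, sum_singleton]
      have := rho_pos Wd (i + 1)
      linarith only [this]
    | succ d ih =>
      intro i hi
      rw [sum_eq_sum_Ico_succ_bot (by (clear * - hi; omega))]
      have h1 := ih (i + 1) (by omega)
      have h2 : Wd.rho (i + 1) = 2 * Wd.rho (i + 1 + 1) := by
        unfold World.rho World.r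
        have h3 : Wd.n - (i + 1) = Wd.n - (i + 1 + 1) + 1 := by omega
        rw [h3, pow_succ]
        ring
      linarith only [h1, h2]
  exact key (Wd.n - 1 - i) i (by omega)

theorem sum_range_eq_rev (n : ℕ) (F : ℕ → ℝ) :
    ∑ i ∈ range n, F i = ∑ i : Fin n, F ((Fin.rev i : Fin n) : ℕ) := by
  rw [← Fin.sum_univ_eq_sum_range, ← Equiv.sum_comp Fin.revPerm]
  rfl

theorem dist_ad_le (P : LPar η Wd.k J) (x x' : Fin Wd.n → Conf X J) (π : Dyn.Ord (GG Wd.n J P.B))
    (u v : X) :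
    dist (nodeAddr Wd.n Wd.WW (ad P x π u)) (nodeAddr Wd.n Wd.WW (ad P x' π v)) ≤
      ∑ l : Fin Wd.n, Wd.wt l * (if labS P x π l u = labS P x' π l v then (0 : ℝ) else 1) := by
  rw [ad_eq_adrN, ad_eq_adrN]
  refine (dist_nodeAddr_adrN_le (coe_WW Wd) (fun m => (rho_pos Wd m).le)
    (fun i j h => rho_anti Wd h) _ _).trans ?_
  rw [sum_range_eq_rev]
  refine sum_le_sum fun i _ => ?_
  have h1 : Wd.lv ((Fin.rev i : Fin Wd.n) + 1) = i := by
    apply Fin.ext
    simp only [World.lv, Fin.val_rev]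
    have hi := i.2
    rw [Nat.mod_eq_of_lt (by omega)]
    omega
  have h2 : Wd.rho ((Fin.rev i : Fin Wd.n) + 1) ≤ Wd.wt i := by
    unfold World.rho World.wt
    have h3 : Wd.n - ((Fin.rev i : Fin Wd.n) + 1) = (i : ℕ) := by
      simp only [Fin.val_rev]
      have hi := i.2
      omega
    rw [h3]
    have := RR_pos' Wd
    have := r_pos Wd i
    nlinarith
  unfold labF
  rw [h1]
  by_cases hc : labS P x π i u = labS P x' π i v
  · rw [if_pos hc, if_pos hc, mul_zero, mul_zero]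
  · rw [if_neg hc, if_neg hc, mul_one, mul_one]
    exact h2

theorem dist_node_le (Wd : World X) (a b : List J) :
    dist (nodeAddr Wd.n Wd.WW a) (nodeAddr Wd.n Wd.WW b) ≤ dn Wd.rho a b + dn Wd.rho b a :=
  nd_le_dn (coe_WW Wd) (fun m => (rho_pos Wd m).le) a b

/-- tracks and addresses: every suffix of a track contains a point -/
theorem exists_of_track (P : LPar η Wd.k J) {p : X → ℝ} {s : St Wd J P.B} (hI : Inv P p s)
    (π : Dyn.Ord (GG Wd.n J P.B)) (i : Fin Wd.M) (N : List J) (hN : N ≠ []) (h : N <:+ s.y π i) :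
    ∃ u, N <:+ ad P s.x π u := by
  by_contra hcon
  push Not at hcon
  have h1 := hI.dom π N hN
  have h2 : pm p (ad P s.x π) N = 0 := by
    unfold pm
    exact sum_eq_zero fun u _ => if_neg (hcon u)
  have h3 : 1 ≤ cnt (s.y π) N := by
    unfold cnt
    exact card_pos.2 ⟨i, mem_filter.2 ⟨mem_univ _, h⟩⟩
  have h4 : (1 : ℝ) ≤ cnt (s.y π) N := by exact_mod_cast h3
  have h5 := lam_pos Wd
  rw [h2] at h1
  nlinarith only [h1, h5, h4]

/-- the geometric comparison -/
theorem geom_le (P : LPar η Wd.k J) {p : X → ℝ} {s : St Wd J P.B} (hI : Inv P p s)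
    {u : X} (hu : 1 ≤ p u) (π : Dyn.Ord (GG Wd.n J P.B)) (i : Fin Wd.M) :
    dist (loc Wd s.x (s.y π i)) u ≤
      4 * dist (nodeAddr Wd.n Wd.WW (s.y π i)) (nodeAddr Wd.n Wd.WW (ad P s.x π u)) := by
  obtain ⟨hlen, -⟩ := hI.lf π u hu
  by_cases hne : s.y π i = ad P s.x π u
  · rw [hne, loc_full P s.x π u hlen]
    simp
  · obtain ⟨T, hT1, hT2, hT3, hT4⟩ := exists_common_suffix (coe_WW Wd) hlen (hI.len π i) hne
    have h1 := place_le_static P s.x π (s.y π i) (ad P s.x π u)
      (fun N hN hs => exists_of_track P hI π i N hN hs) (fun N hN hs => ⟨u, hs⟩)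
    rw [loc_full P s.x π u hlen] at h1
    have hdn : ∀ A B : List J, T <:+ A → T <:+ B → B.length ≤ Wd.n →
        dn Wd.rho A B ≤ 2 * Wd.rho (T.length + 1) := by
      intro A B hA hB hBn
      refine le_trans ?_ (sum_rho_le Wd hT3)
      unfold dn
      have hinj : Set.InjOn List.length (↑(sf B \ sf A) : Set (List J)) := by
        intro N hN N' hN' hl
        rw [mem_coe, mem_sdiff] at hN hN'
        exact sf_length_inj hN.1 hN'.1 hl
      rw [← sum_image (f := Wd.rho) hinj]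
      refine sum_le_sum_of_subset_of_nonneg ?_ (fun m _ _ => (rho_pos Wd m).le)
      intro m hm
      rw [mem_image] at hm
      obtain ⟨N, hN, rfl⟩ := hm
      rw [mem_sdiff, mem_sf, mem_sf] at hN
      have h2 := hN.1.1.length_le
      rw [mem_Ico]
      refine ⟨?_, by omega⟩
      by_contra hcon
      push Not at hcon
      exact hN.2 ⟨(suffix_of_le hN.1.1 hB (by omega)).trans hA, hN.1.2⟩
    have h2 := hdn _ _ hT1 hT2 (by rw [hlen])
    have h3 := hdn _ _ hT2 hT1 (hI.len π i)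
    linarith only [hT4, h1, h2, h3]

end addresses

section potential

variable {X J : Type} [MetricSpace X] [Fintype X] [DecidableEq X] [Fintype J] [DecidableEq J]
  {Wd : World X} {η : ℝ}

/-- the shift that makes the potential nonnegative -/
noncomputable def World.K0 (Wd : World X) : ℝ :=
  Wd.A1 * ∑ l : Fin Wd.n, Wd.r l * Real.log (3 * Wd.k) +
    4 / Wd.lam * ((∑ j ∈ Ico 1 (Wd.n + 1), Wd.rho j) * Real.log (Wd.M + 1))

noncomputable def psiW (P : LPar η Wd.k J) (s : St Wd J P.B) (u : X) : ℝ :=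
  Wd.K0 - Wd.A1 * (∑ l : Fin Wd.n, Wd.r l * Real.log (SS (Dl Wd.r0 l) (nuC η (s.x l)) u)) -
    4 / Wd.lam * EE (fun π => ∑ N ∈ sf (ad P s.x π u),
      Wd.rho N.length * Real.log (cnt (s.y π) N + 1))

noncomputable def ccW (P : LPar η Wd.k J) (s : St Wd J P.B) : ℝ :=
  Wd.A1 * (∑ l : Fin Wd.n, Wd.r l * ∑ c, nuC η (s.x l) c) +
    6 * EE (fun π => ∑ i, hgt Wd.rho (s.y π i))

theorem pot_psi (P : LPar η Wd.k J) (p : X → ℝ) (s : St Wd J P.B) :
    ∑ u, p u * psiW P s u + ccW P s = Wd.K0 * ∑ u, p u + Pot P p s := by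
  have hlam := lam_pos Wd
  unfold psiW ccW Pot
  have h1 : ∑ l : Fin Wd.n, Wd.r l * FF (Dl Wd.r0 l) p (nuC η (s.x l)) =
      (∑ l : Fin Wd.n, Wd.r l * ∑ c, nuC η (s.x l) c) -
        ∑ u, p u * ∑ l : Fin Wd.n, Wd.r l * Real.log (SS (Dl Wd.r0 l) (nuC η (s.x l)) u) := by
    unfold FF
    simp_rw [mul_sub, sum_sub_distrib, mul_sum]
    congr 1
    rw [sum_comm]
    refine sum_congr rfl fun u _ => sum_congr rfl fun l _ => ?_
    ring
  have h2 : EE (fun π => pot Wd.rho Wd.lam p (ad P s.x π) (s.y π)) =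
      Wd.lam * EE (fun π => ∑ i, hgt Wd.rho (s.y π i)) -
        ∑ u, p u * EE (fun π => ∑ N ∈ sf (ad P s.x π u),
          Wd.rho N.length * Real.log (cnt (s.y π) N + 1)) := by
    unfold pot
    rw [EE_sub, EE_mul]
    congr 1
    rw [EE_sum]
    refine sum_congr rfl fun u _ => ?_
    rw [EE_mul]
  rw [h1, h2]
  have h3 : 4 / Wd.lam * (Wd.lam * EE (fun π => ∑ i, hgt Wd.rho (s.y π i))) =
      4 * EE (fun π => ∑ i, hgt Wd.rho (s.y π i)) := by
    field_simp
  rw [mul_sub, mul_sub, h3]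
  have h4 : ∑ u, p u * (Wd.K0 -
      Wd.A1 * (∑ l : Fin Wd.n, Wd.r l * Real.log (SS (Dl Wd.r0 l) (nuC η (s.x l)) u)) -
      4 / Wd.lam * EE (fun π => ∑ N ∈ sf (ad P s.x π u),
        Wd.rho N.length * Real.log (cnt (s.y π) N + 1))) =
      Wd.K0 * ∑ u, p u -
      Wd.A1 * (∑ u, p u * ∑ l : Fin Wd.n, Wd.r l * Real.log (SS (Dl Wd.r0 l) (nuC η (s.x l)) u)) -
      4 / Wd.lam * ∑ u, p u * EE (fun π => ∑ N ∈ sf (ad P s.x π u),
        Wd.rho N.length * Real.log (cnt (s.y π) N + 1)) := by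
    rw [mul_sum, mul_sum, mul_sum, ← sum_sub_distrib, ← sum_sub_distrib]
    refine sum_congr rfl fun u _ => ?_
    ring
  rw [h4]
  ring

theorem Gam_pos (Wd : World X) : 0 < Wd.Gam := by
  unfold World.Gam
  positivity

theorem A1_pos (Wd : World X) : 0 < Wd.A1 := by
  unfold World.A1
  have h1 := RR_pos' Wd
  have h2 := Gam_pos Wd
  positivity

theorem psiW_nonneg (P : LPar η Wd.k J) {p : X → ℝ} {s : St Wd J P.B} (hI : Inv P p s)
    (hpk : ∑ u, p u ≤ Wd.k) (u : X) : 0 ≤ psiW P s u := by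
  have hk := Wd.hk
  have hA := A1_pos Wd
  have hlam := lam_pos Wd
  have h1 : ∑ l : Fin Wd.n, Wd.r l * Real.log (SS (Dl Wd.r0 l) (nuC η (s.x l)) u) ≤
      ∑ l : Fin Wd.n, Wd.r l * Real.log (3 * Wd.k) := by
    refine sum_le_sum fun l _ => mul_le_mul_of_nonneg_left ?_ (r_pos Wd l).le
    have hb := hI.bal l
    refine Real.log_le_log (SS_pos hb.hν u) ?_
    refine (SS_le (Dl_pm Wd.hr0 l) hb.hν u).trans ?_
    have h2 := sum_nu_le hb
    have h3 : (e0 : ℝ) = 1 / 20 := rfl
    linarith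
  have h2 : EE (fun π => ∑ N ∈ sf (ad P s.x π u),
      Wd.rho N.length * Real.log (cnt (s.y π) N + 1)) ≤
      (∑ j ∈ Ico 1 (Wd.n + 1), Wd.rho j) * Real.log (Wd.M + 1) := by
    refine EE_le_of_le fun π => ?_
    rw [sum_mul]
    have e1 : ∑ N ∈ sf (ad P s.x π u), Wd.rho N.length * Real.log (cnt (s.y π) N + 1) ≤
        ∑ N ∈ sf (ad P s.x π u), Wd.rho N.length * Real.log (Wd.M + 1) :=
      sum_le_sum fun N _ => mul_le_mul_of_nonneg_left (log_cnt_le _ _) (rho_pos Wd _).le
    refine e1.trans ?_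
    have hinj : Set.InjOn List.length (↑(sf (ad P s.x π u)) : Set (List J)) := by
      intro N hN N' hN' hl
      exact sf_length_inj hN hN' hl
    rw [← sum_image (f := fun m => Wd.rho m * Real.log (Wd.M + 1)) hinj]
    refine sum_le_sum_of_subset_of_nonneg ?_ ?_
    · intro m hm
      rw [mem_image] at hm
      obtain ⟨N, hN, rfl⟩ := hm
      rw [mem_sf] at hN
      have h3 := hN.1.length_le.trans (ad_length_le P s.x π u)
      have h4 := List.length_pos_iff.2 hN.2
      rw [mem_Ico]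
      omega
    · intro m _ _
      refine mul_nonneg (rho_pos Wd m).le (Real.log_nonneg ?_)
      have : (0 : ℝ) ≤ Wd.M := Nat.cast_nonneg _
      linarith only []
  have h3 := mul_le_mul_of_nonneg_left h1 hA.le
  have h4 := mul_le_mul_of_nonneg_left h2 (show 0 ≤ 4 / Wd.lam by positivity)
  unfold psiW World.K0
  (clear * - h3 h4; linarith)

theorem ccW_nonneg (P : LPar η Wd.k J) (s : St Wd J P.B) : 0 ≤ ccW P s := by
  have hA := A1_pos Wd
  unfold ccW
  refine add_nonneg (mul_nonneg hA.le (sum_nonneg fun l _ => mul_nonneg (r_pos Wd l).le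
    (sum_nonneg fun c _ => nuC_nonneg P.hη.le _ _))) (mul_nonneg (by norm_num) (EE_nonneg fun π =>
      sum_nonneg fun i _ => hgt_nonneg (fun m => (rho_pos Wd m).le) _))

end potential

end Vale.Agent.P304.Stp
end
end

section

section

/-! S5L: the info step and the `T`-step, with separate inequalities for the tracks and for the
tokens (so that address changes can be weighted by any factor). -/

open Finset

namespace Vale.Agent.P304.Stp

open Vale.Agent.P304.Dyn

variable [StP]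

variable {X J : Type} [MetricSpace X] [Fintype X] [DecidableEq X] [Fintype J] [DecidableEq J]
  {Wd : World X} {η : ℝ}

/-- the potential of the tracks -/
noncomputable def PotT (P : LPar η Wd.k J) (p : X → ℝ) (s : St Wd J P.B) : ℝ :=
  4 / Wd.lam * EE (fun π => pot Wd.rho Wd.lam p (ad P s.x π) (s.y π))
    + 2 * EE (fun π => ∑ i, hgt Wd.rho (s.y π i))

/-- the potential of the tokens -/
noncomputable def PotF (P : LPar η Wd.k J) (p : X → ℝ) (s : St Wd J P.B) : ℝ :=
  Wd.A1 * ∑ l : Fin Wd.n, Wd.r l * FF (Dl Wd.r0 l) p (nuC η (s.x l))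

/-- coefficient of relabellings in the track inequality -/
noncomputable def World.g32 (Wd : World X) : ℝ := 32 * Real.log (Wd.M + 2) ^ 2

/-- INFO STEP -/
theorem info_step2 [Nonempty X] (P : LPar η Wd.k J) {p p' : X → ℝ} {s : St Wd J P.B}
    (hI : Inv P p s) (hpk : ∑ u, p u ≤ Wd.k) (hp' : ∀ u, 0 ≤ p' u) (hpk' : ∑ u, p' u ≤ Wd.k) :
    ∃ s' : St Wd J P.B, Inv P p' s' ∧
      PhC s s' + TrC s s' + PotT P p' s' ≤ PotT P p' s
        + Wd.g32 * ∑ u, p' u * XC P s.x s'.x u u ∧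
      Wd.Gam * (∑ u, p' u * XC P s.x s'.x u u) + PotF P p' s' ≤ PotF P p' s := by
  have hη := P.hη
  have key := fun l : Fin Wd.n => exists_tokprox (Dl_pm (X := X) Wd.hr0 l) P hp' hpk' (s.x l) (by
    have := sum_nu_le (hI.bal l)
    linarith)
  choose x' hA hB hF using key
  obtain ⟨s', hs'x, hI', hst⟩ := exists_tracks P hI.len hp' hpk' x' hB
  refine ⟨s', hI', ?_⟩
  have t1 := tracks_cost_le P hI hI' (xd := s.x) (fun l j => Or.inl rfl)
    (fun l => by rw [hs'x]; exact hA l) (fun π => by rw [hs'x]; exact hst π)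
  have t0 : EE (fun π => ∑ i, dist (loc Wd s.x (s.y π i)) (loc Wd s.x (s.y π i))) = 0 := by
    simp only [EE, dist_self, sum_const_zero, Fintype.card_numbering, Fintype.card_prod, Fintype.card_fin, Fintype.card_option, zero_div]
  rw [t0, zero_add] at t1
  have t2 := pot_relabel_le P hp' s.x s'.x s.y
  -- relabelling
  set S := ∑ l : Fin Wd.n, Wd.r l * (η * chg (s.x l) (x' l)) with hS
  have t3 : ∑ u, p' u * XC P s.x s'.x u u ≤ 24 * RR Wd.k * (200 * S) := by
    rw [s5_sum_XC, hs'x]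
    have hRR : 0 ≤ 24 * RR Wd.k := by
      have := s5_RR Wd
      (clear * - this; positivity)
    apply mul_le_mul_of_nonneg_left _ hRR
    rw [hS, Finset.mul_sum]
    refine Finset.sum_le_sum fun l _ => ?_
    have e1 := relabel_prox (Dl_pm (X := X) Wd.hr0 l) P l (s.x l) (x' l) (hB l) hpk' (hA l)
    have e2 : ∑ u, p' u * EL P l (s.x l) (x' l) u u ≤ 200 * η * chg (s.x l) (x' l) := e1
    refine (mul_le_mul_of_nonneg_left e2 (s5_r_pos Wd l).le).trans (le_of_eq ?_)
    ring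
  have t4 : ∑ l : Fin Wd.n, Wd.r l * FF (Dl Wd.r0 l) p' (nuC η (x' l)) + S / 2 ≤
      ∑ l : Fin Wd.n, Wd.r l * FF (Dl Wd.r0 l) p' (nuC η (s.x l)) := by
    rw [hS, Finset.sum_div, ← Finset.sum_add_distrib]
    refine Finset.sum_le_sum fun l _ => ?_
    refine le_trans (le_of_eq ?_) (mul_le_mul_of_nonneg_left (hF l) (s5_r_pos Wd l).le)
    ring
  have t5 := mul_le_mul_of_nonneg_left t4 (s5_A1_nonneg Wd)
  have t6 := mul_le_mul_of_nonneg_left t3 (s5_Gam Wd)
  have t7 : Wd.Gam * (24 * RR Wd.k * (200 * S)) = Wd.A1 * (S / 2) := by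
    unfold World.A1
    ring
  rw [t7] at t6
  rw [hs'x] at t1 t2 t6
  rw [mul_add] at t5
  constructor
  · unfold PotT World.g32
    rw [hs'x]
    (clear * - t1 t2; linarith)
  · unfold PotF
    rw [hs'x]
    linarith only [t5, t6]

/-- TRANSPORT STEP -/
theorem transport_step2 (P : LPar η Wd.k J) {p : X → ℝ} {s : St Wd J P.B} (hI : Inv P p s)
    (hpk : ∑ u, p u ≤ Wd.k) {a : X → X → ℝ} (ha : ∀ u v, 0 ≤ a u v)
    (hap : ∀ u, ∑ v, a u v ≤ p u) (hα : ∑ u, ∑ v, a u v ≤ e0 / 8) :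
    ∃ s' : St Wd J P.B, Inv P (push p a) s' ∧
      PhC s s' + TrC s s' + PotT P (push p a) s' ≤ PotT P p s
        + Wd.g32 * (∑ u, push p a u * XC P s.x s'.x u u + ∑ u, ∑ v, a u v * XC P s.x s.x u v)
        + 130 * Wd.G2 * ∑ u, ∑ v, a u v * dist u v ∧
      Wd.Gam * (∑ u, push p a u * XC P s.x s'.x u u + ∑ u, ∑ v, a u v * XC P s.x s.x u v)
        + PotF P (push p a) s' ≤ PotF P p s
        + (Wd.CT - 130 * Wd.G2) * (∑ u, ∑ v, a u v * dist u v)
        + Wd.err (∑ u, ∑ v, a u v) η (η * Fintype.card J / P.Q) := by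
  have hη := P.hη
  have hX : Nonempty X := ⟨Wd.x0⟩
  have hpn : ∀ u, 0 ≤ push p a u := k5_push_nonneg ha hap
  have hps : ∑ u, push p a u ≤ Wd.k := by
    rw [k5_sum_push]
    exact hpk
  obtain ⟨xd, x', hm, hA, hB, hd, hF, hfo⟩ := exists_tokens P hI hpk ha hap hα
  obtain ⟨s', hs'x, hI', hst⟩ := exists_tracks P hI.len hpn hps x' hB
  refine ⟨s', hI', ?_⟩
  have t1 := tracks_cost_le P hI hI' (xd := xd) hm
    (fun l => by rw [hs'x]; exact hA l) (fun π => by rw [hs'x]; exact hst π)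
  have t2 := pot_relabel_le P hpn s.x s'.x s.y
  have t3 := pot_push_le P (p := p) ha s.x s.y
  set α := ∑ u, ∑ v, a u v with hαd
  set Δ := ∑ u, ∑ v, a u v * dist u v with hΔ
  set q := η * Fintype.card J / P.Q with hq
  have hα0 : 0 ≤ α := Finset.sum_nonneg fun u _ => Finset.sum_nonneg fun v _ => ha u v
  have hΔ0 : 0 ≤ Δ := Finset.sum_nonneg fun u _ => Finset.sum_nonneg fun v _ =>
    mul_nonneg (ha u v) dist_nonneg
  have hq0 : 0 ≤ q := by (clear * - hη; positivity)
  have hk := Wd.hk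
  have hα1 : α ≤ 1 := by
    refine hα.trans ?_
    unfold e0
    norm_num
  set S := ∑ l : Fin Wd.n, Wd.r l * (η * chg (xd l) (x' l)
    + ∑ u, ∑ v, a u v * GP (Dl Wd.r0 l) p (nuC η (s.x l)) u v) with hS
  set R := ∑ l : Fin Wd.n, Wd.r l with hR
  have hR0 : 0 ≤ R := Finset.sum_nonneg fun l _ => (s5_r_pos Wd l).le
  have hRR : 0 ≤ 24 * RR Wd.k := by
    have := s5_RR Wd
    (clear * - this; positivity)
  -- relabellings
  have r1 : ∑ u, push p a u * XC P s.x s'.x u u ≤
      24 * RR Wd.k * (200 * S + 1200000 * Gk Wd.k * Δ + R * (200 * α ^ 2 + 200 * Wd.k * q)) := by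
    have e1 := relabel_total P (x := s.x) (xd := xd) (x' := x') hI.bal hpk ha hap hd hA hB
    rw [hs'x]
    refine e1.trans (le_of_eq ?_)
    have e3 : ∑ l : Fin Wd.n, Wd.r l * (200 * (η * chg (xd l) (x' l)
        + ∑ u, ∑ v, a u v * GP (Dl Wd.r0 l) p (nuC η (s.x l)) u v)) = 200 * S := by
      rw [hS, Finset.mul_sum]
      refine Finset.sum_congr rfl fun l _ => ?_
      ring
    rw [hR, Finset.sum_mul, e3]
  have r2 : ∑ u, ∑ v, a u v * XC P s.x s.x u v ≤
      24 * RR Wd.k * ((3000 * Gk Wd.k + 64 * slp) * Δ + α * (R * (200 * q))) := by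
    have e1 : ∀ u v, a u v * XC P s.x s.x u v ≤
        (24 * RR Wd.k * (3000 * Gk Wd.k + 64 * slp)) * (a u v * dist u v)
          + (24 * RR Wd.k * (R * (200 * q))) * a u v := by
      intro u v
      have e2 := mul_le_mul_of_nonneg_left (cut_total P hI.bal hpk u v) (ha u v)
      refine e2.trans (le_of_eq ?_)
      rw [hR, Finset.sum_mul]
      ring
    calc ∑ u, ∑ v, a u v * XC P s.x s.x u v ≤ ∑ u, ∑ v,
          ((24 * RR Wd.k * (3000 * Gk Wd.k + 64 * slp)) * (a u v * dist u v)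
          + (24 * RR Wd.k * (R * (200 * q))) * a u v) :=
          Finset.sum_le_sum fun u _ => Finset.sum_le_sum fun v _ => e1 u v
      _ = _ := by
          simp only [Finset.sum_add_distrib, ← Finset.mul_sum]
          rw [← hΔ, ← hαd]
          ring
  -- tokens
  have f1 : ∑ l : Fin Wd.n, Wd.r l * FF (Dl Wd.r0 l) (push p a) (nuC η (x' l)) + S / 2 ≤
      ∑ l : Fin Wd.n, Wd.r l * FF (Dl Wd.r0 l) p (nuC η (s.x l))
        + (600 * Gk Wd.k + 1000 * slp + 64 * slp * Real.log (60 * Wd.k)) * Δ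
        + R * (4000 * Wd.k * α ^ 2 + (1 + Wd.k / e0) * (2 * η * (Fintype.card X : ℝ) ^ 2)) := by
    set E := 4000 * Wd.k * α ^ 2 + (1 + Wd.k / e0) * (2 * η * (Fintype.card X : ℝ) ^ 2) with hE
    have e1 : ∑ l : Fin Wd.n, Wd.r l * FF (Dl Wd.r0 l) (push p a) (nuC η (x' l)) + S / 2 ≤
        ∑ l : Fin Wd.n, (Wd.r l * FF (Dl Wd.r0 l) p (nuC η (s.x l))
          + Wd.r l * (∑ u, ∑ v, a u v * (if slp * Dl Wd.r0 l u v ≤ 1 / 32 then
            600 * (Dl Wd.r0 l u v * gs (Dl Wd.r0 l) p (nuC η (s.x l)) u)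
              + 8000 * slp * Dl Wd.r0 l u v ^ 2
            else Real.log (60 * Wd.k))) + Wd.r l * E) := by
      rw [hS, Finset.sum_div, ← Finset.sum_add_distrib]
      refine Finset.sum_le_sum fun l _ => ?_
      refine le_trans (le_of_eq ?_) ((mul_le_mul_of_nonneg_left (hF l) (s5_r_pos Wd l).le).trans
        (le_of_eq ?_))
      · ring
      · rw [hE]
        ring
    rw [Finset.sum_add_distrib, Finset.sum_add_distrib, ← Finset.sum_mul] at e1
    have e2 : ∑ l : Fin Wd.n, Wd.r l * (∑ u, ∑ v, a u v * (if slp * Dl Wd.r0 l u v ≤ 1 / 32 then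
            600 * (Dl Wd.r0 l u v * gs (Dl Wd.r0 l) p (nuC η (s.x l)) u)
              + 8000 * slp * Dl Wd.r0 l u v ^ 2
            else Real.log (60 * Wd.k))) ≤
        (600 * Gk Wd.k + 1000 * slp + 64 * slp * Real.log (60 * Wd.k)) * Δ := by
      have e3 : ∑ l : Fin Wd.n, Wd.r l * (∑ u, ∑ v, a u v * (if slp * Dl Wd.r0 l u v ≤ 1 / 32 then
            600 * (Dl Wd.r0 l u v * gs (Dl Wd.r0 l) p (nuC η (s.x l)) u)
              + 8000 * slp * Dl Wd.r0 l u v ^ 2
            else Real.log (60 * Wd.k))) = ∑ u, ∑ v, a u v * ∑ l : Fin Wd.n,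
          Wd.r l * (if slp * Dl Wd.r0 l u v ≤ 1 / 32 then
            600 * (Dl Wd.r0 l u v * gs (Dl Wd.r0 l) p (nuC η (s.x l)) u)
              + 8000 * slp * Dl Wd.r0 l u v ^ 2
            else Real.log (60 * Wd.k)) := by
        simp only [Finset.mul_sum]
        rw [Finset.sum_comm]
        refine Finset.sum_congr rfl fun u _ => ?_
        rw [Finset.sum_comm]
        refine Finset.sum_congr rfl fun v _ => Finset.sum_congr rfl fun l _ => ?_
        ring
      rw [e3, hΔ, Finset.mul_sum]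
      refine Finset.sum_le_sum fun u _ => ?_
      rw [Finset.mul_sum]
      refine Finset.sum_le_sum fun v _ => ?_
      have hd0 : 0 ≤ dist u v := dist_nonneg
      have hlog : 0 ≤ Real.log (60 * Wd.k) := Real.log_nonneg (by linarith only [hk])
      have e4 : ∀ l : Fin Wd.n, Wd.r l * (if slp * Dl Wd.r0 l u v ≤ 1 / 32 then
            600 * (Dl Wd.r0 l u v * gs (Dl Wd.r0 l) p (nuC η (s.x l)) u)
              + 8000 * slp * Dl Wd.r0 l u v ^ 2
            else Real.log (60 * Wd.k)) ≤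
          600 * (dist u v * gs (Dl Wd.r0 l) p (nuC η (s.x l)) u)
          + 8000 * ((Wd.r0 * 2 ^ (l : ℕ)) *
              (if slp * (dist u v / (Wd.r0 * 2 ^ (l : ℕ))) ≤ 1 / 32 then
                slp * (dist u v / (Wd.r0 * 2 ^ (l : ℕ))) ^ 2 else 0))
          + Real.log (60 * Wd.k) *
            (if slp * (dist u v / (Wd.r0 * 2 ^ (l : ℕ))) ≤ 1 / 32 then 0 else Wd.r0 * 2 ^ (l : ℕ)) := by
        intro l
        have hg := gs_nonneg (Dl_pm (X := X) Wd.hr0 l) (hI.bal l) u
        have hDd : dist u v / (Wd.r0 * 2 ^ (l : ℕ)) = Dl Wd.r0 l u v := rfl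
        have hrd : Wd.r0 * 2 ^ (l : ℕ) = Wd.r l := rfl
        rw [hDd, hrd]
        split_ifs with h
        · have e5 : Wd.r l * (600 * (Dl Wd.r0 l u v * gs (Dl Wd.r0 l) p (nuC η (s.x l)) u)
              + 8000 * slp * Dl Wd.r0 l u v ^ 2) =
              600 * ((Wd.r l * Dl Wd.r0 l u v) * gs (Dl Wd.r0 l) p (nuC η (s.x l)) u)
              + 8000 * (Wd.r l * (slp * Dl Wd.r0 l u v ^ 2)) := by ring
          rw [e5, s5_r_Dl]
          linarith only []
        · have e6 : 0 ≤ 600 * (dist u v * gs (Dl Wd.r0 l) p (nuC η (s.x l)) u) := by (clear * - hg; positivity)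
          linarith only [e6]
      have e7 := Finset.sum_le_sum fun (l : Fin Wd.n) (_ : l ∈ univ) => e4 l
      rw [Finset.sum_add_distrib, Finset.sum_add_distrib, ← Finset.mul_sum, ← Finset.mul_sum,
        ← Finset.mul_sum, ← Finset.mul_sum] at e7
      have g1 := sum_gs_le Wd.hr0 Wd.n (ν := fun l => nuC η (s.x l)) Wd.hk Wd.hsl hpk hI.bal u
      have g2 := mul_le_mul_of_nonneg_left g1 hd0
      have g3 := sum_scale_sq_le' Wd.hr0 hd0 Wd.n
      have g4 := mul_le_mul_of_nonneg_left (sum_scale_small_le' Wd.hr0 hd0 Wd.n) hlog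
      have g5 : ∑ l : Fin Wd.n, Wd.r l * (if slp * Dl Wd.r0 l u v ≤ 1 / 32 then
            600 * (Dl Wd.r0 l u v * gs (Dl Wd.r0 l) p (nuC η (s.x l)) u)
              + 8000 * slp * Dl Wd.r0 l u v ^ 2
            else Real.log (60 * Wd.k)) ≤
          (600 * Gk Wd.k + 1000 * slp + 64 * slp * Real.log (60 * Wd.k)) * dist u v := by
        have hsd : 0 ≤ slp * dist u v := mul_nonneg slp_pos.le hd0
        linarith only [e7, g2, g3, g4, hsd]
      refine (mul_le_mul_of_nonneg_left g5 (ha u v)).trans (le_of_eq ?_)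
      ring
    (clear * - e1 e2; linarith)
  have f2 := mul_le_mul_of_nonneg_left f1 (s5_A1_nonneg Wd)
  have hGam := s5_Gam Wd
  have r3 := mul_le_mul_of_nonneg_left (add_le_add r1 r2) hGam
  have r5 : Wd.Gam * (24 * RR Wd.k * (200 * S + 1200000 * Gk Wd.k * Δ
        + R * (200 * α ^ 2 + 200 * Wd.k * q))
      + 24 * RR Wd.k * ((3000 * Gk Wd.k + 64 * slp) * Δ + α * (R * (200 * q)))) ≤
      Wd.A1 * (S / 2) + 24 * RR Wd.k * Wd.Gam * (1300000 * Gk Wd.k + 64 * slp) * Δ
        + R * (24 * RR Wd.k * Wd.Gam * (200 * α ^ 2 + 400 * Wd.k * q)) := by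
    have e1 : Wd.A1 * (S / 2) = 24 * RR Wd.k * Wd.Gam * (200 * S) := by
      unfold World.A1
      ring
    have hc : 0 ≤ 24 * RR Wd.k * Wd.Gam := mul_nonneg hRR hGam
    have e2 : 200 * S + 1200000 * Gk Wd.k * Δ + R * (200 * α ^ 2 + 200 * Wd.k * q)
        + ((3000 * Gk Wd.k + 64 * slp) * Δ + α * (R * (200 * q))) ≤
        200 * S + (1300000 * Gk Wd.k + 64 * slp) * Δ + R * (200 * α ^ 2 + 400 * Wd.k * q) := by
      have g1 : 0 ≤ Gk Wd.k * Δ := mul_nonneg (s5_Gk hk) hΔ0
      have g2 : α * (R * (200 * q)) ≤ Wd.k * (R * (200 * q)) :=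
        mul_le_mul_of_nonneg_right (hα1.trans hk) (by (clear * - hR0 hη; positivity))
      linarith only [g1, g2]
    have e3 := mul_le_mul_of_nonneg_left e2 hc
    rw [e1]
    linarith only [e3]
  have herr : Wd.err α η q = Wd.A1 * (R * (4000 * Wd.k * α ^ 2
        + (1 + Wd.k / e0) * (2 * η * (Fintype.card X : ℝ) ^ 2)))
      + R * (24 * RR Wd.k * Wd.Gam * (200 * α ^ 2 + 400 * Wd.k * q)) := by
    unfold World.err
    rw [← Finset.sum_mul, ← hR]
    ring
  rw [herr]
  have hCT : Wd.CT * Δ = Wd.A1 * ((600 * Gk Wd.k + 1000 * slp + 64 * slp * Real.log (60 * Wd.k)) * Δ)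
      + 24 * RR Wd.k * Wd.Gam * (1300000 * Gk Wd.k + 64 * slp) * Δ + 130 * Wd.G2 * Δ := by
    unfold World.CT
    ring
  rw [hs'x] at t1 t2 r3
  rw [mul_add, mul_add, mul_add] at f2
  constructor
  · unfold PotT World.g32
    rw [hs'x]
    (clear * - t1 t2 t3 hfo; linarith)
  · have hCT2 : (Wd.CT - 130 * Wd.G2) * Δ = Wd.A1 * ((600 * Gk Wd.k + 1000 * slp
        + 64 * slp * Real.log (60 * Wd.k)) * Δ)
        + 24 * RR Wd.k * Wd.Gam * (1300000 * Gk Wd.k + 64 * slp) * Δ := by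
      rw [sub_mul, hCT]
      ring
    rw [hCT2]
    unfold PotF
    rw [hs'x]
    linarith only [f2, r3, r5]

end Vale.Agent.P304.Stp
end
end

section

section

/-! S6L: triangle inequalities, initial state, substep in the form needed by `compose_steps`. -/

set_option linter.all false

open Finset

namespace Vale.Agent.P304.Stp

open Vale.Agent.P304.Dyn

variable [StP]

variable {X J : Type} [MetricSpace X] [Fintype X] [DecidableEq X] [Fintype J] [DecidableEq J]
  {Wd : World X} {η : ℝ}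

theorem XC_triangleL (P : LPar η Wd.k J) (x x' x'' : Fin Wd.n → Conf X J) (u v w : X) :
    XC P x x'' u w ≤ XC P x x' u v + XC P x' x'' v w := by
  unfold XC
  rw [← EE_add]
  refine EE_mono fun π => ?_
  rw [← sum_add_distrib]
  refine sum_le_sum fun l _ => ?_
  rw [← mul_add]
  have hw : 0 ≤ Wd.wt l := by
    unfold World.wt World.r
    have h1 := RR_ge Wd.hk
    have h2 := Wd.hr0
    (clear * - h1 h2; positivity)
  refine mul_le_mul_of_nonneg_left ?_ hw
  by_cases h1 : labS P x π l u = labS P x' π l v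
  · by_cases h2 : labS P x' π l v = labS P x'' π l w
    · rw [if_pos (h1.trans h2), if_pos h1, if_pos h2]
      norm_num
    · rw [if_neg h2]
      split_ifs <;> norm_num
  · rw [if_neg h1]
    split_ifs <;> norm_num

theorem PhC_triangleL {B : ℕ} (s s' s'' : St Wd J B) : PhC s s'' ≤ PhC s s' + PhC s' s'' := by
  unfold PhC
  rw [← EE_add]
  refine EE_mono fun π => ?_
  rw [← sum_add_distrib]
  exact sum_le_sum fun i _ => dist_triangle _ _ _

theorem TrC_triangleL {B : ℕ} (s s' s'' : St Wd J B) : TrC s s'' ≤ TrC s s' + TrC s' s'' := by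
  unfold TrC
  rw [← EE_add]
  refine EE_mono fun π => ?_
  rw [← sum_add_distrib]
  refine sum_le_sum fun i _ => ?_
  have h1 := dn_triangle (fun m => (rho_pos Wd m).le) (s.y π i) (s'.y π i) (s''.y π i)
  have h2 := dn_triangle (fun m => (rho_pos Wd m).le) (s''.y π i) (s'.y π i) (s.y π i)
  linarith only [h1, h2]

/-- initial state -/
theorem exists_initL [Nonempty X] (P : LPar η Wd.k J) {p : X → ℝ} (hp : ∀ u, 0 ≤ p u)
    (hpk : ∑ u, p u ≤ Wd.k) :
    ∃ s : St Wd J P.B, Inv P p s ∧ PotT P p s ≤ 0 ∧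
      PotF P p s ≤ Wd.A1 * (3 * Wd.k) * ∑ l : Fin Wd.n, Wd.r l := by
  have hk := Wd.hk
  have hη := P.hη
  set x0 : Conf X J := fun _ => (Wd.x0, false) with hx0
  have hnu : ∀ c, nuC η x0 c = 0 := by
    intro c
    unfold nuC
    rw [filter_eq_empty_iff.2]
    · simp
    · intro j _ h
      rw [hx0, Prod.mk.injEq] at h
      exact absurd h.2 (by simp)
  have key := fun l : Fin Wd.n => exists_tokprox (Dl_pm (X := X) Wd.hr0 l) P hp hpk x0 (by
    simp only [hnu, sum_const_zero]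
    positivity)
  choose x' hA hB hF using key
  set y0 : Dyn.Ord (GG Wd.n J P.B) → Fin Wd.M → List J := fun _ _ => [] with hy0
  set s00 : St Wd J P.B := ⟨fun _ => x0, y0⟩ with hs00
  obtain ⟨s', hs'x, hI', hst⟩ := exists_tracks P (s := s00)
    (fun π i => by simp only [hs00, hy0, List.length_nil, zero_le]) hp hpk x' hB
  have hlam := lam_pos Wd
  refine ⟨s', hI', ?_, ?_⟩
  · unfold PotT
    rw [hs'x, ← EE_mul, ← EE_mul, ← EE_add]
    haveI : Nonempty (Dyn.Ord (GG Wd.n J P.B)) := inferInstance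
    refine EE_le_of_le fun π => ?_
    have h1 := hst π
    have h2 : pot Wd.rho Wd.lam p (ad P x' π) (s00.y π) ≤ 0 := by
      unfold pot
      have e1 : ∑ i : Fin Wd.M, hgt Wd.rho (s00.y π i) = 0 := by
        refine sum_eq_zero fun i _ => ?_
        simp only [hgt, hs00, hy0, sf_nil, sum_empty]
      rw [e1, mul_zero, zero_sub, neg_nonpos]
      exact sum_nonneg fun u _ => mul_nonneg (hp u) (sum_nonneg fun N _ =>
        mul_nonneg (rho_pos Wd _).le (log_cnt_nonneg _ _))
    have h3 : ∑ i, hgt Wd.rho (s'.y π i) ≤ ∑ i, dn Wd.rho (s00.y π i) (s'.y π i) := by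
      refine sum_le_sum fun i _ => ?_
      have e1 := hgt_sub_hgt Wd.rho (s00.y π i) (s'.y π i)
      have e2 := dn_nonneg (fun m => (rho_pos Wd m).le) (s'.y π i) (s00.y π i)
      have e3 : hgt Wd.rho (s00.y π i) = 0 := by
        simp [hs00, hy0, hgt, sf_nil]
      linarith only [e1, e2, e3]
    have h4 : 0 ≤ ∑ i, dn Wd.rho (s00.y π i) (s'.y π i) :=
      sum_nonneg fun i _ => dn_nonneg (fun m => (rho_pos Wd m).le) _ _
    set Dn := ∑ i, dn Wd.rho (s00.y π i) (s'.y π i) with hDn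
    set q' := pot Wd.rho Wd.lam p (ad P x' π) (s'.y π) with hq'
    have h5 : q' ≤ -(Wd.lam * Dn) := by linarith only [h2, h1]
    have h6 : 4 / Wd.lam * q' ≤ 4 / Wd.lam * (-(Wd.lam * Dn)) :=
      mul_le_mul_of_nonneg_left h5 (by positivity)
    have h7 : 4 / Wd.lam * (-(Wd.lam * Dn)) = -(4 * Dn) := by
      field_simp
    linarith only [h3, h4, h6, h7]
  · unfold PotF
    rw [hs'x, mul_assoc Wd.A1]
    have hA1 := s5_A1_nonneg Wd
    refine mul_le_mul_of_nonneg_left ?_ hA1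
    rw [mul_sum]
    refine sum_le_sum fun l _ => ?_
    rw [mul_comm (3 * Wd.k)]
    refine mul_le_mul_of_nonneg_left ?_ (s5_r_pos Wd l).le
    have h1 := hF l
    have h2 : 0 ≤ η / 2 * (chg x0 (x' l) : ℝ) := by (clear * - hη; positivity)
    have h3 : FF (Dl Wd.r0 l) p (nuC η x0) ≤ 3 * Wd.k := by
      unfold FF SS
      simp only [hnu, mul_zero, sum_const_zero, add_zero, zero_sub]
      rw [← sum_mul]
      have e1 : -Real.log e0 ≤ 3 := by
        unfold e0
        rw [one_div, Real.log_inv, neg_neg]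
        have : Real.log 20 ≤ 3 := by
          rw [Real.log_le_iff_le_exp (by norm_num)]
          have h := Real.exp_one_gt_d9
          have h2 : Real.exp 3 = Real.exp 1 ^ 3 := by
            rw [← Real.exp_nat_mul]
            norm_num
          rw [h2]
          have h3 : (2.7182818283 : ℝ) ^ 3 ≤ Real.exp 1 ^ 3 :=
            pow_le_pow_left₀ (by norm_num) h.le 3
          have h4 : (20 : ℝ) ≤ 2.7182818283 ^ 3 := by norm_num
          linarith only [h3]
        exact this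
      have e2 : 0 ≤ ∑ u, p u := sum_nonneg fun u _ => hp u
      nlinarith only [hpk, e1, e2]
    linarith

end Vale.Agent.P304.Stp
end
end
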