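import Vale.Agent.P304.Stp.S8

set_option linter.all false

section

section

/-! # P304-Dyn: the weighted engine, and `R(k) = O(log^5 k)` -/

set_option linter.all false

open Finset
open scoped NNReal ENNReal

namespace Vale.Agent.P304.Stp

open Vale.Agent.P304.Dyn

variable [StP]

open Vale.Agent.P304

section engineL

variable {X J : Type} [MetricSpace X] [Fintype X] [DecidableEq X] [Fintype J] [DecidableEq J]
  {Wd : World X} {η : ℝ}

noncomputable def psiL (P : LPar η Wd.k J) (s : St Wd J P.B) (u : X) : ℝ :=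
  psiW P s u + Wd.A1 * (∑ l : Fin Wd.n, Wd.r l * Real.log (3 * Wd.k) -
    ∑ l : Fin Wd.n, Wd.r l * Real.log (SS (Dl Wd.r0 l) (nuC η (s.x l)) u))

noncomputable def ccL (P : LPar η Wd.k J) (s : St Wd J P.B) : ℝ :=
  ccW P s + Wd.A1 * (∑ l : Fin Wd.n, Wd.r l * ∑ c, nuC η (s.x l) c)

noncomputable def World.KL (Wd : World X) : ℝ :=
  Wd.K0 + Wd.A1 * ∑ l : Fin Wd.n, Wd.r l * Real.log (3 * Wd.k)

theorem pot_split (P : LPar η Wd.k J) (p : X → ℝ) (s : St Wd J P.B) :
    Pot P p s = PotF P p s + PotT P p s := by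
  unfold Pot PotF PotT
  ring

theorem pot_psiL (P : LPar η Wd.k J) (p : X → ℝ) (s : St Wd J P.B) :
    ∑ u, p u * psiL P s u + ccL P s =
      Wd.KL * ∑ u, p u + (PotT P p s + 2 * PotF P p s) := by
  have h1 := pot_psi P p s
  rw [pot_split] at h1
  unfold psiL ccL World.KL
  have h2 : PotF P p s = Wd.A1 * ((∑ l : Fin Wd.n, Wd.r l * ∑ c, nuC η (s.x l) c) -
        ∑ u, p u * ∑ l : Fin Wd.n, Wd.r l * Real.log (SS (Dl Wd.r0 l) (nuC η (s.x l)) u)) := by
    unfold PotF
    congr 1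
    unfold FF
    simp_rw [mul_sub, sum_sub_distrib, mul_sum]
    congr 1
    rw [sum_comm]
    refine sum_congr rfl fun u _ => sum_congr rfl fun l _ => ?_
    ring
  have h3 : ∑ u, p u * (psiW P s u + Wd.A1 * (∑ l : Fin Wd.n, Wd.r l * Real.log (3 * Wd.k) -
      ∑ l : Fin Wd.n, Wd.r l * Real.log (SS (Dl Wd.r0 l) (nuC η (s.x l)) u))) =
      ∑ u, p u * psiW P s u +
        (Wd.A1 * ∑ l : Fin Wd.n, Wd.r l * Real.log (3 * Wd.k)) * ∑ u, p u -
        Wd.A1 * ∑ u, p u * ∑ l : Fin Wd.n,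
          Wd.r l * Real.log (SS (Dl Wd.r0 l) (nuC η (s.x l)) u) := by
    generalize ∑ l : Fin Wd.n, Wd.r l * Real.log (3 * Wd.k) = A
    have e1 : ∀ u, p u * (psiW P s u + Wd.A1 * (A -
        ∑ l : Fin Wd.n, Wd.r l * Real.log (SS (Dl Wd.r0 l) (nuC η (s.x l)) u))) =
        p u * psiW P s u + (Wd.A1 * A) * p u - Wd.A1 * (p u *
          ∑ l : Fin Wd.n, Wd.r l * Real.log (SS (Dl Wd.r0 l) (nuC η (s.x l)) u)) := fun u => by
      ring
    rw [sum_congr rfl fun u _ => e1 u, sum_sub_distrib, sum_add_distrib, ← mul_sum, ← mul_sum]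
  rw [h3]
  rw [mul_sub] at h2
  linarith

theorem psiL_nonneg (P : LPar η Wd.k J) {p : X → ℝ} {s : St Wd J P.B} (hI : Inv P p s)
    (hpk : ∑ u, p u ≤ Wd.k) (u : X) : 0 ≤ psiL P s u := by
  have hk := Wd.hk
  have h0 := psiW_nonneg P hI hpk u
  have h1 : ∑ l : Fin Wd.n, Wd.r l * Real.log (SS (Dl Wd.r0 l) (nuC η (s.x l)) u) ≤
      ∑ l : Fin Wd.n, Wd.r l * Real.log (3 * Wd.k) := by
    refine sum_le_sum fun l _ => mul_le_mul_of_nonneg_left ?_ (r_pos Wd l).le
    have hb := hI.bal l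
    refine Real.log_le_log (SS_pos hb.hν u) ?_
    refine (SS_le (Dl_pm Wd.hr0 l) hb.hν u).trans ?_
    have h2 := sum_nu_le hb
    have h3 : (e0 : ℝ) = 1 / 20 := rfl
    linarith
  have h2 := mul_nonneg (A1_pos Wd).le (sub_nonneg.2 h1)
  unfold psiL
  linarith only [h0, h2]

theorem ccL_nonneg (P : LPar η Wd.k J) (s : St Wd J P.B) : 0 ≤ ccL P s := by
  have h0 := ccW_nonneg P s
  have h1 := mul_nonneg (A1_pos Wd).le (sum_nonneg fun (l : Fin Wd.n) (_ : l ∈ univ) =>
    mul_nonneg (r_pos Wd l).le (sum_nonneg fun (c : X) (_ : c ∈ univ) =>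
      nuC_nonneg P.hη.le (s.x l) c))
  unfold ccL
  linarith only [h0, h1]

/-- the weight of the address costs -/
noncomputable def World.La (Wd : World X) : ℝ := 2 + Wd.g32

theorem g32_nonneg (Wd : World X) : 0 ≤ Wd.g32 := by
  unfold World.g32
  positivity

theorem La_eq (Wd : World X) : Wd.La = 2 * Wd.Gam - Wd.g32 := by
  unfold World.La World.Gam World.g32
  ring

/-- the two coefficients of the error -/
noncomputable def World.E1 (Wd : World X) : ℝ :=
  (∑ l : Fin Wd.n, Wd.r l) * (Wd.A1 * (4000 * Wd.k) + 24 * RR Wd.k * Wd.Gam * 200)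

noncomputable def World.E2 (Wd : World X) (η q : ℝ) : ℝ :=
  (∑ l : Fin Wd.n, Wd.r l) * (Wd.A1 * ((1 + Wd.k / e0) * (2 * η * (Fintype.card X : ℝ) ^ 2)) +
    24 * RR Wd.k * Wd.Gam * (400 * Wd.k * q))

theorem err_eq (Wd : World X) (α η q : ℝ) :
    Wd.err α η q = Wd.E1 * α ^ 2 + Wd.E2 η q := by
  unfold World.err World.E1 World.E2
  rw [← sum_mul]
  ring

theorem G2_nonneg (Wd : World X) : 0 ≤ Wd.G2 := by
  have hk := Wd.hk
  have h1 := lam_pos Wd
  have h2 := RR_pos' Wd
  have h3 : 0 ≤ Real.log ((Wd.k + e0) / e0) := by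
    apply Real.log_nonneg
    have h4 : (e0 : ℝ) = 1 / 20 := rfl
    rw [h4]
    rw [le_div_iff₀ (by norm_num)]
    linarith only [hk]
  unfold World.G2
  (clear * - h1 h2 h3; positivity)

/-- bound of the initial potential -/
noncomputable def World.BL (Wd : World X) : ℝ :=
  Wd.KL * Wd.k + 2 * (Wd.A1 * (3 * Wd.k) * ∑ l : Fin Wd.n, Wd.r l)

theorem exists_engL [Nonempty X] (P : LPar η Wd.k J) {k : ℕ} (hk : Wd.k = k) (hkM : k ≤ Wd.M)
    {N : ℕ} (hN : 1 ≤ N) (hN2 : Wd.k / N ≤ e0 / 8) {ε : ℝ}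
    (hε : N * Wd.err (Wd.k / N) η (η * Fintype.card J / P.Q) ≤ ε / 2)
    {p0 : X → ℝ} (hp0 : ∀ x, 0 ≤ p0 x) (hp0k : ∑ x, p0 x = k) {Ck : ℝ} (hCk : 2 * Wd.CT ≤ Ck) :
    Nonempty (EngL X k Wd.n Wd.WW p0 4 Wd.La Ck Wd.BL ε) := by
  obtain ⟨s0, hs0, hs0T, hs0F⟩ := exists_initL P hp0 (by rw [hp0k, hk])
  have hLa : 0 ≤ Wd.La := by
    have := g32_nonneg Wd
    unfold World.La
    linarith only [this]
  refine ⟨{
    M := Wd.M
    kM := hkM
    Ω := Dyn.Ord (GG Wd.n J P.B)
    fin := inferInstance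
    ne := inferInstance
    S := St Wd J P.B
    loc := fun s π i => loc Wd s.x (s.y π i)
    na := fun s π i => nodeAddr Wd.n Wd.WW (s.y π i)
    ad := fun s π x => nodeAddr Wd.n Wd.WW (ad P s.x π x)
    psi := psiL P
    cc := ccL P
    Inv := fun p s => ∑ x, p x = k ∧ Inv P p s
    s0 := s0
    inv0 := ⟨hp0k, hs0⟩
    pot0 := ?_
    psi_nonneg := fun p s h x => psiL_nonneg P h.2 (by rw [h.1, hk]) x
    cc_nonneg := fun p s _ => ccL_nonneg P s
    cover := ?_
    geom := fun p s h u hu π i => geom_le P h.2 hu π i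
    step := ?_ }⟩
  · rw [pot_psiL, hp0k]
    unfold World.BL
    rw [hk] at hs0F ⊢
    linarith only [hs0T, hs0F]
  · intro p s h u hu π
    obtain ⟨hlen, i, hi⟩ := h.2.lf π u hu
    refine ⟨i, ?_, ?_⟩
    · simp only [hi]
      exact loc_full P s.x π u hlen
    · simp only [hi]
  · intro p s h q hq hqk
    have hcomp := compose_steps (X := X) (S := St Wd J P.B) (fun x y => dist x y)
      (k := k) (Ck := Ck) (C1 := 2 * Wd.E1) (del := 2 * Wd.E2 η (η * Fintype.card J / P.Q))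
      (α0 := e0 / 8) (fun p s => ∑ x, p x = k ∧ Inv P p s) (psiL P) (ccL P)
      (fun s s' => PhC s s' + TrC s s')
      (fun a b c => by
        have h1 := PhC_triangleL a b c
        have h2 := TrC_triangleL a b c
        linarith only [h1, h2])
      (fun s x s' y => Wd.La * XC P s.x s'.x x y)
      (fun a x b y c z => by
        have h1 := XC_triangleL P a.x b.x c.x x y z
        have h2 := mul_le_mul_of_nonneg_left h1 hLa
        linarith only [h2])
      (fun p s h p' hp' hpk' => by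
        obtain ⟨s', h1, h2, h3⟩ := info_step2 P h.2 (by rw [h.1, hk]) hp' (by rw [hpk', hk])
        refine ⟨s', ⟨hpk', h1⟩, ?_⟩
        rw [pot_psiL, pot_psiL]
        have h4 : ∑ x, p' x * (Wd.La * XC P s.x s'.x x x) =
            Wd.La * ∑ x, p' x * XC P s.x s'.x x x := by
          rw [mul_sum]
          exact sum_congr rfl fun x _ => by ring
        rw [h4, La_eq]
        linarith only [h2, h3])
      (fun p s h a ha hap hα => by
        obtain ⟨s', h1, h2, h3⟩ := transport_step2 P h.2 (by rw [h.1, hk]) ha hap hα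
        have hsum : ∑ x, push p a x = k := by
          rw [k5_sum_push]
          exact h.1
        refine ⟨s', ⟨hsum, h1⟩, ?_⟩
        have hpp : ∑ y, (p y + ∑ u, a u y - ∑ v, a y v) * psiL P s' y + ccL P s' =
            Wd.KL * k + (PotT P (push p a) s' + 2 * PotF P (push p a) s') := by
          have := pot_psiL P (push p a) s'
          rw [hsum] at this
          exact this
        rw [hpp, pot_psiL, h.1]
        -- address costs
        have h4 : ∑ u, (p u - ∑ v, a u v) * (Wd.La * XC P s.x s'.x u u) +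
            ∑ u, ∑ v, a u v * (Wd.La * XC P s.x s'.x u v) ≤
            Wd.La * (∑ u, push p a u * XC P s.x s'.x u u + ∑ u, ∑ v, a u v * XC P s.x s.x u v) := by
          have e1 : ∑ u, ∑ v, a u v * (Wd.La * XC P s.x s'.x u v) ≤
              ∑ u, ∑ v, (a u v * (Wd.La * XC P s.x s.x u v) +
                a u v * (Wd.La * XC P s.x s'.x v v)) := by
            refine sum_le_sum fun u _ => sum_le_sum fun v _ => ?_
            have t1 := XC_triangleL P s.x s.x s'.x u v v
            have t2 := mul_le_mul_of_nonneg_left (mul_le_mul_of_nonneg_left t1 hLa) (ha u v)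
            linarith only [t2]
          refine (add_le_add le_rfl e1).trans (le_of_eq ?_)
          simp only [sum_add_distrib]
          have e2 : ∑ u, ∑ v, a u v * (Wd.La * XC P s.x s'.x v v) =
              ∑ v, (∑ u, a u v) * (Wd.La * XC P s.x s'.x v v) := by
            rw [sum_comm]
            exact sum_congr rfl fun v _ => by rw [sum_mul]
          rw [e2, mul_add, mul_sum, mul_sum]
          have e3 : ∑ u, Wd.La * (push p a u * XC P s.x s'.x u u) =
              ∑ u, (p u - ∑ v, a u v) * (Wd.La * XC P s.x s'.x u u) +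
              ∑ v, (∑ u, a u v) * (Wd.La * XC P s.x s'.x v v) := by
            rw [← sum_add_distrib]
            refine sum_congr rfl fun u _ => ?_
            unfold push
            ring
          have e4 : ∑ u, Wd.La * ∑ v, a u v * XC P s.x s.x u v =
              ∑ u, ∑ v, a u v * (Wd.La * XC P s.x s.x u v) := by
            refine sum_congr rfl fun u _ => ?_
            rw [mul_sum]
            exact sum_congr rfl fun v _ => by ring
          rw [e3, e4]
          ring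
        rw [La_eq] at h4 ⊢
        rw [err_eq] at h3
        have h5 : 0 ≤ ∑ u, ∑ v, a u v * dist u v :=
          sum_nonneg fun u _ => sum_nonneg fun v _ => mul_nonneg (ha u v) dist_nonneg
        have h6 : 0 ≤ Wd.G2 * ∑ u, ∑ v, a u v * dist u v := mul_nonneg (G2_nonneg Wd) h5
        have h7 := mul_le_mul_of_nonneg_right hCk h5
        linarith only [h2, h3, h4, h6, h7])
      (N := N) (by omega) (by rw [← hk]; exact hN2) h hq hqk
    obtain ⟨s', h1, h2⟩ := hcomp
    refine ⟨s', h1, ?_⟩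
    have e1 : (∑ π : Dyn.Ord (GG Wd.n J P.B),
        (∑ i, dist (loc Wd s.x (s.y π i)) (loc Wd s'.x (s'.y π i)) +
        ∑ i, dist (nodeAddr Wd.n Wd.WW (s.y π i)) (nodeAddr Wd.n Wd.WW (s'.y π i)) +
        Wd.La * ∑ x, ∑ y, q x y * dist (nodeAddr Wd.n Wd.WW (ad P s.x π x))
          (nodeAddr Wd.n Wd.WW (ad P s'.x π y)))) / (Fintype.card (Dyn.Ord (GG Wd.n J P.B)) : ℝ) =
        PhC s s' + EE (fun π => ∑ i, dist (nodeAddr Wd.n Wd.WW (s.y π i))
          (nodeAddr Wd.n Wd.WW (s'.y π i))) +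
        Wd.La * ∑ x, ∑ y, q x y * EE (fun π => dist (nodeAddr Wd.n Wd.WW (ad P s.x π x))
          (nodeAddr Wd.n Wd.WW (ad P s'.x π y))) := by
      have : ∑ x, ∑ y, q x y * EE (fun π => dist (nodeAddr Wd.n Wd.WW (ad P s.x π x))
          (nodeAddr Wd.n Wd.WW (ad P s'.x π y))) =
          EE (fun π => ∑ x, ∑ y, q x y * dist (nodeAddr Wd.n Wd.WW (ad P s.x π x))
          (nodeAddr Wd.n Wd.WW (ad P s'.x π y))) := by
        rw [EE_sum]
        refine sum_congr rfl fun x _ => ?_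
        rw [EE_sum]
        refine sum_congr rfl fun y _ => ?_
        rw [EE_mul]
      rw [this]
      unfold PhC
      rw [← EE_mul, ← EE_add, ← EE_add]
      rfl
    rw [e1]
    have e2 : EE (fun π => ∑ i, dist (nodeAddr Wd.n Wd.WW (s.y π i))
        (nodeAddr Wd.n Wd.WW (s'.y π i))) ≤ TrC s s' := by
      unfold TrC
      exact EE_mono fun π => sum_le_sum fun i _ => dist_node_le Wd _ _
    have e3 : Wd.La * ∑ x, ∑ y, q x y * EE (fun π => dist (nodeAddr Wd.n Wd.WW (ad P s.x π x))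
        (nodeAddr Wd.n Wd.WW (ad P s'.x π y))) ≤
        ∑ x, ∑ y, q x y * (Wd.La * XC P s.x s'.x x y) := by
      have e31 : ∑ x, ∑ y, q x y * (Wd.La * XC P s.x s'.x x y) =
          Wd.La * ∑ x, ∑ y, q x y * XC P s.x s'.x x y := by
        rw [mul_sum]
        refine sum_congr rfl fun x _ => ?_
        rw [mul_sum]
        exact sum_congr rfl fun y _ => by ring
      rw [e31]
      refine mul_le_mul_of_nonneg_left ?_ hLa
      refine sum_le_sum fun x _ => sum_le_sum fun y _ => mul_le_mul_of_nonneg_left ?_ (hq x y)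
      unfold XC
      refine EE_mono fun π => ?_
      convert dist_ad_le P s.x s'.x π x y
    have e4 : 2 * Wd.E1 * (k : ℝ) ^ 2 / N + N * (2 * Wd.E2 η (η * Fintype.card J / P.Q)) ≤ ε := by
      have hk2 : Wd.k / (N : ℝ) = (k : ℝ) / N := by rw [hk]
      rw [err_eq, hk2] at hε
      have hN0 : (0 : ℝ) < N := by exact_mod_cast hN
      have e5 : (N : ℝ) * (Wd.E1 * ((k : ℝ) / N) ^ 2 + Wd.E2 η (η * Fintype.card J / P.Q)) =
          Wd.E1 * (k : ℝ) ^ 2 / N + N * Wd.E2 η (η * Fintype.card J / P.Q) := by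
        field_simp
      rw [e5] at hε
      have e6 : 2 * Wd.E1 * (k : ℝ) ^ 2 / N + N * (2 * Wd.E2 η (η * Fintype.card J / P.Q)) =
          2 * (Wd.E1 * (k : ℝ) ^ 2 / N + N * Wd.E2 η (η * Fintype.card J / P.Q)) := by
        ring
      rw [e6]
      linarith only [hε]
    linarith only [h2, e2, e3, e4]

end engineL

end Vale.Agent.P304.Stp
end
end

section

section

open Finset
open scoped NNReal ENNReal

namespace Vale.Agent.P304.Stp

open Vale.Agent.P304 Vale.Agent.P304.Dyn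


/-- slope used for `k` servers -/
noncomputable def slpk (k : ℕ) : ℝ := max 2 (Real.log (1 / tau (k : ℝ)))

theorem slpk_le {k : ℕ} (hk : 1 ≤ k) : slpk k ≤ 10 * (1 + Real.log k) := by
  have hk' : (1 : ℝ) ≤ k := by exact_mod_cast hk
  have hlog : 0 ≤ Real.log k := Real.log_nonneg hk'
  have h1 : (1 : ℝ) / tau (k : ℝ) = 2000 * k := by
    unfold tau e0
    have : (k : ℝ) ≠ 0 := by linarith only [hk']
    field_simp
    norm_num
  unfold slpk
  refine max_le (by linarith only [hlog]) ?_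
  rw [h1, Real.log_mul (by norm_num) (by linarith only [hk'])]
  have := s7_log_2000_le
  linarith only [this, hlog]

/-- **Sharper reduction to ultrametrics.** -/
theorem R_le_mix : ∃ C : ℝ, 0 < C ∧ ∀ k : ℕ, 1 ≤ k → ∀ c : ℝ≥0, Rult k < c →
    R k ≤ ENNReal.ofReal (C * ((1 + Real.log k) ^ 2 * ((1 + Real.log k) ^ 2 + c))) := by
  obtain ⟨C, hC1⟩ : ∃ C : ℝ, C = 1000000000000000 := ⟨_, rfl⟩
  have hC0 : 0 < C := by rw [hC1]; norm_num
  refine ⟨16 * C, by positivity, fun k hk c hRc => ?_⟩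
  haveI : NeZero k := ⟨by omega⟩
  have hk' : (1 : ℝ) ≤ k := by exact_mod_cast hk
  have hlog : 0 ≤ Real.log k := Real.log_nonneg hk'
  obtain ⟨L, hL⟩ : ∃ L : ℝ, L = 1 + Real.log k := ⟨_, rfl⟩
  have hL1 : 1 ≤ L := by rw [hL]; linarith only [hlog]
  have hc1 : (1 : ℝ) ≤ c := by
    have : (1 : ℝ≥0∞) ≤ c := one_le_Rult.trans hRc.le
    exact_mod_cast this
  obtain ⟨La, hLa⟩ : ∃ La : ℝ, La = 2 + 32 * Real.log (8 * k + 2) ^ 2 := ⟨_, rfl⟩
  have hLaL : 2 * L ^ 2 ≤ La := by
    have h1 : L ≤ Real.log (8 * k + 2) := by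
      have h2 : Real.log (8 * k) ≤ Real.log (8 * k + 2) :=
        Real.log_le_log (by (clear * - hk; positivity)) (by linarith only [])
      rw [Real.log_mul (by norm_num) (by positivity)] at h2
      have h3 : (1:ℝ) ≤ Real.log 8 := by
        rw [Real.le_log_iff_exp_le (by norm_num)]
        have := Real.exp_one_lt_d9
        linarith only [this]
      rw [hL]
      linarith only [h2, h3]
    have h2 : L ^ 2 ≤ Real.log (8 * k + 2) ^ 2 := pow_le_pow_left₀ (by linarith only [hlog, hL]) h1 2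
    rw [hLa]
    nlinarith only [h2]
  have hL2 : 0 < L ^ 2 := by positivity
  have hLa0 : 0 < La := by linarith only [hLaL, hL2]
  have h := R_le_of_engineL (k := k) (Cg := 4) (La := La)
    (Ck := 2 * (C * (L ^ 4))) (th := 1 + 2 * c / La) (by norm_num) (by positivity)
    (by
      have : 0 ≤ 2 * (c : ℝ) / La := by positivity
      linarith only [this]) (c := c) hc1 hRc
    (by
      have : (1 + 2 * (c : ℝ) / La) * La = La + 2 * c := by (clear * - hLa0 hc1; field_simp)
      rw [this]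
      linarith only [hLaL, hL2])
    (fun X _ _ s => by
      classical
      haveI : Nonempty X := ⟨s 0⟩
      letI : StP := ⟨slpk k, le_max_left _ _⟩
      obtain ⟨Wd, hWk, hWM, -⟩ := exists_world X k hk (s 0)
        (le_max_right 2 (Real.log (1 / tau (k : ℝ))))
      refine ⟨Wd.n, Wd.WW, Wd.BL, Wd.hn, fun ε hε => ?_⟩
      obtain ⟨η, m, P, N, hN, hN2, herr⟩ := Stp.exists_params Wd (half_pos hε)
      have hCT : 2 * Wd.CT ≤ 2 * (C * (L ^ 4)) := by
        have h0 : slp ≤ 10 * (1 + Real.log Wd.k) := by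
          rw [hWk]
          exact slpk_le hk
        have h1 := CT_le4 X Wd h0
        rw [hWk, ← hL, ← hC1] at h1
        linarith only [h1]
      have hsum : ∑ x, oc s x = k := by
        have := sum_oc s (fun _ => (1 : ℝ))
        simp only [mul_one, sum_const, card_univ, Fintype.card_fin, nsmul_eq_mul] at this
        exact this
      have hLa' : Wd.La = La := by
        rw [hLa]
        unfold World.La World.g32
        rw [hWM]
        push_cast
        rfl
      rw [← hLa']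
      exact exists_engL P hWk (by (clear * - hWM; omega)) hN hN2 herr (oc_nonneg s) hsum hCT)
  refine h.trans (ENNReal.ofReal_le_ofReal ?_)
  rw [← hL]
  have h1 : 2 * c / La * L ^ 2 ≤ c := by
    rw [div_mul_eq_mul_div, div_le_iff₀ hLa0]
    nlinarith only [hLaL]
  have h2 : 2 * (4 * (1 + 2 * c / La) * (2 * (C * (L ^ 4))))
      = 16 * C * (L ^ 2 * (L ^ 2 + 2 * c / La * L ^ 2)) := by ring
  rw [h2]
  have h3 : 0 ≤ 16 * C * (L ^ 2) := by positivity
  have h4 := mul_le_mul_of_nonneg_left (add_le_add_right h1 (L ^ 2)) h3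
  calc 16 * C * (L ^ 2 * (L ^ 2 + 2 * c / La * L ^ 2))
      = 16 * C * (L ^ 2) * (L ^ 2 + 2 * c / La * L ^ 2) := by ring
    _ ≤ 16 * C * (L ^ 2) * (L ^ 2 + c) := h4
    _ = 16 * C * (L ^ 2 * (L ^ 2 + c)) := by ring

/-- **The randomized `k`-server ratio is `O(log^4 k)` on all metric spaces.** -/
theorem R_le_log4 : ∃ C : ℝ, 0 < C ∧ ∀ k : ℕ, 1 ≤ k →
    R k ≤ ENNReal.ofReal (C * (1 + Real.log k) ^ 4) := by
  obtain ⟨C, hC0, hC⟩ := R_le_mix
  obtain ⟨D, hD0, hD⟩ := HST.exists_Rult_le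
  refine ⟨C * (2 + D), by positivity, fun k hk => ?_⟩
  have hk' : (1 : ℝ) ≤ k := by exact_mod_cast hk
  have hlog : 0 ≤ Real.log k := Real.log_nonneg hk'
  have hU0 : 0 ≤ D * (1 + Real.log k) ^ 2 := by positivity
  obtain ⟨c, hcv⟩ : ∃ c : ℝ≥0, (c : ℝ) = D * (1 + Real.log k) ^ 2 + 1 :=
    ⟨⟨D * (1 + Real.log k) ^ 2 + 1, by positivity⟩, rfl⟩
  have h := hC k hk c (by
    refine (hD k hk).trans_lt ?_
    rw [ENNReal.ofReal, ENNReal.coe_lt_coe, ← NNReal.coe_lt_coe, Real.coe_toNNReal _ hU0, hcv]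
    linarith only [])
  refine h.trans (ENNReal.ofReal_le_ofReal ?_)
  rw [hcv]
  have h1 : (1 : ℝ) ≤ (1 + Real.log k) ^ 2 := one_le_pow₀ (by linarith only [hlog])
  have h2 : (1 + Real.log k) ^ 2 + (D * (1 + Real.log k) ^ 2 + 1)
      ≤ (2 + D) * (1 + Real.log k) ^ 2 := by linarith
  have h3 : 0 ≤ (1 + Real.log k) ^ 2 := by positivity
  calc C * ((1 + Real.log k) ^ 2 * ((1 + Real.log k) ^ 2 + (D * (1 + Real.log k) ^ 2 + 1)))
      ≤ C * ((1 + Real.log k) ^ 2 * ((2 + D) * (1 + Real.log k) ^ 2)) :=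
        mul_le_mul_of_nonneg_left (mul_le_mul_of_nonneg_left h2 h3) hC0.le
    _ = C * (2 + D) * (1 + Real.log k) ^ 4 := by ring

/-- `R_le_mix` with `Rult k` itself. -/
theorem R_le_mix' : ∃ C : ℝ, 0 < C ∧ ∀ k : ℕ, 1 ≤ k →
    R k ≤ ENNReal.ofReal (C * (1 + Real.log k) ^ 2) *
      (ENNReal.ofReal ((1 + Real.log k) ^ 2) + Rult k) := by
  obtain ⟨C, hC0, hC⟩ := R_le_mix
  refine ⟨C, hC0, fun k hk => ?_⟩
  have hk' : (1 : ℝ) ≤ k := by exact_mod_cast hk
  have hlog : 0 ≤ Real.log k := Real.log_nonneg hk'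
  obtain ⟨A, hA⟩ : ∃ A : ℝ, A = C * (1 + Real.log k) ^ 2 := ⟨_, rfl⟩
  have hA0 : 0 < A := by rw [hA]; positivity
  obtain ⟨E, hE⟩ : ∃ E : ℝ, E = (1 + Real.log k) ^ 2 := ⟨_, rfl⟩
  have hE0 : 0 ≤ E := by rw [hE]; positivity
  rw [← hA, ← hE]
  have key : ∀ c : ℝ≥0, Rult k < c →
      R k ≤ ENNReal.ofReal A * (ENNReal.ofReal E + c) := by
    intro c hc
    refine (hC k hk c hc).trans (le_of_eq ?_)
    rw [show C * ((1 + Real.log k) ^ 2 *
      ((1 + Real.log k) ^ 2 + c)) = A * (E + c) by rw [hA, hE]; ring,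
      ENNReal.ofReal_mul hA0.le, ENNReal.ofReal_add hE0 c.coe_nonneg, ENNReal.ofReal_coe_nnreal]
  rcases eq_or_ne (Rult k) ⊤ with htop | htop
  · rw [htop, add_top, ENNReal.mul_top (by simpa only [ne_eq, ENNReal.ofReal_eq_zero, not_le] using hA0)]
    exact le_top
  · have hA' : ENNReal.ofReal A ≠ 0 := by simpa only [ne_eq, ENNReal.ofReal_eq_zero, not_le] using hA0
    refine ENNReal.le_of_forall_pos_le_add fun ε hε _ => ?_
    obtain ⟨c, hc⟩ : ∃ c : ℝ≥0, Rult k = c := ⟨(Rult k).toNNReal, (ENNReal.coe_toNNReal htop).symm⟩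
    have hAn : 0 < A.toNNReal := Real.toNNReal_pos.2 hA0
    have h1 := key (c + ε / A.toNNReal) (by
      rw [hc]
      have : 0 < ε / A.toNNReal := by (clear * - hε hA0; positivity)
      exact_mod_cast lt_add_of_pos_right c this)
    refine h1.trans (le_of_eq ?_)
    rw [hc, ENNReal.coe_add, ← add_assoc, mul_add _ (ENNReal.ofReal E + (c : ℝ≥0∞))]
    congr 1
    rw [ENNReal.ofReal, ← ENNReal.coe_mul, mul_div_cancel₀ _ hAn.ne']

end Vale.Agent.P304.Stp
end
end
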